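import Crest.Agent.R83.AGX

/-! Row 83, task AG1 (gauge data from the tree). -/

set_option autoImplicit false

noncomputable section

namespace Crest.Agent.R83

open MeasureTheory Set Filter Topology Metric
open scoped Gradient RealInnerProductSpace NNReal

namespace AG1

/-- descendant of `P` along `R` -/
def wd : (m : ℕ) → List Bool → (Fin m → Bool) → List Bool
  | 0, P, _ => P
  | m + 1, P, R => wd m (R 0 :: P) (Fin.tail R)

/-- sum over the descendants at depth `m` -/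
def D (m : ℕ) (P : List Bool) (f : List Bool → ℝ) : ℝ := ∑ R : Fin m → Bool, f (wd m P R)

lemma D_zero (P : List Bool) (f : List Bool → ℝ) : D 0 P f = f P := by simp [D, wd]

lemma D_succ (m : ℕ) (P : List Bool) (f : List Bool → ℝ) :
    D (m + 1) P f = D m (false :: P) f + D m (true :: P) f := by
  unfold D
  rw [← (Fin.consEquiv fun _ : Fin (m + 1) => Bool).sum_comp, Fintype.sum_prod_type,
    Fintype.sum_bool, add_comm]
  rfl

lemma length_wd (m : ℕ) (P : List Bool) (R : Fin m → Bool) : (wd m P R).length = P.length + m := by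
  induction m generalizing P with
  | zero => rfl
  | succ m ih => rw [wd, ih, List.length_cons]; omega

lemma D_sq (m : ℕ) (P : List Bool) (f : List Bool → ℝ) :
    D m P f ^ 2 ≤ 2 ^ m * D m P (fun Q => f Q ^ 2) := by
  have := sq_sum_le_card_mul_sum_sq (s := (Finset.univ : Finset (Fin m → Bool)))
    (f := fun R => f (wd m P R))
  simpa [D] using this

lemma D_nonneg (m : ℕ) (P : List Bool) {f : List Bool → ℝ} (h : ∀ Q, 0 ≤ f Q) : 0 ≤ D m P f :=
  Finset.sum_nonneg fun _ _ => h _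

lemma D_fix {t : List Bool → ℝ} (h : ∀ Q, Q ≠ [] → t (false :: Q) + t (true :: Q) = t Q) (m : ℕ)
    (P : List Bool) (hP : P ≠ []) : D m P t = t P := by
  induction m generalizing P with
  | zero => exact D_zero P t
  | succ m ih => rw [D_succ, ih _ (by simp), ih _ (by simp), h P hP]

lemma D_len (m : ℕ) (φ : ℕ → ℝ) : D m [] (fun Q => φ Q.length) = 2 ^ m * φ m := by
  simp [D, length_wd]

/-- the potential with weights `t` -/
def g (a : List Bool → Bool → E → ℝ) (t : List Bool → ℝ) : ℕ → List Bool → E → ℝ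
  | 0, _ => fun _ => 0
  | m + 1, P => fun x => (D m (false :: P) t * a P false x + D m (true :: P) t * a P true x) +
      (g a t m (false :: P) x + g a t m (true :: P) x)

/-- admissible potentials -/
def LS (f : E → ℝ) : Prop := Lip f ∧ ∀ x : E, 27 / 10 ≤ ‖x‖ → f x = 0

lemma LS.add {f h : E → ℝ} (hf : LS f) (hh : LS h) : LS (fun x => f x + h x) :=
  ⟨hf.1.add hh.1, fun x hx => by simp [hf.2 x hx, hh.2 x hx]⟩

lemma LS.smul {f : E → ℝ} (c : ℝ) (hf : LS f) : LS (fun x => c * f x) :=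
  ⟨hf.1.const_mul c, fun x hx => by simp [hf.2 x hx]⟩

section forms

variable {γ f h ψ : E → ℝ}

lemma int_B (hγ : AgM γ) (hf : LS f) (hψ : LocallyLipschitz ψ) :
    Integrable (fun x => γ x * ⟪∇ f x, ∇ ψ x⟫) := by
  have := AgV.grad hf.1.locLip
  have := AgV.grad hψ
  exact AgM.int (by fun_prop) fun x hx => by simp [ag_grad_zero hf.2 hx]

lemma int_E (hγ : AgM γ) (hf : LS f) : Integrable (fun x => γ x * ‖∇ f x‖ ^ 2) := by
  have := AgV.grad hf.1.locLip
  exact AgM.int (by fun_prop) fun x hx => by simp [ag_grad_zero hf.2 hx]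

lemma ae_add (hZ : ZLStmt) (hf : LS f) (hh : LS h) :
    ∀ᵐ x, ∇ (fun x => f x + h x) x = ∇ f x + ∇ h x := by
  filter_upwards [hZ.2.2 f hf.1.locLip, hZ.2.2 h hh.1.locLip] with x h1 h2 using grad_add h1 h2

lemma B_add (hZ : ZLStmt) (hγ : AgM γ) (hf : LS f) (hh : LS h) (hψ : LocallyLipschitz ψ) :
    ∫ x, γ x * ⟪∇ (fun x => f x + h x) x, ∇ ψ x⟫ =
      (∫ x, γ x * ⟪∇ f x, ∇ ψ x⟫) + ∫ x, γ x * ⟪∇ h x, ∇ ψ x⟫ := by
  rw [← integral_add (int_B hγ hf hψ) (int_B hγ hh hψ)]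
  refine integral_congr_ae ?_
  filter_upwards [ae_add hZ hf hh] with x hx
  rw [hx, inner_add_left, mul_add]

lemma B_smul (c : ℝ) :
    ∫ x, γ x * ⟪∇ (fun x => c * f x) x, ∇ ψ x⟫ = c * ∫ x, γ x * ⟪∇ f x, ∇ ψ x⟫ := by
  simp only [grad_const_mul, inner_smul_left, RCLike.conj_to_real, mul_left_comm _ c,
    integral_const_mul]

lemma E_smul (c : ℝ) :
    ∫ x, γ x * ‖∇ (fun x => c * f x) x‖ ^ 2 = c ^ 2 * ∫ x, γ x * ‖∇ f x‖ ^ 2 := by
  simp only [grad_const_mul, norm_smul, mul_pow, Real.norm_eq_abs, sq_abs,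
    mul_left_comm _ (c ^ 2), integral_const_mul]

lemma E_add (hZ : ZLStmt) (hγ : AgM γ) (h0 : ∀ x, 0 ≤ γ x) (hf : LS f) (hh : LS h) (s : ℝ)
    (hs : 0 < s) : ∫ x, γ x * ‖∇ (fun x => f x + h x) x‖ ^ 2 ≤
      (1 + 1 / s) * (∫ x, γ x * ‖∇ f x‖ ^ 2) + (1 + s) * ∫ x, γ x * ‖∇ h x‖ ^ 2 := by
  rw [← integral_const_mul, ← integral_const_mul,
    ← integral_add ((int_E hγ hf).const_mul _) ((int_E hγ hh).const_mul _)]
  refine integral_mono_ae (int_E hγ (hf.add hh))
    (((int_E hγ hf).const_mul _).add ((int_E hγ hh).const_mul _)) ?_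
  filter_upwards [ae_add hZ hf hh] with x hx
  have := mul_le_mul_of_nonneg_left (ag_normsq_add (∇ f x) (∇ h x) s hs) (h0 x)
  rw [hx]
  linarith

lemma ae_const (hZ : ZLStmt) (hf : Lip f) (c : ℝ) : ∀ᵐ x, f x = c → ∇ f x = 0 := by
  filter_upwards [hZ.2.1 f (fun _ => c) hf.locLip (Lip.const c).locLip] with x hx h
  rw [hx h, grad_const]

lemma E_disj (hZ : ZLStmt) (hγ : AgM γ) (hf : LS f) (hh : LS h) (hd : ∀ x, f x = 0 ∨ h x = 0) :
    ∫ x, γ x * ‖∇ (fun x => f x + h x) x‖ ^ 2 =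
      (∫ x, γ x * ‖∇ f x‖ ^ 2) + ∫ x, γ x * ‖∇ h x‖ ^ 2 := by
  rw [← integral_add (int_E hγ hf) (int_E hγ hh)]
  refine integral_congr_ae ?_
  filter_upwards [ae_add hZ hf hh, ae_const hZ hf.1 0, ae_const hZ hh.1 0] with x hx h1 h2
  rw [hx]
  rcases hd x with h | h
  · simp [h1 h]
  · simp [h2 h]

end forms

/-- the tree data -/
structure Tr (γ : E → ℝ) (C : ℝ) (U : List Bool → Set E) (a : List Bool → Bool → E → ℝ)
    (σ : List Bool → E → ℝ) : Prop where
  Z : ZLStmt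
  C0 : 0 < C
  γb : AgM γ
  γ0 : ∀ x, 0 ≤ γ x
  sub : ∀ P, U P ⊆ ball 0 (27 / 10)
  nest : ∀ P i, U (i :: P) ⊆ U P
  disj : ∀ P, Disjoint (U (false :: P)) (U (true :: P))
  diam : ∀ P, ∀ x ∈ U P, ∀ y ∈ U P, dist x y ≤ C * rho ^ P.length
  ha : ∀ P i, Lip (a P i) ∧ (∀ x, x ∉ U P → a P i x = 0) ∧ (∀ x, |a P i x| ≤ C / rho ^ P.length) ∧
      ∫ x, γ x * ‖∇ (a P i) x‖ ^ 2 ≤ C / rho ^ P.length
  hσ : ∀ P, Measurable (σ P) ∧ (∃ C', ∀ x, 0 ≤ σ P x ∧ σ P x ≤ C') ∧ (∀ x, x ∉ U P → σ P x = 0) ∧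
      ∫ x, σ P x = 1
  weak : ∀ P i (ψ : E → ℝ), LocallyLipschitz ψ →
      ∫ x, γ x * ⟪∇ (a P i) x, ∇ ψ x⟫ = (∫ x, ψ x * σ (i :: P) x) - ∫ x, ψ x * σ P x

lemma rho_pos : 0 < rho := by norm_num [rho]

namespace Tr

variable {γ : E → ℝ} {C : ℝ} {U : List Bool → Set E} {a : List Bool → Bool → E → ℝ}
  {σ : List Bool → E → ℝ} (T : Tr γ C U a σ)
include T

lemma out (P : List Bool) {x : E} (hx : 27 / 10 ≤ ‖x‖) : x ∉ U P := fun h => by
  have := T.sub P h
  rw [mem_ball, dist_zero_right] at this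
  linarith

lemma either (P : List Bool) (x : E) : x ∉ U (false :: P) ∨ x ∉ U (true :: P) := by
  by_contra h
  push Not at h
  exact Set.disjoint_left.1 (T.disj P) h.1 h.2

lemma a_LS (P : List Bool) (i : Bool) : LS (a P i) :=
  ⟨(T.ha P i).1, fun x hx => (T.ha P i).2.1 x (T.out P hx)⟩

lemma g_zero (t : List Bool → ℝ) (m : ℕ) (P : List Bool) (x : E) (hx : x ∉ U P) :
    g a t m P x = 0 := by
  induction m generalizing P with
  | zero => rfl
  | succ m ih =>
    simp [g, (T.ha P _).2.1 x hx, ih _ (fun h => hx (T.nest P _ h))]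

lemma g_LS (t : List Bool → ℝ) (m : ℕ) (P : List Bool) : LS (g a t m P) := by
  induction m generalizing P with
  | zero => exact ⟨Lip.const 0, fun _ _ => rfl⟩
  | succ m ih => exact (((T.a_LS P _).smul _).add ((T.a_LS P _).smul _)).add ((ih _).add (ih _))

lemma g_weak (t : List Bool → ℝ) {ψ : E → ℝ} (hψ : LocallyLipschitz ψ) (m : ℕ) (P : List Bool) :
    ∫ x, γ x * ⟪∇ (g a t m P) x, ∇ ψ x⟫ =
      D m P (fun Q => t Q * ∫ x, ψ x * σ Q x) - D m P t * ∫ x, ψ x * σ P x := by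
  induction m generalizing P with
  | zero => simp [g, D_zero]
  | succ m ih =>
    rw [g, B_add T.Z T.γb (((T.a_LS P _).smul _).add ((T.a_LS P _).smul _))
      ((T.g_LS t m _).add (T.g_LS t m _)) hψ,
      B_add T.Z T.γb ((T.a_LS P _).smul _) ((T.a_LS P _).smul _) hψ,
      B_add T.Z T.γb (T.g_LS t m _) (T.g_LS t m _) hψ, B_smul, B_smul, T.weak P _ ψ hψ,
      T.weak P _ ψ hψ, ih, ih, D_succ, D_succ]
    ring

lemma g_en (t : List Bool → ℝ) (m : ℕ) (P : List Bool) :
    ∫ x, γ x * ‖∇ (g a t m P) x‖ ^ 2 ≤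
      2652 * (C / rho ^ P.length * (2 ^ m * D m P (fun Q => t Q ^ 2))) := by
  have hC := T.C0
  have hr := rho_pos
  induction m generalizing P with
  | zero =>
    have : 0 ≤ D 0 P (fun Q => t Q ^ 2) := D_nonneg _ _ fun Q => sq_nonneg _
    simp only [g, grad_const, norm_zero, ne_eq, OfNat.ofNat_ne_zero, not_false_eq_true, zero_pow,
      mul_zero, integral_zero]
    positivity
  | succ m ih =>
    have h1 := E_add T.Z T.γb T.γ0 (((T.a_LS P false).smul (D m (false :: P) t)).add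
      ((T.a_LS P true).smul (D m (true :: P) t)))
      ((T.g_LS t m (false :: P)).add (T.g_LS t m (true :: P))) (1 / 50) (by norm_num)
    have h2 := E_add T.Z T.γb T.γ0 ((T.a_LS P false).smul (D m (false :: P) t))
      ((T.a_LS P true).smul (D m (true :: P) t)) 1 (by norm_num)
    rw [E_disj T.Z T.γb (T.g_LS t m _) (T.g_LS t m _)
      (fun x => (T.either P x).imp (T.g_zero t m _ x) (T.g_zero t m _ x))] at h1
    rw [E_smul, E_smul] at h2
    have i1 := ih (false :: P)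
    have i2 := ih (true :: P)
    have e : C / rho ^ (P.length + 1) = 25 / 13 * (C / rho ^ P.length) := by
      rw [pow_succ]; unfold rho; field_simp
    rw [List.length_cons, e] at i1 i2
    have hX : 0 ≤ C / rho ^ P.length := by positivity
    have j1 := (mul_le_mul_of_nonneg_left (T.ha P false).2.2.2 (sq_nonneg (D m (false :: P) t))).trans
      (mul_le_mul_of_nonneg_right (D_sq m (false :: P) t) hX)
    have j2 := (mul_le_mul_of_nonneg_left (T.ha P true).2.2.2 (sq_nonneg (D m (true :: P) t))).trans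
      (mul_le_mul_of_nonneg_right (D_sq m (true :: P) t) hX)
    rw [g, D_succ, pow_succ (2 : ℝ) m]
    norm_num at h1 h2
    nlinarith

lemma σ_AgM (Q : List Bool) : AgM (σ Q) := by
  obtain ⟨h1, ⟨C', h2⟩, -⟩ := T.hσ Q
  exact AgM.of_bdd h1 (C := C') fun x => by rw [abs_of_nonneg (h2 x).1]; exact (h2 x).2

lemma σ_nonneg (Q : List Bool) (x : E) : 0 ≤ σ Q x := by
  obtain ⟨-, ⟨C', h2⟩, -⟩ := T.hσ Q
  exact (h2 x).1

lemma int_σ {ψ : E → ℝ} (hψ : Continuous ψ) (Q : List Bool) :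
    Integrable (fun x => ψ x * σ Q x) :=
  ((AgM.of_continuous hψ).mul (T.σ_AgM Q)).int fun x hx => by
    simp [(T.hσ Q).2.2.1 x (T.out Q (by linarith))]

lemma int_D {ψ : E → ℝ} (hψ : Continuous ψ) (t : List Bool → ℝ) (m : ℕ) (P : List Bool) :
    ∫ x, ψ x * D m P (fun Q => t Q * σ Q x) = D m P (fun Q => t Q * ∫ x, ψ x * σ Q x) := by
  simp only [D, Finset.mul_sum, mul_left_comm (ψ _)]
  rw [integral_finsetSum _ fun R _ => (T.int_σ hψ _).const_mul _]
  simp only [integral_const_mul]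

lemma diff_le {t : List Bool → ℝ} (h : ∀ Q, Q ≠ [] → t (false :: Q) + t (true :: Q) = t Q)
    (ht : ∀ Q, |t Q| ≤ 1 / 2 ^ Q.length) (m : ℕ) (P : List Bool) (x : E) :
    |g a t (m + 1) P x - g a t m P x| ≤ C / (2 * rho) ^ (P.length + m) := by
  have hC := T.C0
  have hr := rho_pos
  induction m generalizing P with
  | zero =>
    simp only [g, D_zero, add_zero, sub_zero]
    have k : ∀ i, |t (i :: P) * a P i x| ≤ 1 / 2 ^ (P.length + 1) * (C / rho ^ P.length) :=
      fun i => by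
        rw [abs_mul]
        exact mul_le_mul (ht _) ((T.ha P i).2.2.1 x) (abs_nonneg _) (by positivity)
    refine (abs_add_le _ _).trans ((add_le_add (k false) (k true)).trans (le_of_eq ?_))
    rw [mul_pow, pow_succ]
    field_simp
    norm_num
  | succ m ih =>
    have e : g a t (m + 1 + 1) P x - g a t (m + 1) P x =
        (g a t (m + 1) (false :: P) x - g a t m (false :: P) x) +
        (g a t (m + 1) (true :: P) x - g a t m (true :: P) x) := by
      rw [g, g.eq_2 a t P m]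
      simp only [D_fix h _ _ (List.cons_ne_nil _ _)]
      ring
    have i1 := ih (false :: P)
    have i2 := ih (true :: P)
    rw [List.length_cons, show P.length + 1 + m = P.length + (m + 1) by omega] at i1 i2
    rw [e]
    rcases T.either P x with hx | hx
    · rw [T.g_zero t _ _ x hx, T.g_zero t _ _ x hx, sub_self, zero_add]; exact i2
    · rw [T.g_zero t _ _ x hx, T.g_zero t _ _ x hx, sub_self, add_zero]; exact i1

lemma osc {u : E → ℝ} (hu : Continuous u) {L : ℝ≥0} (hL : LipschitzOnWith L u (closedBall 0 3))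
    (l : ℝ) (Q : List Bool) :
    ∫ x, (u x - l) ^ 2 * σ Q x ≤
      2 * ((∫ x, u x * σ Q x) - l) ^ 2 + 2 * (L * (C * rho ^ Q.length)) ^ 2 := by
  obtain ⟨-, -, h3, h4⟩ := T.hσ Q
  have i1 : Integrable (σ Q) := by simpa using T.int_σ (ψ := fun _ => 1) continuous_const Q
  have hb : ∀ x ∈ U Q, x ∈ closedBall (0 : E) 3 := fun x hx =>
    closedBall_subset_closedBall (by norm_num) (ball_subset_closedBall (T.sub Q hx))
  have k : ∀ x ∈ U Q, |u x - ∫ y, u y * σ Q y| ≤ L * (C * rho ^ Q.length) := by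
    intro x hx
    have e : u x - ∫ y, u y * σ Q y = ∫ y, (u x - u y) * σ Q y := by
      simp only [sub_mul]
      rw [integral_sub (i1.const_mul _) (T.int_σ hu Q), integral_const_mul, h4, mul_one]
    rw [e]
    refine abs_integral_le_integral_abs.trans ((integral_mono
      (T.int_σ (by fun_prop) Q).abs (i1.const_mul (L * (C * rho ^ Q.length))) fun y => ?_).trans ?_)
    · by_cases hy : y ∈ U Q
      · simp only
        rw [abs_mul, abs_of_nonneg (T.σ_nonneg Q y)]
        refine mul_le_mul_of_nonneg_right ?_ (T.σ_nonneg Q y)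
        exact (hL.dist_le_mul x (hb x hx) y (hb y hy)).trans
          (mul_le_mul_of_nonneg_left (T.diam Q x hx y hy) L.2)
      · simp [h3 y hy]
    · rw [integral_const_mul, h4, mul_one]
  refine (integral_mono (T.int_σ (by fun_prop) Q) (i1.const_mul
    (2 * ((∫ x, u x * σ Q x) - l) ^ 2 + 2 * (L * (C * rho ^ Q.length)) ^ 2)) fun x => ?_).trans ?_
  · by_cases hx : x ∈ U Q
    · refine mul_le_mul_of_nonneg_right ?_ (T.σ_nonneg Q x)
      have := sq_le_sq' (_root_.abs_le.1 (k x hx)).1 (_root_.abs_le.1 (k x hx)).2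
      nlinarith [sq_nonneg (u x - 2 * (∫ y, u y * σ Q y) + l)]
    · simp [h3 x hx]
  · rw [integral_const_mul, h4, mul_one]

lemma conc {u : E → ℝ} {η : ℝ} (hu : ContDiff ℝ 1 u) (hη : 0 ≤ η)
    (h : ∀ g : E → ℝ, Lip g → (∀ x : E, 27 / 10 ≤ ‖x‖ → g x = 0) →
      (∫ x, γ x * ⟪∇ g x, ∇ u x⟫) ^ 2 ≤ η * ∫ x, γ x * ‖∇ g x‖ ^ 2)
    {L : ℝ≥0} (hL : LipschitzOnWith L u (closedBall 0 3)) (n : ℕ) :
    ∫ x, (u x - ∫ y, u y * σ [] y) ^ 2 * D n [] (fun Q => 1 / 2 ^ Q.length * σ Q x) ≤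
      5304 * C * η + 2 * (L * (C * rho ^ n)) ^ 2 := by
  have hC := T.C0
  set l := ∫ y, u y * σ [] y with hl
  set φ : List Bool → ℝ := fun Q => (∫ y, u y * σ Q y) - l with hφ
  set A := 1 / 2 ^ n * D n [] (fun Q => φ Q ^ 2) with hA
  have hA0 : 0 ≤ A := mul_nonneg (by positivity) (D_nonneg _ _ fun Q => sq_nonneg _)
  have h1 := T.g_weak (fun Q => 1 / 2 ^ n * φ Q) hu.locallyLipschitz n []
  have h2 := T.g_en (fun Q => 1 / 2 ^ n * φ Q) n []
  have h3 := h _ (T.g_LS (fun Q => 1 / 2 ^ n * φ Q) n []).1 (T.g_LS _ n []).2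
  have e1 : D n [] (fun Q => 1 / 2 ^ n * φ Q * ∫ x, u x * σ Q x) -
      D n [] (fun Q => 1 / 2 ^ n * φ Q) * l = A := by
    simp only [hA, D, Finset.sum_mul, Finset.mul_sum, ← Finset.sum_sub_distrib]
    refine Finset.sum_congr rfl fun R _ => ?_
    simp only [hφ]
    ring
  have e2 : 2 ^ n * D n [] (fun Q => (1 / 2 ^ n * φ Q) ^ 2) = A := by
    simp only [hA, D, Finset.mul_sum]
    refine Finset.sum_congr rfl fun R _ => ?_
    field_simp
  rw [← hl, e1] at h1
  rw [e2, List.length_nil, pow_zero, div_one] at h2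
  rw [h1] at h3
  have h4 : A ≤ 2652 * C * η := by
    have h5 := h3.trans (mul_le_mul_of_nonneg_left h2 hη)
    rcases hA0.eq_or_lt with h6 | h6
    · rw [← h6]; positivity
    · exact le_of_mul_le_mul_right (by nlinarith) h6
  rw [T.int_D (by have := hu.continuous; fun_prop)]
  have h5 : D n [] (fun Q => 1 / 2 ^ Q.length * ∫ x, (u x - l) ^ 2 * σ Q x) ≤
      2 * A + D n [] (fun Q => 1 / 2 ^ Q.length * (2 * (L * (C * rho ^ Q.length)) ^ 2)) := by
    simp only [hA, D, Finset.mul_sum, ← Finset.sum_add_distrib]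
    refine Finset.sum_le_sum fun R _ => ?_
    have := mul_le_mul_of_nonneg_left (T.osc hu.continuous hL l (wd n [] R))
      (by positivity : (0 : ℝ) ≤ 1 / 2 ^ n)
    simp only [length_wd, List.length_nil, zero_add] at this ⊢
    simp only [hφ]
    linarith
  rw [D_len n (fun k => 1 / 2 ^ k * (2 * (L * (C * rho ^ k)) ^ 2))] at h5
  have e3 : (2 : ℝ) ^ n * (1 / 2 ^ n * (2 * (L * (C * rho ^ n)) ^ 2)) =
      2 * (L * (C * rho ^ n)) ^ 2 := by field_simp
  linarith

end Tr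

/-- signed weights -/
def tt (Q : List Bool) : ℝ := (if Q.getLast? = some true then -1 else 1) / 2 ^ Q.length

lemma tt_abs (Q : List Bool) : |tt Q| = 1 / 2 ^ Q.length := by
  unfold tt
  rw [abs_div, abs_of_pos (by positivity : (0 : ℝ) < 2 ^ Q.length)]
  split_ifs <;> simp

lemma tt_add (Q : List Bool) (h : Q ≠ []) : tt (false :: Q) + tt (true :: Q) = tt Q := by
  obtain ⟨b, Q, rfl⟩ := List.exists_cons_of_ne_nil h
  simp only [tt, List.getLast?_cons_cons, List.length_cons, pow_succ]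
  field_simp
  ring

end AG1

open AG1 in
theorem AG1_proof (hT : TRStmt) (hZ : ZLStmt) : AG1Stmt := by
  obtain ⟨γ, C, U, a, σ, hγm, hγ, hγ1, h1, h2, h3, h4, h5, h6, h7, ψ, hψ, hψ0, hψ1⟩ := hT
  have hC : 0 < C := lt_of_lt_of_le (hγ 0).2.1 (hγ 0).2.2
  have T : Tr γ C U a σ := ⟨hZ, hC, AgM.of_bdd hγm (C := C) fun x => by
    rw [abs_of_pos (hγ x).2.1]; exact (hγ x).2.2, fun x => (hγ x).2.1.le, h1, h2, h3, h4, h5, h6, h7⟩
  obtain ⟨Cσ, hCσ⟩ := (h6 []).2.1
  have hCσ0 : 0 ≤ Cσ := (hCσ 0).1.trans (hCσ 0).2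
  have hd : ∀ m x, ‖g a tt (m + 1) [] x - g a tt m [] x‖ ≤ C * (25 / 26) ^ m := fun m x => by
    have := T.diff_le tt_add (fun Q => (tt_abs Q).le) m [] x
    rw [List.length_nil, zero_add] at this
    refine this.trans (le_of_eq ?_)
    rw [div_eq_mul_inv, ← inv_pow]
    norm_num [rho]
  have hs : Summable (fun m : ℕ => C * (25 / 26 : ℝ) ^ m) :=
    (summable_geometric_of_lt_one (by norm_num) (by norm_num)).mul_left C
  have hsum : ∀ N x, ∑ m ∈ Finset.range N, (g a tt (m + 1) [] x - g a tt m [] x) =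
      g a tt N [] x := fun N x => by
    rw [Finset.sum_range_sub (fun m => g a tt m [] x)]
    exact sub_zero _
  have hlim := tendstoUniformly_tsum_nat hs hd
  simp only [hsum] at hlim
  set W : E → ℝ := fun x => ∑' m, (g a tt (m + 1) [] x - g a tt m [] x)
  have hlim' : TendstoUniformly (fun n => g a tt (n + 1) []) W atTop :=
    fun v hv => (tendsto_add_atTop_nat 1).eventually (hlim v hv)
  have t0 : tt [false] = 1 / 2 := by simp [tt]
  have t1 : tt [true] = -(1 / 2) := by simp [tt]; norm_num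
  refine ⟨γ, W, σ [], fun n => g a tt (n + 1) [], fun n x => D (n + 1) [] (fun Q => tt Q * σ Q x),
    fun n x => D (n + 1) [] (fun Q => 1 / 2 ^ Q.length * σ Q x), 5304 * C + Cσ, hγm,
    fun x => ⟨by nlinarith [hγ x], (hγ x).2.1, by linarith [hγ x]⟩, hγ1, ?_, hlim',
    fun n => ⟨(T.g_LS _ _ _).1, (T.g_LS _ _ _).2, fun x => ?_, ?_⟩, fun n => ⟨?_, ?_, ?_, ?_, ?_, ?_⟩,
    (h6 []).1, fun x => ?_, fun x hx => (h6 []).2.2.1 x (T.out _ hx), ?_⟩
  · by_contra hW
    push Not at hW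
    have L0 := ((T.a_LS [] false).smul (1 / 2)).add ((T.a_LS [] true).smul (-(1 / 2)))
    have hw : ∀ x, x ∉ U [false] → x ∉ U [true] →
        1 / 2 * a [] false x + -(1 / 2) * a [] true x = 0 := fun x hx0 hx1 => by
      refine tendsto_nhds_unique (l := atTop) (f := fun n => g a tt (n + 1) [] x) ?_
        (hW x ▸ hlim'.tendsto_at x)
      simp only [g, D_fix tt_add _ _ (List.cons_ne_nil _ _), t0, t1, T.g_zero tt _ _ x hx0,
        T.g_zero tt _ _ x hx1, add_zero]
      exact tendsto_const_nhds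
    have e1 := B_add hZ T.γb ((T.a_LS [] false).smul (1 / 2)) ((T.a_LS [] true).smul (-(1 / 2)))
      hψ.locLip
    rw [B_smul, B_smul, h7 _ _ ψ hψ.locLip, h7 _ _ ψ hψ.locLip] at e1
    have e2 : ∫ x, ψ x * σ [false] x = 1 := by
      rw [← (h6 [false]).2.2.2]
      refine integral_congr_ae (Eventually.of_forall fun x => ?_)
      by_cases hx : x ∈ U [false]
      · simp [hψ0 x hx]
      · simp [(h6 _).2.2.1 x hx]
    have e3 : ∫ x, ψ x * σ [true] x = 0 := by
      refine integral_eq_zero_of_ae (Eventually.of_forall fun x => ?_)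
      by_cases hx : x ∈ U [true]
      · simp [hψ1 x hx]
      · simp [(h6 _).2.2.1 x hx]
    have e4 : ∫ x, γ x * ⟪∇ (fun x => 1 / 2 * a [] false x + -(1 / 2) * a [] true x) x, ∇ ψ x⟫ = 0 := by
      refine integral_eq_zero_of_ae ?_
      filter_upwards [ae_const hZ L0.1 0, ae_const hZ hψ 0, ae_const hZ hψ 1] with x k1 k2 k3
      by_cases hx0 : x ∈ U [false]
      · rw [k3 (hψ0 x hx0)]; simp
      · by_cases hx1 : x ∈ U [true]
        · rw [k2 (hψ1 x hx1)]; simp
        · rw [k1 (hw x hx0 hx1)]; simp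
    rw [e2, e3, e4] at e1
    linarith
  · show |g a tt (n + 1) [] x| ≤ _
    rw [← hsum]
    refine (Finset.abs_sum_le_sum_abs _ _).trans ((Finset.sum_le_sum fun m _ => hd m x).trans
      ((hs.sum_le_tsum _ fun m _ => by positivity).trans ?_))
    rw [tsum_mul_left, tsum_geometric_of_lt_one (by norm_num) (by norm_num)]
    norm_num
    linarith
  · refine (T.g_en tt (n + 1) []).trans ?_
    have : (fun Q => tt Q ^ 2) = fun Q : List Bool => (1 / 2 ^ Q.length : ℝ) ^ 2 := by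
      funext Q; rw [← tt_abs, sq_abs]
    rw [this, D_len (n + 1) (fun k => (1 / 2 ^ k : ℝ) ^ 2)]
    have e : (2 : ℝ) ^ (n + 1) * (2 ^ (n + 1) * (1 / 2 ^ (n + 1)) ^ 2) = 1 := by field_simp
    rw [e, List.length_nil, pow_zero]
    linarith
  · exact Finset.measurable_sum _ fun R _ => (h6 _).1.const_mul _
  · exact Finset.measurable_sum _ fun R _ => (h6 _).1.const_mul _
  · choose Cs hCs using fun Q => (h6 Q).2.1
    refine ⟨D (n + 1) [] (fun Q => 1 / 2 ^ Q.length * Cs Q), fun x => ⟨?_, ?_⟩⟩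
    · refine (Finset.abs_sum_le_sum_abs _ _).trans (le_of_eq (Finset.sum_congr rfl fun R _ => ?_))
      rw [abs_mul, tt_abs, abs_of_nonneg (hCs _ x).1]
    · exact Finset.sum_le_sum fun R _ => mul_le_mul_of_nonneg_left (hCs _ x).2 (by positivity)
  · intro x hx
    exact Finset.sum_eq_zero fun R _ => by simp only [(h6 _).2.2.1 x (T.out _ hx), mul_zero]
  · have := T.int_D (ψ := fun _ => 1) continuous_const (fun Q => 1 / 2 ^ Q.length) (n + 1) []
    simp only [one_mul, (h6 _).2.2.2, mul_one] at this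
    rw [this, D_len (n + 1) (fun k => (1 / 2 ^ k : ℝ))]
    field_simp
    exact le_rfl
  · intro φ hφ
    rw [T.g_weak tt hφ, T.int_D hφ.continuous, D_succ n [] tt,
      D_fix tt_add _ _ (List.cons_ne_nil _ _), D_fix tt_add _ _ (List.cons_ne_nil _ _), t0, t1]
    ring
  · rw [abs_of_nonneg (hCσ x).1]
    linarith [(hCσ x).2]
  · intro u η hu hη h ε hε
    obtain ⟨L, hL⟩ := (hu.locallyLipschitz.locallyLipschitzOn (s := closedBall (0 : E) 3)
      ).exists_lipschitzOnWith_of_compact (isCompact_closedBall _ _)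
    have hr : Tendsto (fun n : ℕ => 2 * ((L : ℝ) * (C * rho ^ (n + 1))) ^ 2) atTop
        (𝓝 (2 * ((L : ℝ) * (C * 0)) ^ 2)) :=
      (((((tendsto_pow_atTop_nhds_zero_of_lt_one rho_pos.le (by norm_num [rho])).comp
        (tendsto_add_atTop_nat 1)).const_mul C).const_mul (L : ℝ)).pow 2).const_mul 2
    filter_upwards [hr.eventually_le_const (by simpa using hε)] with n hn
    have := T.conc hu hη h hL (n + 1)
    nlinarith

end Crest.Agent.R83
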