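import Crest.Agent.R83.AGX

/-! Row 83, task AG2 (gauge theorem). -/

set_option autoImplicit false

noncomputable section

namespace Crest.Agent.R83

open MeasureTheory Set Filter Topology Metric
open scoped Gradient RealInnerProductSpace NNReal
open Crest.AnalysisR.PDE.Calderon

/-- one level of the gauge data -/
structure AG2Lev (γ c m ν : E → ℝ) (K : ℝ) : Prop where
  γb : AgM γ
  γ0 : ∀ x, 0 ≤ γ x
  lip : Lip c
  lo : ∀ x, 1 / 2 ≤ c x
  hi : ∀ x, c x ≤ 3 / 2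
  one : ∀ x : E, 27 / 10 ≤ ‖x‖ → c x = 1
  mb : AgM m
  νb : AgM ν
  le : ∀ x, |m x| ≤ ν x
  ν0 : ∀ x : E, 27 / 10 ≤ ‖x‖ → ν x = 0
  νi : ∫ x, ν x ≤ 1
  weak : ∀ ψ : E → ℝ, LocallyLipschitz ψ → ∫ x, γ x * ⟪∇ c x, ∇ ψ x⟫ = ∫ x, ψ x * m x
  en : ∫ x, γ x * ‖∇ c x‖ ^ 2 ≤ K

lemma ag2_locLip {u : E → ℝ} (hu : ContDiff ℝ 1 u) (l : ℝ) : LocallyLipschitz (fun x => u x - l) :=
  (hu.sub contDiff_const).locallyLipschitz

lemma ag2_grad_sub (u : E → ℝ) (l : ℝ) (x : E) : ∇ (fun x => u x - l) x = ∇ u x := by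
  simp only [sub_eq_add_neg, grad_add_const]

namespace AG2Lev

variable {γ c m ν : E → ℝ} {K : ℝ} (D : AG2Lev γ c m ν K)
include D

lemma ne (x : E) : c x ≠ 0 := by have := D.lo x; positivity

lemma inv_lip : Lip (fun x => (c x)⁻¹) := by
  obtain ⟨L, hL⟩ := D.lip
  refine ⟨4 * L, LipschitzWith.of_dist_le_mul fun x y => ?_⟩
  have h := hL.dist_le_mul x y
  have hx := D.lo x
  have hy := D.lo y
  rw [Real.dist_eq] at h ⊢
  have e : (c x)⁻¹ - (c y)⁻¹ = -(c x - c y) / (c x * c y) := by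
    have := D.ne x; have := D.ne y; field_simp; ring
  rw [e, abs_div, abs_neg, abs_of_pos (by positivity : 0 < c x * c y), div_le_iff₀ (by positivity)]
  push_cast
  have h2 : 1 / 4 ≤ c x * c y := by nlinarith
  have h3 : 0 ≤ (L : ℝ) * dist x y := by positivity
  nlinarith

lemma grad_inv {x : E} (hx : DifferentiableAt ℝ c x) :
    ∇ (fun x => (c x)⁻¹) x = (-(c x ^ 2)⁻¹) • ∇ c x :=
  grad_comp (h := fun t => t⁻¹) (hasDerivAt_inv (D.ne x)) hx

lemma grad_c0 {x : E} (hx : 3 ≤ ‖x‖) : ∇ c x = 0 := by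
  rw [← ag2_grad_sub c 1]
  exact ag_grad_zero (fun y hy => by rw [D.one y hy, sub_self]) hx

lemma m0 {x : E} (hx : 27 / 10 ≤ ‖x‖) : m x = 0 := by
  have := D.le x
  rw [D.ν0 x hx] at this
  exact abs_nonpos_iff.1 this

lemma weak' (ψ : E → ℝ) (hψ : LocallyLipschitz ψ) :
    ∫ x in ball (0 : E) 3, γ x * ⟪∇ c x, ∇ ψ x⟫ = ∫ x, ψ x * m x := by
  rw [ag_ball (fun x hx => by simp [D.grad_c0 hx]), D.weak ψ hψ]

lemma abs_le {ψ f : E → ℝ} (hψ : AgM ψ) (hf : AgM f) (h : ∀ x ∈ ball (0 : E) 3, |ψ x| ≤ f x) :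
    |∫ x, ψ x * m x| ≤ ∫ x, f x * ν x := by
  have := D.mb
  have := D.νb
  refine (abs_integral_le_integral_abs).trans (integral_mono
    (AgM.int (by fun_prop) fun x hx => by simp [D.m0 (by linarith : 27 / 10 ≤ ‖x‖)])
    (AgM.int (by fun_prop) fun x hx => by simp [D.ν0 x (by linarith)]) fun x => ?_)
  by_cases hx : x ∈ ball (0 : E) 3
  · simp only [abs_mul]
    exact mul_le_mul (h x hx) (D.le x) (abs_nonneg _) ((abs_nonneg _).trans (h x hx))
  · have hx' : 27 / 10 ≤ ‖x‖ := by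
      simp only [mem_ball, dist_zero_right, not_lt] at hx; linarith
    simp [D.m0 hx', D.ν0 x hx']

lemma upper (hZ : ZLStmt) {u : E → ℝ} (hu : ContDiff ℝ 1 u) (l : ℝ) :
    ballEnergy (fun x => c x ^ 2 * γ x) (fun x => u x + (u x - l) * ((c x)⁻¹ - 1)) ≤
      ballEnergy γ u + 2 * ∫ x, (u x - l) ^ 2 * ν x := by
  have hφ := ag2_locLip hu l
  have hi := D.inv_lip.locLip
  have hψ : LocallyLipschitz (fun x => (u x - l) * ((u x - l) * (c x)⁻¹)) :=
    locLip_mul hφ (locLip_mul hφ hi)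
  have b1 := D.γb
  have b2 := AgV.grad hu.locallyLipschitz
  have b3 := AgV.grad hψ
  have b4 := AgV.grad D.lip.locLip
  have b5 := AgM.of_continuous hφ.continuous
  have e : ballEnergy (fun x => c x ^ 2 * γ x) (fun x => u x + (u x - l) * ((c x)⁻¹ - 1)) =
      ∫ x in ball (0 : E) 3, (γ x * ‖∇ u x‖ ^ 2 -
        γ x * ⟪∇ c x, ∇ (fun x => (u x - l) * ((u x - l) * (c x)⁻¹)) x⟫) := by
    refine integral_congr_ae (ae_restrict_of_ae ?_)
    filter_upwards [hZ.2.2 c D.lip.locLip] with x hc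
    have du : DifferentiableAt ℝ u x := hu.differentiable one_ne_zero x
    have dφ : DifferentiableAt ℝ (fun x => u x - l) x := du.sub_const l
    have di : DifferentiableAt ℝ (fun x => (c x)⁻¹) x := hc.inv (D.ne x)
    rw [grad_add du (dφ.fun_mul (di.sub_const 1)), grad_mul dφ (di.sub_const 1),
      grad_mul dφ (dφ.fun_mul di), grad_mul dφ di, ag2_grad_sub u, ag2_grad_sub (fun x => (c x)⁻¹),
      D.grad_inv hc]
    have := D.ne x
    simp only [normsq3, inner3, PiLp.add_apply, PiLp.smul_apply, smul_eq_mul]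
    field_simp
    ring
  rw [e, integral_sub (AgM.intOn (by fun_prop)) (AgM.intOn (by fun_prop)), D.weak' _ hψ]
  have h := D.abs_le (AgM.of_continuous hψ.continuous) (f := fun x => 2 * (u x - l) ^ 2)
    (by fun_prop) (fun x _ => by
      have h1 := D.lo x
      have h2 : (c x)⁻¹ ≤ 2 := by rw [inv_le_comm₀ (by positivity) (by norm_num)]; linarith
      have h3 : 0 < (c x)⁻¹ := by positivity
      rw [← mul_assoc, ← sq, abs_of_nonneg (by positivity)]
      nlinarith [sq_nonneg (u x - l)])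
  simp only [mul_assoc, integral_const_mul] at h
  have := (_root_.abs_le.1 h).1
  simp only [ballEnergy, mul_assoc] at this ⊢
  linarith

omit D in
lemma grad_hg {u w : E → ℝ} (hu : ContDiff ℝ 1 u) (hw : ContDiff ℝ 1 w) (l : ℝ) {x : E}
    (hc : DifferentiableAt ℝ c x) :
    ∇ (fun y => (w y - u y) + (c y - 1) * (w y - l)) x =
      c x • ∇ w x + (w x - l) • ∇ c x - ∇ u x := by
  have du : DifferentiableAt ℝ u x := hu.differentiable one_ne_zero x
  have dw : DifferentiableAt ℝ w x := hw.differentiable one_ne_zero x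
  rw [grad_add (dw.fun_sub du) ((hc.sub_const 1).fun_mul (dw.sub_const l)), grad_sub dw du,
    grad_mul (hc.sub_const 1) (dw.sub_const l), ag2_grad_sub, ag2_grad_sub]
  apply ext3 <;> simp <;> ring

lemma locLip_hg {u w : E → ℝ} (hu : ContDiff ℝ 1 u) (hw : ContDiff ℝ 1 w) (l : ℝ) :
    LocallyLipschitz (fun y => (w y - u y) + (c y - 1) * (w y - l)) :=
  (hw.sub hu).locallyLipschitz.add
    (locLip_mul (D.lip.sub (Lip.const 1)).locLip (ag2_locLip hw l))

lemma lower (hZ : ZLStmt) {u w : E → ℝ} (hu : ContDiff ℝ 1 u) (hw : ContDiff ℝ 1 w) (l B s : ℝ)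
    (hs : 0 < s) (hB : ∀ x ∈ ball (0 : E) 3, |w x - l| ≤ B) :
    ballEnergy γ u + 2 * (∫ x in ball (0 : E) 3,
      γ x * ⟪∇ (fun y => (w y - u y) + (c y - 1) * (w y - l)) x, ∇ u x⟫) -
      (s + (B ^ 2 / s + 2) * ∫ x, (u x - l) ^ 2 * ν x) ≤ ballEnergy (fun x => c x ^ 2 * γ x) w := by
  have hφ := ag2_locLip hu l
  have hω := ag2_locLip hw l
  have hi := D.inv_lip.locLip
  have hψ : LocallyLipschitz
      (fun x => (u x - l) * ((w x - l) + (w x - l) - (u x - l) * (c x)⁻¹)) :=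
    locLip_mul hφ ((hω.add hω).sub (locLip_mul hφ hi))
  have b1 := D.γb
  have b2 := AgV.grad hu.locallyLipschitz
  have b3 := AgV.grad hψ
  have b4 := AgV.grad D.lip.locLip
  have b5 := AgM.of_continuous hφ.continuous
  have b6 := AgV.grad (D.locLip_hg hu hw l)
  have b7 := AgV.grad hw.locallyLipschitz
  have b8 := AgM.of_continuous D.lip.continuous
  have b9 := D.νb
  have e : ∫ x in ball (0 : E) 3, (γ x * ‖∇ u x‖ ^ 2 +
      2 * (γ x * ⟪∇ (fun y => (w y - u y) + (c y - 1) * (w y - l)) x, ∇ u x⟫) -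
      γ x * ⟪∇ c x, ∇ (fun x => (u x - l) * ((w x - l) + (w x - l) - (u x - l) * (c x)⁻¹)) x⟫) ≤
      ballEnergy (fun x => c x ^ 2 * γ x) w := by
    refine integral_mono_ae (AgM.intOn (by fun_prop)) (AgM.intOn (by fun_prop))
      (ae_restrict_of_ae ?_)
    filter_upwards [hZ.2.2 c D.lip.locLip] with x hc
    have du : DifferentiableAt ℝ u x := hu.differentiable one_ne_zero x
    have dw : DifferentiableAt ℝ w x := hw.differentiable one_ne_zero x
    have dφ : DifferentiableAt ℝ (fun x => u x - l) x := du.sub_const l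
    have dω : DifferentiableAt ℝ (fun x => w x - l) x := dw.sub_const l
    have di : DifferentiableAt ℝ (fun x => (c x)⁻¹) x := hc.inv (D.ne x)
    rw [grad_hg hu hw l hc, grad_mul dφ ((dω.fun_add dω).fun_sub (dφ.fun_mul di)),
      grad_sub (dω.fun_add dω) (dφ.fun_mul di), grad_add dω dω, grad_mul dφ di, ag2_grad_sub u,
      ag2_grad_sub w, D.grad_inv hc]
    have h0 := D.ne x
    have key : c x ^ 2 * γ x * ‖∇ w x‖ ^ 2 - (γ x * ‖∇ u x‖ ^ 2 +
        2 * (γ x * ⟪c x • ∇ w x + (w x - l) • ∇ c x - ∇ u x, ∇ u x⟫) -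
        γ x * ⟪∇ c x, (u x - l) • (∇ w x + ∇ w x -
          ((u x - l) • -(c x ^ 2)⁻¹ • ∇ c x + (c x)⁻¹ • ∇ u x)) +
          (w x - l + (w x - l) - (u x - l) * (c x)⁻¹) • ∇ u x⟫) =
        γ x * ‖c x • ∇ w x - ∇ u x + ((u x - l) * (c x)⁻¹) • ∇ c x‖ ^ 2 := by
      simp only [normsq3, inner3, PiLp.add_apply, PiLp.sub_apply, PiLp.smul_apply, smul_eq_mul]
      field_simp
      ring
    have : 0 ≤ γ x * ‖c x • ∇ w x - ∇ u x + ((u x - l) * (c x)⁻¹) • ∇ c x‖ ^ 2 :=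
      mul_nonneg (D.γ0 x) (sq_nonneg _)
    linarith
  rw [integral_sub (AgM.intOn (by fun_prop)) (AgM.intOn (by fun_prop)),
    integral_add (AgM.intOn (by fun_prop)) (AgM.intOn (by fun_prop)), integral_const_mul,
    D.weak' _ hψ] at e
  have h := D.abs_le (AgM.of_continuous hψ.continuous)
    (f := fun x => s + (B ^ 2 / s + 2) * (u x - l) ^ 2) (by fun_prop) (fun x hx => by
      have h1 := D.lo x
      have h2 : (c x)⁻¹ ≤ 2 := by rw [inv_le_comm₀ (by positivity) (by norm_num)]; linarith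
      have h3 : 0 < (c x)⁻¹ := by positivity
      have h4 : (w x - l) ^ 2 ≤ B ^ 2 := sq_le_sq' (_root_.abs_le.1 (hB x hx)).1
        (_root_.abs_le.1 (hB x hx)).2
      have h5 : (w x - l) ^ 2 / s * (u x - l) ^ 2 ≤ B ^ 2 / s * (u x - l) ^ 2 := by gcongr
      have h6 : 0 ≤ (s - (w x - l) * (u x - l)) ^ 2 / s := by positivity
      have h7 : 0 ≤ (s + (w x - l) * (u x - l)) ^ 2 / s := by positivity
      have h8 : (s - (w x - l) * (u x - l)) ^ 2 / s =
          s - 2 * ((w x - l) * (u x - l)) + (w x - l) ^ 2 / s * (u x - l) ^ 2 := by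
        field_simp; ring
      have h9 : (s + (w x - l) * (u x - l)) ^ 2 / s =
          s + 2 * ((w x - l) * (u x - l)) + (w x - l) ^ 2 / s * (u x - l) ^ 2 := by
        field_simp; ring
      have h10 : 0 ≤ (u x - l) ^ 2 * (c x)⁻¹ := by positivity
      have h11 : (u x - l) ^ 2 * (c x)⁻¹ ≤ (u x - l) ^ 2 * 2 := by gcongr
      rw [_root_.abs_le]
      constructor <;> nlinarith)
  have i1 : Integrable ν := b9.int fun x hx => D.ν0 x (by linarith)
  have i2 : Integrable (fun x => (u x - l) ^ 2 * ν x) :=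
    AgM.int (by fun_prop) fun x hx => by simp [D.ν0 x (by linarith)]
  have e2 : ∫ x, (s + (B ^ 2 / s + 2) * (u x - l) ^ 2) * ν x =
      s * (∫ x, ν x) + (B ^ 2 / s + 2) * ∫ x, (u x - l) ^ 2 * ν x := by
    rw [← integral_const_mul, ← integral_const_mul,
      ← integral_add (i1.const_mul s) (i2.const_mul _)]
    exact integral_congr_ae (Eventually.of_forall fun x => by ring)
  rw [e2] at h
  have h2 := (_root_.abs_le.1 h).2
  have h3 := D.νi
  simp only [ballEnergy] at e ⊢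
  nlinarith

lemma en_hg (hZ : ZLStmt) {u w : E → ℝ} (hu : ContDiff ℝ 1 u) (hw : ContDiff ℝ 1 w) (l B : ℝ)
    (hB : ∀ x ∈ ball (0 : E) 3, |w x - l| ≤ B) :
    ballEnergy γ (fun y => (w y - u y) + (c y - 1) * (w y - l)) ≤
      7 * ballEnergy γ w + 3 * B ^ 2 * K + 3 * ballEnergy γ u := by
  have b1 := D.γb
  have b2 := AgV.grad hu.locallyLipschitz
  have b4 := AgV.grad D.lip.locLip
  have b6 := AgV.grad (D.locLip_hg hu hw l)
  have b7 := AgV.grad hw.locallyLipschitz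
  have e : ballEnergy γ (fun y => (w y - u y) + (c y - 1) * (w y - l)) ≤
      ∫ x in ball (0 : E) 3, (7 * (γ x * ‖∇ w x‖ ^ 2) + 3 * B ^ 2 * (γ x * ‖∇ c x‖ ^ 2) +
        3 * (γ x * ‖∇ u x‖ ^ 2)) := by
    refine integral_mono_ae (AgM.intOn (by fun_prop)) (AgM.intOn (by fun_prop)) ?_
    filter_upwards [ae_restrict_of_ae (hZ.2.2 c D.lip.locLip),
      ae_restrict_mem measurableSet_ball] with x hc hx
    rw [grad_hg hu hw l hc]
    have h1 : ‖c x • ∇ w x + (w x - l) • ∇ c x - ∇ u x‖ ≤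
        3 / 2 * ‖∇ w x‖ + B * ‖∇ c x‖ + ‖∇ u x‖ := by
      refine (norm_sub_le _ _).trans (add_le_add_left ((norm_add_le _ _).trans ?_) _)
      rw [norm_smul, norm_smul, Real.norm_eq_abs, Real.norm_eq_abs,
        abs_of_nonneg (by linarith [D.lo x])]
      exact add_le_add (mul_le_mul_of_nonneg_right (D.hi x) (norm_nonneg _))
        (mul_le_mul_of_nonneg_right (hB x hx) (norm_nonneg _))
    have h2 : ‖c x • ∇ w x + (w x - l) • ∇ c x - ∇ u x‖ ^ 2 ≤
        7 * ‖∇ w x‖ ^ 2 + 3 * B ^ 2 * ‖∇ c x‖ ^ 2 + 3 * ‖∇ u x‖ ^ 2 := by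
      refine (pow_le_pow_left₀ (norm_nonneg _) h1 2).trans ?_
      nlinarith [sq_nonneg (3 / 2 * ‖∇ w x‖ - B * ‖∇ c x‖), sq_nonneg (3 / 2 * ‖∇ w x‖ - ‖∇ u x‖),
        sq_nonneg (B * ‖∇ c x‖ - ‖∇ u x‖), sq_nonneg ‖∇ w x‖]
    have := mul_le_mul_of_nonneg_left h2 (D.γ0 x)
    linarith
  rw [integral_add (AgM.intOn (by fun_prop)) (AgM.intOn (by fun_prop)),
    integral_add (AgM.intOn (by fun_prop)) (AgM.intOn (by fun_prop)), integral_const_mul,
    integral_const_mul, integral_const_mul,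
    ag_ball (F := fun x => γ x * ‖∇ c x‖ ^ 2) (fun x hx => by simp [D.grad_c0 hx])] at e
  have := mul_le_mul_of_nonneg_left D.en (by positivity : 0 ≤ 3 * B ^ 2)
  simp only [ballEnergy] at e ⊢
  linarith

end AG2Lev

lemma ag2_nonneg {γ : E → ℝ} (h : ∀ x, 0 ≤ γ x) (u : E → ℝ) : 0 ≤ ballEnergy γ u :=
  integral_nonneg fun x => mul_nonneg (h x) (sq_nonneg _)

lemma ag2_near {γ f : E → ℝ} (h : ∀ x, 0 ≤ γ x) (hf : ContDiff ℝ 1 f) {η : ℝ} (hη : 0 < η) :
    ∃ u, IsCompetitor f u ∧ ∀ w, IsCompetitor f w → ballEnergy γ u ≤ ballEnergy γ w + η := by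
  have hb : BddBelow (ballEnergy γ '' {u | IsCompetitor f u}) :=
    ⟨0, by rintro _ ⟨u, -, rfl⟩; exact ag2_nonneg h u⟩
  have hne : (ballEnergy γ '' {u | IsCompetitor f u}).Nonempty := ⟨_, f, ⟨hf, fun _ _ => rfl⟩, rfl⟩
  obtain ⟨_, ⟨u, hu, rfl⟩, hlt⟩ := exists_lt_of_csInf_lt hne (lt_add_of_pos_right _ hη)
  exact ⟨u, hu, fun w hw => hlt.le.trans (add_le_add_left (csInf_le hb ⟨w, hw, rfl⟩) _)⟩

lemma ag2_en_le {γ γ' γ'' u : E → ℝ} (h1 : AgM γ) (h2 : AgM γ') (h3 : AgM γ'')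
    (hu : LocallyLipschitz u) (a b : ℝ) (h : ∀ x, γ x ≤ a * γ' x + b * γ'' x) :
    ballEnergy γ u ≤ a * ballEnergy γ' u + b * ballEnergy γ'' u := by
  have := AgV.grad hu
  unfold ballEnergy
  rw [← integral_const_mul, ← integral_const_mul,
    ← integral_add (AgM.intOn (by fun_prop)) (AgM.intOn (by fun_prop))]
  refine integral_mono (AgM.intOn (by fun_prop)) (AgM.intOn (by fun_prop)) fun x => ?_
  have := mul_le_mul_of_nonneg_right (h x) (sq_nonneg ‖∇ u x‖)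
  simp only
  linarith

lemma ag2_small (A t : ℝ) (ht : 0 < t) : ∃ η₀, 0 < η₀ ∧ ∀ η, 0 < η → η ≤ η₀ → η * A ≤ t := by
  refine ⟨t / (|A| + 1), by positivity, fun η h0 h1 => ?_⟩
  rw [le_div_iff₀ (by positivity)] at h1
  nlinarith [le_abs_self A]

lemma ag2_l_bound (hF : FLStmt) {γ σ₀ u w : E → ℝ} {C Bw : ℝ} (hγ : AgM γ) (hC : 0 < C)
    (h1 : ∀ x, 1 ≤ C * γ x) (hm : Measurable σ₀) (hσ : ∀ x, |σ₀ x| ≤ C)
    (hσ0 : ∀ x : E, 27 / 10 ≤ ‖x‖ → σ₀ x = 0) (hu : ContDiff ℝ 1 u) (hw : ContDiff ℝ 1 w)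
    (huw : ∀ x : E, ‖x‖ = 3 → u x = w x) (hB : ∀ x ∈ ball (0 : E) 3, |w x| ≤ Bw) :
    |∫ y, u y * σ₀ y| ≤ C * ((Bw + 1) * volume.real (ball (0 : E) 3) +
      72 * C * (ballEnergy γ u + ballEnergy γ w)) := by
  have b1 := AgM.of_continuous hu.continuous
  have b2 := AgM.of_continuous hw.continuous
  have b3 := AgM.of_bdd hm hσ
  have b4 := AgV.grad hu.locallyLipschitz
  have b5 := AgV.grad hw.locallyLipschitz
  have b6 := AgV.grad (hu.sub hw).locallyLipschitz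
  have e1 : |∫ y, u y * σ₀ y| ≤ ∫ x in ball (0 : E) 3, C * ((Bw + 1) + (u x - w x) ^ 2) := by
    rw [← ag_ball (fun x hx => by simp [hσ0 x (by linarith)])]
    refine abs_integral_le_integral_abs.trans (integral_mono_ae (AgM.intOn (by fun_prop))
      (AgM.intOn (by fun_prop)) ?_)
    filter_upwards [ae_restrict_mem measurableSet_ball] with x hx
    have h2 : |u x| ≤ Bw + 1 + (u x - w x) ^ 2 := by
      have := _root_.abs_le.1 (hB x hx)
      rw [_root_.abs_le]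
      constructor <;> nlinarith [sq_nonneg (u x - w x - 1), sq_nonneg (u x - w x + 1)]
    rw [abs_mul, mul_comm]
    exact mul_le_mul (hσ x) h2 (abs_nonneg _) hC.le
  have e2 := hF (fun x => u x - w x) (hu.sub hw).locallyLipschitz
    (fun x hx => by rw [huw x hx, sub_self])
  have e3 : ∫ x in ball (0 : E) 3, ‖∇ (fun x => u x - w x) x‖ ^ 2 ≤
      ∫ x in ball (0 : E) 3, 2 * C * (γ x * ‖∇ u x‖ ^ 2 + γ x * ‖∇ w x‖ ^ 2) := by
    refine integral_mono (AgM.intOn (by fun_prop)) (AgM.intOn (by fun_prop)) fun x => ?_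
    simp only
    rw [grad_sub (hu.differentiable one_ne_zero x) (hw.differentiable one_ne_zero x)]
    have h2 := pow_le_pow_left₀ (norm_nonneg _) (norm_sub_le (∇ u x) (∇ w x)) 2
    have h3 := mul_le_mul_of_nonneg_right (h1 x)
      (add_nonneg (sq_nonneg ‖∇ u x‖) (sq_nonneg ‖∇ w x‖))
    nlinarith [sq_nonneg (‖∇ u x‖ - ‖∇ w x‖)]
  rw [integral_const_mul, integral_add (AgM.intOn (by fun_prop)) (AgM.intOn (by fun_prop))] at e1 e3
  rw [setIntegral_const, smul_eq_mul] at e1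
  refine e1.trans (mul_le_mul_of_nonneg_left ?_ hC.le)
  simp only [ballEnergy]
  linarith

theorem AG2_proof (hA : AG1Stmt) (hV : VIStmt) (hD : DLStmt) (hF : FLStmt) (hZ : ZLStmt) :
    AG2Stmt := by
  obtain ⟨γ, W, σ₀, Wn, μ, ν, C, hγm, hγ, hγ1, ⟨x₀, hx₀⟩, hlim, hW, hν, hσm, hσb, hσ0, hconc⟩ := hA
  have hC : 0 < C := lt_of_lt_of_le (hγ 0).2.1 (hγ 0).2.2
  have hγ0 : ∀ x, 0 ≤ γ x := fun x => (hγ x).2.1.le
  have bγ : AgM γ := AgM.of_bdd hγm (C := C) fun x => by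
    rw [abs_of_nonneg (hγ0 x)]; exact (hγ x).2.2
  obtain ⟨e, e0, e1, eC⟩ : ∃ e : ℝ, 0 < e ∧ e ≤ 1 ∧ e * C ≤ 1 / 2 :=
    ⟨1 / (2 * (C + 1)), by positivity, by rw [div_le_one (by positivity)]; linarith, by
      rw [div_mul_eq_mul_div, div_le_iff₀ (by positivity)]; linarith⟩
  have hrange : ∀ t : ℝ, |t| ≤ C → 1 / 2 ≤ 1 + e * t ∧ 1 + e * t ≤ 3 / 2 := fun t ht => by
    have := _root_.abs_le.1 ht
    constructor <;> nlinarith
  have hWc : Continuous W :=
    hlim.continuous (Eventually.of_forall fun n => (hW n).1.continuous).frequently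
  have hWb : ∀ x, |W x| ≤ C := fun x =>
    le_of_tendsto' (hlim.tendsto_at x).abs fun n => (hW n).2.2.1 x
  have hW0 : ∀ x : E, 27 / 10 ≤ ‖x‖ → W x = 0 := fun x hx =>
    tendsto_nhds_unique (hlim.tendsto_at x) (by simp only [(hW _).2.1 x hx, tendsto_const_nhds])
  have hlev : ∀ n, AG2Lev γ (fun x => 1 + e * Wn n x) (fun x => e * μ n x) (ν n) C := fun n => by
    obtain ⟨w1, w2, w3, w4⟩ := hW n
    obtain ⟨n1, n2, ⟨C', n3⟩, n4, n5, n6⟩ := hν n
    have hg : ∀ x, ∇ (fun x => 1 + e * Wn n x) x = e • ∇ (Wn n) x := fun x => by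
      rw [grad_const_add, grad_const_mul]
    have bμ : AgM (μ n) := AgM.of_bdd n1 fun x => (n3 x).1.trans (n3 x).2
    refine ⟨bγ, hγ0, (Lip.const 1).add (w1.const_mul e), fun x => (hrange _ (w3 x)).1,
      fun x => (hrange _ (w3 x)).2, fun x hx => by simp [w2 x hx], by fun_prop,
      AgM.of_bdd n2 (C := C') fun x => by
        rw [abs_of_nonneg ((abs_nonneg _).trans (n3 x).1)]; exact (n3 x).2,
      fun x => ?_, n4, n5, fun ψ hψ => ?_, ?_⟩
    · rw [abs_mul, abs_of_pos e0]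
      nlinarith [(n3 x).1, abs_nonneg (μ n x)]
    · simp only [hg, inner_smul_left, RCLike.conj_to_real, mul_left_comm _ e, integral_const_mul,
        n6 ψ hψ]
    · simp only [hg, norm_smul, mul_pow, mul_left_comm _ (‖e‖ ^ 2), integral_const_mul]
      rw [Real.norm_eq_abs, sq_abs]
      have h1 : e ^ 2 ≤ 1 := pow_le_one₀ e0.le e1
      nlinarith [sq_nonneg e]
  have hclose : ∀ δ : ℝ, 0 < δ → ∀ᶠ n in atTop, ∀ x,
      |(1 + e * W x) ^ 2 - (1 + e * Wn n x) ^ 2| ≤ δ := fun δ hδ => by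
    filter_upwards [Metric.tendstoUniformly_iff.1 hlim (δ / 3) (by positivity)] with n hn x
    have h1 := hn x
    have h2 := hrange _ (hWb x)
    have h3 := hrange _ ((hW n).2.2.1 x)
    rw [Real.dist_eq] at h1
    rw [sq_sub_sq, abs_mul, abs_of_pos (by linarith), add_sub_add_left_eq_sub, ← mul_sub, abs_mul,
      abs_of_pos e0]
    have h4 : e * |W x - Wn n x| ≤ δ / 3 := by nlinarith [abs_nonneg (W x - Wn n x)]
    have h5 : 0 ≤ e * |W x - Wn n x| := by positivity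
    nlinarith
  have bc : AgM (fun x => 1 + e * W x) := AgM.of_continuous (by fun_prop)
  have hc1 : ∀ x, |(1 + e * W x) ^ 2 * γ x| ≤ 9 / 4 * C := fun x => by
    have h2 := hrange _ (hWb x)
    rw [abs_of_nonneg (mul_nonneg (sq_nonneg _) (hγ0 x))]
    exact mul_le_mul (by nlinarith) (hγ x).2.2 (hγ0 x) (by norm_num)
  have hVI : ∀ {f u : E → ℝ} {η : ℝ}, IsCompetitor f u →
      (∀ w, IsCompetitor f w → ballEnergy γ u ≤ ballEnergy γ w + η) →
      ∀ h g : E → ℝ, ContDiff ℝ 1 h → (∀ x : E, ‖x‖ = 3 → h x = 0) → Lip g →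
      (∀ x : E, 27 / 10 ≤ ‖x‖ → g x = 0) →
      (∫ x in ball (0 : E) 3, γ x * ⟪∇ (fun y => h y + g y) x, ∇ u x⟫) ^ 2 ≤
        η * ballEnergy γ (fun y => h y + g y) := fun {f u η} hu hnear h g h1 h2 h3 h4 =>
    hV γ u h g C η (27 / 10) hγm (fun x => ⟨hγ0 x, (hγ x).2.2⟩) hu.1
      (fun w hw hw' => hnear w ⟨hw, fun x hx => (hw' x hx).trans (hu.2 x hx)⟩) h1 h2 h3
      (by norm_num) h4
  have hcon : ∀ {f u : E → ℝ} {η : ℝ}, 0 < η → IsCompetitor f u →
      (∀ w, IsCompetitor f w → ballEnergy γ u ≤ ballEnergy γ w + η) → ∀ ε : ℝ, 0 < ε →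
      ∀ᶠ n in atTop, ∫ x, (u x - ∫ y, u y * σ₀ y) ^ 2 * ν n x ≤ C * η + ε :=
    fun {f u η} hη hu hnear => hconc u η hu.1 hη.le fun g h3 h4 => by
      have := hVI hu hnear (fun _ => 0) g contDiff_const (fun _ _ => rfl) h3 h4
      simp only [zero_add, ballEnergy] at this
      rwa [ag_ball (fun x hx => by simp [ag_grad_zero h4 hx]),
        ag_ball (fun x hx => by simp [ag_grad_zero h4 hx])] at this
  refine ⟨γ, fun x => (1 + e * W x) ^ 2 * γ x, 1 / (4 * C), 9 / 4 * C, by positivity, hγm,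
    (by fun_prop : AgM fun x => (1 + e * W x) ^ 2 * γ x).1, fun x => ?_,
    ⟨27 / 10, by norm_num, fun x hx => by simp [hγ1 x hx.le, hW0 x hx.le]⟩, ?_, fun f hf => ⟨?_, ?_⟩⟩
  · have h2 := hrange _ (hWb x)
    have h3 := (hγ x).1
    have h4 := (hγ x).2
    refine ⟨?_, by linarith, ?_, (le_abs_self _).trans (hc1 x)⟩
    · rw [div_le_iff₀ (by positivity)]; nlinarith
    · rw [div_le_iff₀ (by positivity)]
      have : 1 ≤ 4 * (1 + e * W x) ^ 2 := by nlinarith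
      nlinarith
  · refine lt_of_lt_of_le ((isOpen_ne_fun hWc continuous_const).measure_pos volume ⟨x₀, hx₀⟩)
      (measure_mono fun x hx h => hx ?_)
    have h2 := hrange _ (hWb x)
    have h3 : (1 + e * W x) ^ 2 = 1 := by
      have := (hγ x).2.1.ne'
      field_simp at h
      exact h.symm
    have h4 : e * W x * (2 + e * W x) = 0 := by linarith
    rcases mul_eq_zero.1 h4 with h5 | h5
    · exact (mul_eq_zero.1 h5).resolve_left e0.ne'
    · linarith
  · intro u₀ hu₀ ε hε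
    obtain ⟨η, hη, hη'⟩ := ag2_small (1 + 2 * C) (ε / 4) (by positivity)
    obtain ⟨δ, hδ, hδ'⟩ := ag2_small (ballEnergy γ u₀ + ε / 2) (ε / 4) (by positivity)
    obtain ⟨u, hu, hnear⟩ := ag2_near hγ0 hf hη
    obtain ⟨n, hn1, hn2⟩ :=
      ((hcon hη hu hnear (ε / 8) (by positivity)).and (hclose (δ / 4) (by positivity))).exists
    set l := ∫ y, u y * σ₀ y
    have L := hlev n
    have hg : LocallyLipschitz (fun x => (u x - l) * ((1 + e * Wn n x)⁻¹ - 1)) :=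
      locLip_mul (ag2_locLip hu.1 l) (L.inv_lip.sub (Lip.const 1)).locLip
    have hg0 : ∀ x : E, 27 / 10 ≤ ‖x‖ → (u x - l) * ((1 + e * Wn n x)⁻¹ - 1) = 0 := fun x hx => by
      simp [(hW n).2.1 x hx]
    obtain ⟨w, hw1, hw2, hw3⟩ := hD (fun x => (1 + e * W x) ^ 2 * γ x) u _ _ (27 / 10)
      (by fun_prop : AgM fun x => (1 + e * W x) ^ 2 * γ x).1 hc1 hu.1 (ag_lip hg hg0)
      (by norm_num) hg0 (ε / 4) (by positivity)
    refine ⟨w, ⟨hw1, fun x hx => (hw2 x hx).trans (hu.2 x hx)⟩, ?_⟩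
    have bn := AgM.of_continuous L.lip.continuous
    have h1 := ag2_en_le (γ := fun x => (1 + e * W x) ^ 2 * γ x)
      (γ' := fun x => (1 + e * Wn n x) ^ 2 * γ x) (by fun_prop) (by fun_prop) bγ
      (hu.1.locallyLipschitz.add hg) (1 + δ) 0 (fun x => by
        have h2 := (_root_.abs_le.1 (hn2 x)).2
        have h3 := L.lo x
        have h4 : (1 + e * W x) ^ 2 ≤ (1 + δ) * (1 + e * Wn n x) ^ 2 := by
          have : 1 / 4 ≤ (1 + e * Wn n x) ^ 2 := by nlinarith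
          nlinarith
        have := mul_le_mul_of_nonneg_right h4 (hγ0 x)
        linarith)
    have h2 := L.upper hZ hu.1 l
    have h3 := hnear u₀ hu₀
    have h4 := hη' η hη le_rfl
    have h5 := hδ' δ hδ le_rfl
    have h6 : ballEnergy (fun x => (1 + e * Wn n x) ^ 2 * γ x)
        (fun x => u x + (u x - l) * ((1 + e * Wn n x)⁻¹ - 1)) ≤ ballEnergy γ u₀ + ε / 2 := by
      linarith
    have h7 := mul_le_mul_of_nonneg_left h6 (by positivity : 0 ≤ 1 + δ)
    linarith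
  · intro w hw ε hε
    obtain ⟨-, Bw, hBw⟩ := AgM.of_continuous hw.1.continuous
    have Ew := ag2_nonneg hγ0 w
    set B := Bw + C * ((Bw + 1) * volume.real (ball (0 : E) 3) +
      72 * C * (ballEnergy γ w + 1 + ballEnergy γ w)) with hB
    obtain ⟨η₁, p1, q1⟩ := ag2_small (7 * ballEnergy γ w + 3 * B ^ 2 * C + 3 * (ballEnergy γ w + 1))
      ((ε / 8) ^ 2) (by positivity)
    obtain ⟨η₂, p2, q2⟩ := ag2_small ((B ^ 2 / (ε / 8) + 2) * C) (ε / 8) (by positivity)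
    obtain ⟨ε', p3, q3⟩ := ag2_small (B ^ 2 / (ε / 8) + 2) (ε / 8) (by positivity)
    obtain ⟨δ, p4, q4⟩ := ag2_small (ballEnergy γ w) (ε / 8) (by positivity)
    have hη : 0 < min 1 (min η₁ η₂) := by positivity
    have r1 := q1 _ hη ((min_le_right _ _).trans (min_le_left _ _))
    have r2 := q2 _ hη ((min_le_right _ _).trans (min_le_right _ _))
    have r0 : min 1 (min η₁ η₂) ≤ 1 := min_le_left _ _
    generalize min 1 (min η₁ η₂) = η at hη r0 r1 r2
    have r3 := q3 _ p3 le_rfl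
    have r4 := q4 _ p4 le_rfl
    obtain ⟨u, hu, hnear⟩ := ag2_near hγ0 hf hη
    refine ⟨u, hu, ?_⟩
    obtain ⟨n, hn1, hn2⟩ := ((hcon hη hu hnear ε' p3).and (hclose δ p4)).exists
    have hl := ag2_l_bound hF bγ hC (fun x => (hγ x).1) hσm hσb hσ0 hu.1 hw.1
      (fun x hx => (hu.2 x hx).trans (hw.2 x hx).symm) hBw
    set l := ∫ y, u y * σ₀ y
    have L := hlev n
    have h0 := hnear w hw
    have hBl : ∀ x ∈ ball (0 : E) 3, |w x - l| ≤ B := fun x hx => by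
      refine (abs_sub _ _).trans (add_le_add (hBw x hx) (hl.trans ?_))
      gcongr
      linarith
    have h1 := L.lower hZ hu.1 hw.1 l B (ε / 8) (by positivity) hBl
    have h2 := L.en_hg hZ hu.1 hw.1 l B hBl
    have hg0 : ∀ x : E, 27 / 10 ≤ ‖x‖ → (1 + e * Wn n x - 1) * (w x - l) = 0 := fun x hx => by
      simp [(hW n).2.1 x hx]
    have h3 := hVI hu hnear (fun y => w y - u y) (fun y => (1 + e * Wn n y - 1) * (w y - l))
      (hw.1.sub hu.1) (fun x hx => by rw [hw.2 x hx, hu.2 x hx, sub_self])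
      (ag_lip (locLip_mul (L.lip.sub (Lip.const 1)).locLip (ag2_locLip hw.1 l)) hg0) hg0
    have bn := AgM.of_continuous L.lip.continuous
    have h4 := ag2_en_le (γ := fun x => (1 + e * Wn n x) ^ 2 * γ x)
      (γ' := fun x => (1 + e * W x) ^ 2 * γ x) (by fun_prop) (by fun_prop) bγ
      hw.1.locallyLipschitz 1 δ (fun x => by
        have h2 := (_root_.abs_le.1 (hn2 x)).1
        have := mul_le_mul_of_nonneg_right h2 (hγ0 x)
        linarith)
    have h5 := mul_le_mul_of_nonneg_left h2 hη.le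
    have h6 := mul_le_mul_of_nonneg_left (h0.trans (add_le_add_right r0 _)) hη.le
    have h7 := (abs_le_of_sq_le_sq' (h3.trans (by linarith) : _ ≤ (ε / 8) ^ 2) (by positivity)).1
    have h8 := mul_le_mul_of_nonneg_left hn1 (by positivity : 0 ≤ B ^ 2 / (ε / 8) + 2)
    linarith

end Crest.Agent.R83
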