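import Crest.Agent.R83.Basic

/-! Row 83: bounded measurable functions on the ball of radius 3 (tools for AG1, AG2). -/

set_option autoImplicit false

noncomputable section

namespace Crest.Agent.R83

open MeasureTheory Set Filter Topology Metric
open scoped Gradient RealInnerProductSpace NNReal

/-- measurable and bounded on the ball (scalars) -/
@[fun_prop] def AgM (f : E → ℝ) : Prop := Measurable f ∧ ∃ C : ℝ, ∀ x ∈ ball (0 : E) 3, |f x| ≤ C

/-- measurable and bounded on the ball (vectors) -/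
@[fun_prop] def AgV (f : E → E) : Prop := Measurable f ∧ ∃ C : ℝ, ∀ x ∈ ball (0 : E) 3, ‖f x‖ ≤ C

namespace AgM

variable {f g : E → ℝ} {p q : E → E}

@[fun_prop] lemma const (c : ℝ) : AgM (fun _ => c) := ⟨measurable_const, |c|, fun _ _ => le_rfl⟩

@[fun_prop] lemma add (hf : AgM f) (hg : AgM g) : AgM (fun x => f x + g x) := by
  obtain ⟨h1, C, hC⟩ := hf
  obtain ⟨h2, D, hD⟩ := hg
  exact ⟨h1.add h2, C + D, fun x hx => (abs_add_le _ _).trans (add_le_add (hC x hx) (hD x hx))⟩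

@[fun_prop] lemma neg (hf : AgM f) : AgM (fun x => -f x) := by
  obtain ⟨h1, C, hC⟩ := hf
  exact ⟨h1.neg, C, fun x hx => by rw [abs_neg]; exact hC x hx⟩

@[fun_prop] lemma sub (hf : AgM f) (hg : AgM g) : AgM (fun x => f x - g x) := by
  simpa only [sub_eq_add_neg] using hf.add hg.neg

@[fun_prop] lemma mul (hf : AgM f) (hg : AgM g) : AgM (fun x => f x * g x) := by
  obtain ⟨h1, C, hC⟩ := hf
  obtain ⟨h2, D, hD⟩ := hg
  refine ⟨h1.mul h2, C * D, fun x hx => ?_⟩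
  rw [abs_mul]
  exact mul_le_mul (hC x hx) (hD x hx) (abs_nonneg _) ((abs_nonneg _).trans (hC x hx))

@[fun_prop] lemma pow (hf : AgM f) (n : ℕ) : AgM (fun x => f x ^ n) := by
  induction n with
  | zero => simpa using const 1
  | succ n ih => simpa only [pow_succ] using ih.mul hf

@[fun_prop] lemma abs (hf : AgM f) : AgM (fun x => |f x|) := by
  obtain ⟨h1, C, hC⟩ := hf
  exact ⟨h1.abs, C, fun x hx => by rw [abs_abs]; exact hC x hx⟩

@[fun_prop] lemma norm (hp : AgV p) : AgM (fun x => ‖p x‖) := by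
  obtain ⟨h1, C, hC⟩ := hp
  exact ⟨h1.norm, C, fun x hx => by rw [abs_norm]; exact hC x hx⟩

@[fun_prop] lemma inner (hp : AgV p) (hq : AgV q) : AgM (fun x => ⟪p x, q x⟫) := by
  obtain ⟨h1, C, hC⟩ := hp
  obtain ⟨h2, D, hD⟩ := hq
  refine ⟨h1.inner h2, C * D, fun x hx => (abs_real_inner_le_norm _ _).trans ?_⟩
  exact mul_le_mul (hC x hx) (hD x hx) (norm_nonneg _) ((norm_nonneg _).trans (hC x hx))

lemma of_continuous (hf : Continuous f) : AgM f := by
  obtain ⟨C, hC⟩ := (isCompact_closedBall (0 : E) 3).exists_bound_of_continuousOn hf.continuousOn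
  exact ⟨hf.measurable, C, fun x hx => hC x (ball_subset_closedBall hx)⟩

lemma of_bdd (hf : Measurable f) {C : ℝ} (h : ∀ x, |f x| ≤ C) : AgM f := ⟨hf, C, fun x _ => h x⟩

lemma intOn (hf : AgM f) : IntegrableOn f (ball (0 : E) 3) := by
  obtain ⟨h1, C, hC⟩ := hf
  exact Measure.integrableOn_of_bounded (M := C) measure_ball_lt_top.ne h1.aestronglyMeasurable
    (ae_restrict_of_forall_mem measurableSet_ball hC)

lemma int (hf : AgM f) (h0 : ∀ x : E, 3 ≤ ‖x‖ → f x = 0) : Integrable f :=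
  hf.intOn.integrable_of_forall_notMem_eq_zero fun x hx => h0 x (by simpa using hx)

end AgM

namespace AgV

variable {f : E → ℝ} {p q : E → E}

@[fun_prop] lemma add (hp : AgV p) (hq : AgV q) : AgV (fun x => p x + q x) := by
  obtain ⟨h1, C, hC⟩ := hp
  obtain ⟨h2, D, hD⟩ := hq
  exact ⟨h1.add h2, C + D, fun x hx => (norm_add_le _ _).trans (add_le_add (hC x hx) (hD x hx))⟩

@[fun_prop] lemma sub (hp : AgV p) (hq : AgV q) : AgV (fun x => p x - q x) := by
  obtain ⟨h1, C, hC⟩ := hp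
  obtain ⟨h2, D, hD⟩ := hq
  exact ⟨h1.sub h2, C + D, fun x hx => (norm_sub_le _ _).trans (add_le_add (hC x hx) (hD x hx))⟩

@[fun_prop] lemma smul (hf : AgM f) (hp : AgV p) : AgV (fun x => f x • p x) := by
  obtain ⟨h1, C, hC⟩ := hf
  obtain ⟨h2, D, hD⟩ := hp
  refine ⟨h1.smul h2, C * D, fun x hx => ?_⟩
  rw [norm_smul, Real.norm_eq_abs]
  exact mul_le_mul (hC x hx) (hD x hx) (norm_nonneg _) ((abs_nonneg _).trans (hC x hx))

lemma grad (hf : LocallyLipschitz f) : AgV (fun x => ∇ f x) := by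
  obtain ⟨K, hK⟩ := (hf.locallyLipschitzOn (s := closedBall (0 : E) 3)
    ).exists_lipschitzOnWith_of_compact (isCompact_closedBall _ _)
  refine ⟨measurable_grad f, K, fun x hx => ?_⟩
  rw [norm_grad]
  exact norm_fderiv_le_of_lipschitzOn ℝ
    (mem_of_superset (isOpen_ball.mem_nhds hx) ball_subset_closedBall) hK

end AgV

lemma ag_grad_zero {f : E → ℝ} (h : ∀ x : E, 27 / 10 ≤ ‖x‖ → f x = 0) {x : E} (hx : 3 ≤ ‖x‖) :
    ∇ f x = 0 := by
  have : f =ᶠ[𝓝 x] fun _ => 0 := by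
    have : {y : E | 27 / 10 < ‖y‖} ∈ 𝓝 x :=
      (isOpen_lt continuous_const continuous_norm).mem_nhds (by simp only [mem_ofPred_eq]; linarith)
    filter_upwards [this] with y hy using h y (le_of_lt hy)
  rw [grad_congr this, grad_const]

lemma ag_ball {F : E → ℝ} (h : ∀ x : E, 3 ≤ ‖x‖ → F x = 0) :
    ∫ x in ball (0 : E) 3, F x = ∫ x, F x :=
  setIntegral_eq_integral_of_forall_compl_eq_zero fun x hx => h x (by simpa using hx)

lemma ag_lip {f : E → ℝ} (hf : LocallyLipschitz f) (h : ∀ x : E, 27 / 10 ≤ ‖x‖ → f x = 0) :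
    Lip f :=
  lip_of_locLip hf (HasCompactSupport.intro (isCompact_closedBall (0 : E) 3) fun x hx =>
    h x (by simp only [mem_closedBall, dist_zero_right, not_le] at hx; linarith))

lemma ag_normsq_add (p q : E) (s : ℝ) (hs : 0 < s) :
    ‖p + q‖ ^ 2 ≤ (1 + 1 / s) * ‖p‖ ^ 2 + (1 + s) * ‖q‖ ^ 2 := by
  have h1 := norm_add_le p q
  have h2 : ‖p + q‖ ^ 2 ≤ (‖p‖ + ‖q‖) ^ 2 := pow_le_pow_left₀ (norm_nonneg _) h1 2
  have h3 : 0 ≤ (‖p‖ - s * ‖q‖) ^ 2 / s := by positivity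
  have h4 : (‖p‖ - s * ‖q‖) ^ 2 / s = 1 / s * ‖p‖ ^ 2 - 2 * ‖p‖ * ‖q‖ + s * ‖q‖ ^ 2 := by
    field_simp; ring
  nlinarith

end Crest.Agent.R83
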