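import Crest.Agent.R83.Defs

/-! Small toolkit for row 83. -/

set_option autoImplicit false

noncomputable section

namespace Crest.Agent.R83

open MeasureTheory Set Filter Topology Metric
open scoped Gradient RealInnerProductSpace NNReal

@[simp] lemma cross_0 (p q : E) : cross p q 0 = p 1 * q 2 - p 2 * q 1 := by simp [cross]
@[simp] lemma cross_1 (p q : E) : cross p q 1 = p 2 * q 0 - p 0 * q 2 := by simp [cross]
@[simp] lemma cross_2 (p q : E) : cross p q 2 = p 0 * q 1 - p 1 * q 0 := by simp [cross]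
@[simp] lemma sw_0 (p : E) : sw p 0 = p 1 := by simp [sw]
@[simp] lemma sw_1 (p : E) : sw p 1 = p 0 := by simp [sw]
@[simp] lemma sw_2 (p : E) : sw p 2 = p 2 := by simp [sw]
@[simp] lemma diag_apply (l : Fin 3 → ℝ) (p : E) (i : Fin 3) : diag l p i = l i * p i := rfl
lemma ee_apply (i k : Fin 3) : ee i k = if k = i then 1 else 0 := by simp [ee]
@[simp] lemma X_apply (i : Fin 3) (q : E) : X i q = q i := rfl

lemma ext3 {p q : E} (h0 : p 0 = q 0) (h1 : p 1 = q 1) (h2 : p 2 = q 2) : p = q := by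
  ext i; fin_cases i <;> assumption

lemma inner3 (p q : E) : ⟪p, q⟫ = p 0 * q 0 + p 1 * q 1 + p 2 * q 2 := by
  simp [PiLp.inner_apply, Fin.sum_univ_three]; ring

lemma normsq3 (p : E) : ‖p‖ ^ 2 = p 0 ^ 2 + p 1 ^ 2 + p 2 ^ 2 := by
  rw [← real_inner_self_eq_norm_sq, inner3]; ring

lemma abs_coord_le (p : E) (i : Fin 3) : |p i| ≤ ‖p‖ := by
  simpa using PiLp.norm_apply_le p i

lemma inner_ee (p : E) (i : Fin 3) : ⟪p, ee i⟫ = p i := by
  rw [inner3]; fin_cases i <;> simp [ee_apply]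

lemma inner_grad (f : E → ℝ) (x v : E) : ⟪∇ f x, v⟫ = fderiv ℝ f x v := by
  simp [gradient]

lemma grad_apply (f : E → ℝ) (x : E) (i : Fin 3) : ∇ f x i = fderiv ℝ f x (ee i) := by
  rw [← inner_grad, inner_ee]

lemma norm_grad (f : E → ℝ) (x : E) : ‖∇ f x‖ = ‖fderiv ℝ f x‖ := by
  simp [gradient]

lemma measurable_grad (f : E → ℝ) : Measurable (fun x => ∇ f x) := by
  unfold gradient
  exact (InnerProductSpace.toDual ℝ E).symm.continuous.measurable.comp (measurable_fderiv ℝ f)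

lemma grad_congr {f g : E → ℝ} {x : E} (h : f =ᶠ[𝓝 x] g) : ∇ f x = ∇ g x := by
  unfold gradient; rw [h.fderiv_eq]

lemma grad_congr_ev {f g : E → ℝ} {x : E} (h : f =ᶠ[𝓝 x] g) : ∀ᶠ y in 𝓝 x, ∇ f y = ∇ g y :=
  h.eventually_nhds.mono fun _ hy => grad_congr hy

lemma norm_grad_le {f : E → ℝ} {K : ℝ≥0} (h : LipschitzWith K f) (x : E) : ‖∇ f x‖ ≤ K := by
  rw [norm_grad]; exact norm_fderiv_le_of_lipschitz ℝ h

lemma grad_eq_of_hasFDerivAt {f : E → ℝ} {L : E →L[ℝ] ℝ} {x : E} (h : HasFDerivAt f L x) (i : Fin 3) :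
    ∇ f x i = L (ee i) := by rw [grad_apply, h.fderiv]

lemma hasFDerivAt_X (i : Fin 3) (x : E) :
    HasFDerivAt (X i) (EuclideanSpace.proj i : E →L[ℝ] ℝ) x :=
  (EuclideanSpace.proj i : E →L[ℝ] ℝ).hasFDerivAt

lemma contDiff_X (i : Fin 3) {n : WithTop ℕ∞} : ContDiff ℝ n (X i) :=
  (EuclideanSpace.proj i : E →L[ℝ] ℝ).contDiff

lemma lipschitz_X (i : Fin 3) : LipschitzWith 1 (X i) :=
  LipschitzWith.of_dist_le_mul fun p q => by
    simpa [Real.dist_eq, dist_eq_norm] using abs_coord_le (p - q) i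

@[simp] lemma grad_X (i : Fin 3) (x : E) : ∇ (X i) x = ee i := by
  ext k; rw [grad_eq_of_hasFDerivAt (hasFDerivAt_X i x)]
  simp [ee_apply, eq_comm]

@[simp] lemma grad_const (c : ℝ) (x : E) : ∇ (fun _ : E => c) x = 0 := by simp [gradient]

@[simp] lemma grad_zero (x : E) : ∇ (0 : E → ℝ) x = 0 := grad_const 0 x

lemma grad_add {f g : E → ℝ} {x : E} (hf : DifferentiableAt ℝ f x) (hg : DifferentiableAt ℝ g x) :
    ∇ (fun y => f y + g y) x = ∇ f x + ∇ g x := by
  ext i; simp only [grad_apply, PiLp.add_apply]; rw [fderiv_fun_add hf hg]; rfl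

lemma grad_sub {f g : E → ℝ} {x : E} (hf : DifferentiableAt ℝ f x) (hg : DifferentiableAt ℝ g x) :
    ∇ (fun y => f y - g y) x = ∇ f x - ∇ g x := by
  ext i; simp only [grad_apply, PiLp.sub_apply]; rw [fderiv_fun_sub hf hg]; rfl

lemma grad_neg (f : E → ℝ) (x : E) : ∇ (fun y => -f y) x = -∇ f x := by
  ext i; simp only [grad_apply, PiLp.neg_apply]; rw [fderiv_fun_neg]; rfl

lemma grad_mul {f g : E → ℝ} {x : E} (hf : DifferentiableAt ℝ f x) (hg : DifferentiableAt ℝ g x) :
    ∇ (fun y => f y * g y) x = f x • ∇ g x + g x • ∇ f x := by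
  ext i; simp only [grad_apply, PiLp.add_apply, PiLp.smul_apply]; rw [fderiv_fun_mul hf hg]; rfl

lemma grad_const_mul (c : ℝ) (f : E → ℝ) (x : E) : ∇ (fun y => c * f y) x = c • ∇ f x := by
  ext i; simp only [grad_apply, PiLp.smul_apply]
  have := fderiv_const_smul_field (𝕜 := ℝ) (f := f) c
  have h2 : (fun y => c * f y) = c • f := rfl
  rw [h2, this]; rfl

lemma grad_const_add (c : ℝ) (f : E → ℝ) (x : E) : ∇ (fun y => c + f y) x = ∇ f x := by
  unfold gradient; rw [fderiv_const_add]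

lemma grad_add_const (c : ℝ) (f : E → ℝ) (x : E) : ∇ (fun y => f y + c) x = ∇ f x := by
  unfold gradient; rw [fderiv_add_const]

lemma grad_comp {h : ℝ → ℝ} {h' : ℝ} {f : E → ℝ} {x : E} (hh : HasDerivAt h h' (f x))
    (hf : DifferentiableAt ℝ f x) : ∇ (fun y => h (f y)) x = h' • ∇ f x := by
  ext i
  have h1 : HasFDerivAt (fun y => h (f y)) (h' • fderiv ℝ f x) x :=
    hh.comp_hasFDerivAt x hf.hasFDerivAt
  rw [grad_eq_of_hasFDerivAt h1]
  simp [grad_apply]

lemma continuousAt_grad {f : E → ℝ} {x : E} (h : ContDiffAt ℝ 1 f x) :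
    ContinuousAt (fun y => ∇ f y) x := by
  unfold gradient
  exact (InnerProductSpace.toDual ℝ E).symm.continuous.continuousAt.comp
    (h.fderiv_right (m := 0) (by norm_num)).continuousAt

lemma continuous_cross : Continuous (fun z : E × E => cross z.1 z.2) := by
  unfold cross
  refine (PiLp.continuous_toLp 2 _).comp (continuous_pi fun i => ?_)
  fin_cases i <;> simp <;> fun_prop

lemma measurable_cross {f g : E → E} (hf : Measurable f) (hg : Measurable g) :
    Measurable (fun x => cross (f x) (g x)) :=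
  continuous_cross.measurable.comp (hf.prodMk hg)

lemma norm_cross_le (p q : E) : ‖cross p q‖ ≤ ‖p‖ * ‖q‖ := by
  have h : ‖cross p q‖ ^ 2 ≤ (‖p‖ * ‖q‖) ^ 2 := by
    rw [mul_pow, normsq3, normsq3, normsq3]; simp only [cross_0, cross_1, cross_2]
    nlinarith [sq_nonneg (p 0 * q 0 + p 1 * q 1 + p 2 * q 2)]
  exact (pow_le_pow_iff_left₀ (norm_nonneg _) (by positivity) two_ne_zero).1 h

lemma cross_smul_left (c : ℝ) (p q : E) : cross (c • p) q = c • cross p q := by
  apply ext3 <;> simp <;> ring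
lemma cross_smul_right (c : ℝ) (p q : E) : cross p (c • q) = c • cross p q := by
  apply ext3 <;> simp <;> ring
lemma cross_neg_left (p q : E) : cross (-p) q = -cross p q := by
  apply ext3 <;> simp <;> ring
lemma cross_neg_right (p q : E) : cross p (-q) = -cross p q := by
  apply ext3 <;> simp <;> ring
lemma cross_add_left (p p' q : E) : cross (p + p') q = cross p q + cross p' q := by
  apply ext3 <;> simp <;> ring
lemma cross_sub_left (p p' q : E) : cross (p - p') q = cross p q - cross p' q := by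
  apply ext3 <;> simp <;> ring
lemma cross_anticomm (p q : E) : cross p q = -cross q p := by
  apply ext3 <;> simp <;> ring
@[simp] lemma cross_zero_left (q : E) : cross 0 q = 0 := by apply ext3 <;> simp
@[simp] lemma cross_zero_right (q : E) : cross q 0 = 0 := by apply ext3 <;> simp

/-- the pair generated by five potentials is symmetric -/
lemma J_symm (v₁ v₂ α β δ : E → ℝ) (y : E) :
    ⟪∇ v₁ y, J2 v₁ v₂ β δ y⟫ = ⟪∇ v₂ y, J1 v₁ v₂ α β y⟫ := by
  simp only [J1, J2, inner3, PiLp.sub_apply, cross_0, cross_1, cross_2]; ring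

lemma Lip.locLip {f : E → ℝ} (h : Lip f) : LocallyLipschitz f := by
  obtain ⟨K, hK⟩ := h; exact hK.locallyLipschitz

lemma Lip.continuous {f : E → ℝ} (h : Lip f) : Continuous f := by
  obtain ⟨K, hK⟩ := h; exact hK.continuous

/-- a coordinate plane is null -/
lemma volume_plane (i : Fin 3) (c : ℝ) : volume {x : E | x i = c} = 0 := by
  have h : {x : E | x i = c} = (WithLp.ofLp : E → (Fin 3 → ℝ)) ⁻¹' {y | y i = c} := rfl
  rw [h, (PiLp.volume_preserving_ofLp (Fin 3)).measure_preimage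
    (measurableSet_eq_fun (measurable_pi_apply i) measurable_const).nullMeasurableSet]
  exact MeasureTheory.Measure.pi_hyperplane (fun _ : Fin 3 => (volume : Measure ℝ)) i c

lemma ae_coord_ne (i : Fin 3) (c : ℝ) : ∀ᵐ x : E, x i ≠ c := by
  rw [ae_iff]; simpa using volume_plane i c

lemma Lip.add {f g : E → ℝ} (hf : Lip f) (hg : Lip g) : Lip (fun x => f x + g x) := by
  obtain ⟨K, hK⟩ := hf; obtain ⟨L, hL⟩ := hg; exact ⟨_, hK.add hL⟩

lemma Lip.sub {f g : E → ℝ} (hf : Lip f) (hg : Lip g) : Lip (fun x => f x - g x) := by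
  obtain ⟨K, hK⟩ := hf; obtain ⟨L, hL⟩ := hg; exact ⟨_, hK.sub hL⟩

lemma Lip.const (c : ℝ) : Lip (fun _ => c) := ⟨0, LipschitzWith.const c⟩

lemma Lip.const_mul (c : ℝ) {f : E → ℝ} (hf : Lip f) : Lip (fun x => c * f x) := by
  obtain ⟨K, hK⟩ := hf
  refine ⟨‖c‖₊ * K, LipschitzWith.of_dist_le_mul fun x y => ?_⟩
  have := hK.dist_le_mul x y
  rw [Real.dist_eq] at this ⊢
  rw [← mul_sub, abs_mul]; push_cast
  rw [mul_assoc, Real.norm_eq_abs]; gcongr

lemma Lip.comp {f : E → ℝ} (hf : Lip f) {κ : E → E} {K : ℝ≥0} (hκ : LipschitzWith K κ) :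
    Lip (fun x => f (κ x)) := by
  obtain ⟨L, hL⟩ := hf; exact ⟨_, hL.comp hκ⟩

/-- locally Lipschitz with compact support is Lipschitz -/
lemma lip_of_locLip {f : E → ℝ} (hf : LocallyLipschitz f) (hc : HasCompactSupport f) : Lip f := by
  obtain ⟨R, hR⟩ := hc.isCompact.isBounded.subset_closedBall (0 : E)
  obtain ⟨K, hK⟩ := (hf.locallyLipschitzOn (s := closedBall (0 : E) (|R| + 1))
    ).exists_lipschitzOnWith_of_compact (isCompact_closedBall _ _)
  obtain ⟨C, hC⟩ := hf.continuous.bounded_above_of_compact_support hc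
  have hz : ∀ y : E, |R| < ‖y‖ → f y = 0 := fun y hy => by
    by_contra h
    have := hR (subset_tsupport _ h)
    rw [mem_closedBall, dist_zero_right] at this
    linarith [le_abs_self R]
  have key : ∀ x y : E, ‖x‖ ≤ |R| → |R| + 1 < ‖y‖ → dist (f x) (f y) ≤ (K + |C|) * dist x y := by
    intro x y hx hy
    have h1 : 1 ≤ dist x y := by
      rw [dist_comm, dist_eq_norm]; linarith [norm_sub_norm_le y x]
    rw [hz y (by linarith), dist_zero_right]
    have := hC x
    have h2 : (0 : ℝ) ≤ K := K.2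
    nlinarith [le_abs_self C, abs_nonneg C]
  refine ⟨K + ⟨|C|, abs_nonneg C⟩, LipschitzWith.of_dist_le_mul fun x y => ?_⟩
  change dist (f x) (f y) ≤ (K + |C|) * dist x y
  have h0 : (0 : ℝ) ≤ (K + |C|) * dist x y := by positivity
  by_cases hx : ‖x‖ ≤ |R| + 1 <;> by_cases hy : ‖y‖ ≤ |R| + 1
  · have := hK.dist_le_mul x (by simpa using hx) y (by simpa using hy)
    nlinarith [abs_nonneg C, dist_nonneg (x := x) (y := y)]
  · by_cases hx' : ‖x‖ ≤ |R|
    · exact key x y hx' (not_le.1 hy)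
    · rw [hz x (not_le.1 hx'), hz y (by linarith [not_le.1 hy]), dist_self]; exact h0
  · by_cases hy' : ‖y‖ ≤ |R|
    · rw [dist_comm, dist_comm x]; exact key y x hy' (not_le.1 hx)
    · rw [hz y (not_le.1 hy'), hz x (by linarith [not_le.1 hx]), dist_self]; exact h0
  · rw [hz x (by linarith [not_le.1 hx]), hz y (by linarith [not_le.1 hy]), dist_self]; exact h0

lemma locLip_mul {f g : E → ℝ} (hf : LocallyLipschitz f) (hg : LocallyLipschitz g) :
    LocallyLipschitz (fun x => f x * g x) := by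
  have h : LocallyLipschitz (fun z : ℝ × ℝ => z.1 * z.2) :=
    (contDiff_fst.mul contDiff_snd : ContDiff ℝ 1 _).locallyLipschitz
  exact h.comp (hf.prodMk hg)

end Crest.Agent.R83
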