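import Crest.Agent.R83.Basic

/-! Row 83, task CA: the cascade. -/

set_option autoImplicit false

noncomputable section

namespace Crest.Agent.R83

open MeasureTheory Set Filter Topology Metric
open scoped Gradient NNReal

/-- bounded and Lipschitz -/
def caBL (f : E → ℝ) : Prop := ∃ K : ℝ≥0, LipschitzWith K f ∧ ∀ x, |f x| ≤ K

lemma caBL.mul {f g : E → ℝ} (hf : caBL f) (hg : caBL g) : caBL (fun x => f x * g x) := by
  obtain ⟨K, hK, hK'⟩ := hf
  obtain ⟨L, hL, hL'⟩ := hg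
  refine ⟨2 * (K * L), LipschitzWith.of_dist_le_mul fun x y => ?_, fun x => ?_⟩
  · have h1 := hK.dist_le_mul x y
    have h2 := hL.dist_le_mul x y
    rw [Real.dist_eq] at h1 h2 ⊢
    have h3 : f x * g x - f y * g y = f x * (g x - g y) + g y * (f x - f y) := by ring
    rw [h3]
    push_cast
    calc |f x * (g x - g y) + g y * (f x - f y)|
        ≤ |f x| * |g x - g y| + |g y| * |f x - f y| := by
          rw [← abs_mul, ← abs_mul]; exact abs_add_le _ _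
      _ ≤ K * (L * dist x y) + L * (K * dist x y) := by
          gcongr
          · exact hK' x
          · exact hL' y
      _ = 2 * (K * L) * dist x y := by ring
  · rw [abs_mul]
    push_cast
    have : |f x| * |g x| ≤ K * L := by
      gcongr
      · exact hK' x
      · exact hL' x
    have h2 : (0 : ℝ) ≤ K * L := by positivity
    linarith

lemma caBL.sub {f g : E → ℝ} (hf : caBL f) (hg : caBL g) : caBL (fun x => f x - g x) := by
  obtain ⟨K, hK, hK'⟩ := hf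
  obtain ⟨L, hL, hL'⟩ := hg
  refine ⟨K + L, hK.sub hL, fun x => ?_⟩
  push_cast
  linarith [abs_sub (f x) (g x), hK' x, hL' x]

lemma caBL.const (c : ℝ) : caBL (fun _ => c) :=
  ⟨‖c‖₊, (LipschitzWith.const c).weaken zero_le, fun _ => le_rfl⟩

lemma ca_BL_comp {h : ℝ → ℝ} {K : ℝ≥0} (hK : LipschitzWith K h) (hK' : ∀ t, |h t| ≤ K)
    (c d : ℝ) (i : Fin 3) : caBL (fun x => h (c * (x i - d))) := by
  have h1 : LipschitzWith ‖c‖₊ (fun x : E => c * (x i - d)) :=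
    LipschitzWith.of_dist_le_mul fun x y => by
      have := (lipschitz_X i).dist_le_mul x y
      simp only [X_apply, NNReal.coe_one, one_mul, Real.dist_eq] at this
      rw [Real.dist_eq, ← mul_sub, abs_mul, sub_sub_sub_cancel_right]
      push_cast
      rw [Real.norm_eq_abs]; gcongr
  refine ⟨K * ‖c‖₊ + K, (hK.comp h1).weaken le_self_add, fun x => ?_⟩
  push_cast
  have : (0 : ℝ) ≤ K * ‖c‖ := by positivity
  linarith [hK' (c * (x i - d))]

lemma ca_BL_comp1 {h : ℝ → ℝ} {K : ℝ≥0} (hK : LipschitzWith K h) (hK' : ∀ t, |h t| ≤ K)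
    (i : Fin 3) : caBL (fun x => h (x i)) := by
  simpa using ca_BL_comp hK hK' 1 0 i

lemma ca_BL_sin (c : ℝ) (i : Fin 3) : caBL (fun x => Real.sin (c * x i)) := by
  simpa using ca_BL_comp Real.lipschitzWith_sin (fun t => Real.abs_sin_le_one t) c 0 i

lemma ca_BL_sin1 (i : Fin 3) : caBL (fun x => Real.sin (x i)) :=
  ca_BL_comp1 Real.lipschitzWith_sin (fun t => Real.abs_sin_le_one t) i

lemma ca_BL_cos1 (i : Fin 3) : caBL (fun x => Real.cos (x i)) :=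
  ca_BL_comp1 Real.lipschitzWith_cos (fun t => Real.abs_cos_le_one t) i

/-- the self-similarity map -/
def caκ (τ : ℝ) (x : E) : E := sw ((2 : ℝ) • (x - τ • ee 2))

@[simp] lemma ca_κ0 (τ : ℝ) (x : E) : caκ τ x 0 = 2 * x 1 := by simp [caκ, ee_apply]
@[simp] lemma ca_κ1 (τ : ℝ) (x : E) : caκ τ x 1 = 2 * x 0 := by simp [caκ, ee_apply]
@[simp] lemma ca_κ2 (τ : ℝ) (x : E) : caκ τ x 2 = 2 * (x 2 - τ) := by simp [caκ, ee_apply]

lemma ca_κ_lip (τ : ℝ) : LipschitzWith 2 (caκ τ) :=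
  LipschitzWith.of_dist_le_mul fun x y => by
    rw [dist_eq_norm, dist_eq_norm]
    have h : ‖caκ τ x - caκ τ y‖ ^ 2 = (2 * ‖x - y‖) ^ 2 := by
      rw [mul_pow, normsq3, normsq3]
      simp only [PiLp.sub_apply, ca_κ0, ca_κ1, ca_κ2]; ring
    have := (pow_left_inj₀ (norm_nonneg _) (by positivity) two_ne_zero).1 h
    rw [this]; norm_num

/-- the cascade sum -/
def caS (τ : ℝ) (c : ℕ → ℝ) (S : E → ℝ) (x : E) : ℝ := ∑' k, c k * S ((caκ τ)^[k] x)

lemma ca_summable {τ q : ℝ} {c : ℕ → ℝ} {S : E → ℝ} (hq0 : 0 ≤ q) (hq : q ≤ 1 / 4)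
    (hc : ∀ k, |c k| ≤ q ^ k) (hS : caBL S) (x : E) :
    Summable fun k => c k * S ((caκ τ)^[k] x) := by
  obtain ⟨K, -, hK⟩ := hS
  refine Summable.of_norm_bounded
    ((summable_geometric_of_lt_one hq0 (by linarith)).mul_right (K : ℝ)) fun k => ?_
  rw [Real.norm_eq_abs, abs_mul]
  gcongr
  · exact hc k
  · exact hK _

lemma ca_S_lip {τ q : ℝ} {c : ℕ → ℝ} {S : E → ℝ} (hq0 : 0 ≤ q) (hq : q ≤ 1 / 4)
    (hc : ∀ k, |c k| ≤ q ^ k) (hS : caBL S) : Lip (caS τ c S) := by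
  obtain ⟨K, hK, -⟩ := id hS
  refine ⟨2 * K, LipschitzWith.of_dist_le_mul fun x y => ?_⟩
  unfold caS
  rw [dist_eq_norm, ← (ca_summable hq0 hq hc hS x).tsum_sub (ca_summable hq0 hq hc hS y)]
  have hs : HasSum (fun k : ℕ => (1 / 2 : ℝ) ^ k * (K * dist x y)) (2 * (K * dist x y)) :=
    hasSum_geometric_two.mul_right _
  refine (tsum_of_norm_bounded hs fun k => ?_).trans (by push_cast; linarith)
  rw [← mul_sub, Real.norm_eq_abs, abs_mul]
  have h1 := hK.dist_le_mul ((caκ τ)^[k] x) ((caκ τ)^[k] y)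
  have h2 := ((ca_κ_lip τ).iterate k).dist_le_mul x y
  rw [Real.dist_eq] at h1
  push_cast at h2
  have h3 : q ^ k * 2 ^ k ≤ (1 / 2 : ℝ) ^ k := by
    rw [← mul_pow]; gcongr; linarith
  calc |c k| * |S ((caκ τ)^[k] x) - S ((caκ τ)^[k] y)| ≤ q ^ k * (K * (2 ^ k * dist x y)) := by
        gcongr
        · exact hc k
        · exact h1.trans (by gcongr)
    _ = (q ^ k * 2 ^ k) * (K * dist x y) := by ring
    _ ≤ (1 / 2 : ℝ) ^ k * (K * dist x y) := by gcongr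

lemma ca_S_rec {τ q : ℝ} {c c' : ℕ → ℝ} {S : E → ℝ} (a : ℝ) (hq0 : 0 ≤ q) (hq : q ≤ 1 / 4)
    (hc : ∀ k, |c k| ≤ q ^ k) (hS : caBL S) (hc' : ∀ k, c (k + 1) = a * c' k) (x : E) :
    caS τ c S x = c 0 * S x + a * caS τ c' S (caκ τ x) := by
  unfold caS
  rw [(ca_summable hq0 hq hc hS x).tsum_eq_zero_add, ← tsum_mul_left]
  simp only [Function.iterate_zero_apply, Function.iterate_succ_apply, hc', mul_assoc]

lemma ca_S_zero {τ : ℝ} (c : ℕ → ℝ) {S : E → ℝ} (P : E → Prop) (hP : ∀ x, P x → P (caκ τ x))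
    (hS : ∀ x, P x → S x = 0) {x : E} (hx : P x) : caS τ c S x = 0 := by
  have h : ∀ k, P ((caκ τ)^[k] x) := fun k => by
    induction k with
    | zero => exact hx
    | succ k ih => rw [Function.iterate_succ_apply']; exact hP _ ih
  unfold caS
  simp [fun k => hS _ (h k)]

lemma ca_sin_two {t : ℝ} (h : Real.sin t = 0) : Real.sin (2 * t) = 0 := by
  rw [Real.sin_two_mul, h]; ring

lemma ca_parity (τ : ℝ) (k : ℕ) : ∀ x : E,
    (Real.sin (x 0) = 0 → (1 - (-1 : ℝ) ^ k) * Real.sin ((caκ τ)^[k] x 1) = 0) ∧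
    (Real.sin (x 1) = 0 → (1 + (-1 : ℝ) ^ k) * Real.sin ((caκ τ)^[k] x 1) = 0) := by
  induction k with
  | zero => intro x; exact ⟨fun _ => by simp, fun h => by simp [h]⟩
  | succ k ih =>
    intro x
    rw [Function.iterate_succ_apply]
    refine ⟨fun h => ?_, fun h => ?_⟩
    · have := (ih (caκ τ x)).2 (by rw [ca_κ1]; exact ca_sin_two h)
      rw [← this, pow_succ]; ring
    · have := (ih (caκ τ x)).1 (by rw [ca_κ0]; exact ca_sin_two h)
      rw [← this, pow_succ]; ring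

lemma ca_grad_smul (c : ℝ) (f : E → ℝ) (x : E) (i : Fin 3) :
    ∇ (fun y => f (c • y)) x i = c * ∇ f (c • x) i := by
  rw [grad_apply, grad_apply, fderiv_comp_smul]; rfl

lemma ca_scale {Λ c : ℝ} {v F₁ F₂ g : E → ℝ} {x : E} (hc : c ≠ 0)
    (h : T1ok Λ v F₁ F₂ g (c • x)) :
    T1ok Λ (fun y => v (c • y)) (fun y => F₁ (c • y)) (fun y => F₂ (c • y))
      (fun y => g (c • y)) x := by
  obtain ⟨h1, h2, h3, h4, h5, h6⟩ := h
  have hs : ContDiff ℝ 2 fun y : E => c • y := contDiff_id.const_smul c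
  refine ⟨h1.comp x hs.contDiffAt, h2.comp x hs.contDiffAt, h3.comp x hs.contDiffAt,
    h4.comp x hs.contDiffAt, ?_, ?_⟩
  · filter_upwards [hs.continuous.continuousAt.eventually h5] with y hy
    simp only [ca_grad_smul]
    rw [← hy]; ring
  · simp only [ca_grad_smul]
    have h7 := mul_lt_mul_of_pos_left h6 (sq_pos_of_ne_zero hc)
    nlinarith [h7]

/-- transport of `T1ok` under the self-similarity -/
lemma ca_step (hTM : TMStmt) {Λ τ q : ℝ} {v F₁ F₂ g : E → ℝ} {x : E} (hq : q ≠ 0)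
    (h : T1ok Λ v F₁ F₂ g (caκ τ x)) :
    T1ok Λ (fun y => q * v (caκ τ y)) (fun y => q * -F₂ (caκ τ y)) (fun y => q * -F₁ (caκ τ y))
      (fun y => q * -g (caκ τ y)) x := by
  obtain ⟨-, hb, -, hd⟩ := hTM
  have h1 := hb Λ v F₁ F₂ g ((2 : ℝ) • (x - τ • ee 2)) h
  have h2 := ca_scale two_ne_zero h1
  exact hd Λ q (τ • ee 2) _ _ _ _ x hq h2

/-- generic points -/
def caGood (τ : ℝ) (D : Finset ℝ) (x : E) : Prop :=
  ∀ k : ℕ, 2 * τ - 2 ^ k * (2 * τ - x 2) ∉ insert τ D ∧ Real.sin (2 ^ k * x 0) ≠ 0 ∧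
    Real.sin (2 ^ k * x 1) ≠ 0

lemma ca_good_step {τ : ℝ} {D : Finset ℝ} {x : E} (h : caGood τ D x) : caGood τ D (caκ τ x) := by
  intro k
  obtain ⟨h1, h2, h3⟩ := h (k + 1)
  rw [ca_κ0, ca_κ1, ca_κ2]
  refine ⟨?_, ?_, ?_⟩
  · convert h1 using 2; ring
  · convert h3 using 2; ring
  · convert h2 using 2; ring

lemma ca_ae_sin (c : ℝ) (hc : c ≠ 0) (i : Fin 3) : ∀ᵐ x : E, Real.sin (c * x i) ≠ 0 := by
  have h : ∀ᵐ x : E, ∀ m : ℤ, x i ≠ m * Real.pi / c :=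
    ae_all_iff.2 fun m => ae_coord_ne i _
  filter_upwards [h] with x hx h0
  obtain ⟨m, hm⟩ := Real.sin_eq_zero_iff.1 h0
  exact hx m (by rw [hm]; field_simp)

lemma ca_ae_good (τ : ℝ) (D : Finset ℝ) : ∀ᵐ x : E, caGood τ D x := by
  refine ae_all_iff.2 fun k => ?_
  have h2 : (2 : ℝ) ^ k ≠ 0 := by positivity
  have h1 : ∀ᵐ x : E, ∀ d ∈ insert τ D, x 2 ≠ 2 * τ - (2 * τ - d) / 2 ^ k :=
    (Filter.eventually_all_finset _).2 fun d _ => ae_coord_ne 2 _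
  filter_upwards [h1, ca_ae_sin _ h2 0, ca_ae_sin _ h2 1] with x hx h3 h4
  refine ⟨fun hd => hx _ hd ?_, h3, h4⟩
  field_simp; ring

theorem CA_proof (hCP : CPStmt) (hTM : TMStmt) : CAStmt := by
  intro τ₀ hτ₀
  obtain ⟨B, B₁, rb, rd, k, τ₁, q, D, K, hτ, hq0, hq, hall, hrb1, hrd1, hBpos, hb0, hBd, hB₁d,
    hk, hineq⟩ := hCP τ₀ hτ₀
  obtain ⟨lB, bB, zB, eB, cB⟩ := hall B (by simp)
  obtain ⟨lB₁, bB₁, zB₁, eB₁, cB₁⟩ := hall B₁ (by simp)
  obtain ⟨lrb, brb, zrb, -, crb⟩ := hall rb (by simp)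
  obtain ⟨lrd, brd, -, erd, crd⟩ := hall rd (by simp)
  have hτ1 : 1 ≤ τ₁ := hτ₀.trans hτ
  set V : E → ℝ := fun x => B (x 2) * Real.cos (x 1) with hV
  set H : E → ℝ := fun x => B₁ (x 2) * Real.sin (x 1) with hH
  set G : E → ℝ := fun x => q * rb (2 * (x 2 - τ₁)) * Real.sin (2 * x 0) * Real.sin (2 * x 1)
    - rd (x 2) * Real.sin (x 1) * Real.sin (4 * x 0) * (1 / 4) with hG
  have blV : caBL V := (ca_BL_comp1 lB bB 2).mul (ca_BL_cos1 1)
  have blH : caBL H := (ca_BL_comp1 lB₁ bB₁ 2).mul (ca_BL_sin1 1)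
  have blG : caBL G :=
    ((((caBL.const q).mul (ca_BL_comp lrb brb 2 τ₁ 2)).mul (ca_BL_sin 2 0)).mul
      (ca_BL_sin 2 1)).sub
      ((((ca_BL_comp1 lrd brd 2).mul (ca_BL_sin1 1)).mul (ca_BL_sin 4 0)).mul (caBL.const _))
  set cv : ℕ → ℝ := fun k => q ^ k with hcv
  set c₁ : ℕ → ℝ := fun k => q ^ k * ((1 - (-1) ^ k) / 2) with hc₁
  set c₂ : ℕ → ℝ := fun k => -(q ^ k * ((1 + (-1) ^ k) / 2)) with hc₂
  set cg : ℕ → ℝ := fun k => (-q) ^ k with hcg
  have bcv : ∀ k, |cv k| ≤ q ^ k := fun k => by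
    simp only [hcv]; rw [abs_of_pos (by positivity)]
  have bc₁ : ∀ k, |c₁ k| ≤ q ^ k := fun k => by
    have : 0 < q ^ k := by positivity
    simp only [hc₁]
    rcases neg_one_pow_eq_or ℝ k with h | h <;> rw [h] <;> norm_num
    · exact this.le
    · exact (abs_of_pos hq0).le.trans le_rfl |> fun h => pow_le_pow_left₀ (abs_nonneg _) h k
  have bc₂ : ∀ k, |c₂ k| ≤ q ^ k := fun k => by
    have : 0 < q ^ k := by positivity
    simp only [hc₂]
    rcases neg_one_pow_eq_or ℝ k with h | h <;> rw [h] <;> norm_num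
    · exact (abs_of_pos hq0).le.trans le_rfl |> fun h => pow_le_pow_left₀ (abs_nonneg _) h k
    · exact this.le
  have bcg : ∀ k, |cg k| ≤ q ^ k := fun k => by
    simp only [hcg]; rw [abs_pow, abs_neg, abs_of_pos hq0]
  set v := caS τ₁ cv V with hv
  set F₁ := caS τ₁ c₁ H with hF₁
  set F₂ := caS τ₁ c₂ H with hF₂
  set g := caS τ₁ cg G with hg
  have rv : ∀ x, v x = V x + q * v (caκ τ₁ x) := fun x => by
    have := ca_S_rec (τ := τ₁) (c' := cv) q hq0.le hq bcv blV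
      (fun k => by simp only [hcv]; ring) x
    rw [hv, this]; simp [hcv]
  have rF₁ : ∀ x, F₁ x = q * -F₂ (caκ τ₁ x) := fun x => by
    have := ca_S_rec (τ := τ₁) (c' := c₂) (-q) hq0.le hq bc₁ blH
      (fun k => by simp only [hc₁, hc₂]; ring) x
    rw [hF₁, this]; simp [hc₁, hF₂]
  have rF₂ : ∀ x, F₂ x = -H x + q * -F₁ (caκ τ₁ x) := fun x => by
    have := ca_S_rec (τ := τ₁) (c' := c₁) (-q) hq0.le hq bc₂ blH
      (fun k => by simp only [hc₁, hc₂]; ring) x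
    rw [hF₂, this]; simp [hc₂, hF₁]
  have rg : ∀ x, g x = G x + q * -g (caκ τ₁ x) := fun x => by
    have := ca_S_rec (τ := τ₁) (c' := cg) (-q) hq0.le hq bcg blG
      (fun k => by simp only [hcg]; ring) x
    rw [hg, this]; simp [hcg]
  -- vanishing before birth
  have hP0 : ∀ x : E, x 2 ≤ 0 → caκ τ₁ x 2 ≤ 0 := fun x hx => by rw [ca_κ2]; linarith
  have hP1 : ∀ x : E, x 2 ≤ τ₁ → caκ τ₁ x 2 ≤ τ₁ := fun x hx => by rw [ca_κ2]; linarith
  have zV : ∀ x : E, x 2 ≤ 0 → V x = 0 := fun x hx => by simp only [hV]; rw [zB _ hx, zero_mul]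
  have zH : ∀ x : E, x 2 ≤ 0 → H x = 0 := fun x hx => by simp only [hH]; rw [zB₁ _ hx, zero_mul]
  have zG : ∀ x : E, x 2 ≤ τ₁ → G x = 0 := fun x hx => by
    simp only [hG]; rw [zrb _ (by linarith), hrd1 _ hx]; ring
  have zg : ∀ x : E, x 2 ≤ τ₁ → g x = 0 := fun x hx => ca_S_zero _ _ hP1 zG hx
  have low : ∀ x : E, x 2 ≤ τ₁ → v x = V x ∧ F₁ x = 0 ∧ F₂ x = -H x ∧ g x = 0 := fun x hx => by
    have h0 : caκ τ₁ x 2 ≤ 0 := by rw [ca_κ2]; linarith
    have h1 : v (caκ τ₁ x) = 0 := ca_S_zero _ _ hP0 zV h0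
    have h2 : F₁ (caκ τ₁ x) = 0 := ca_S_zero _ _ hP0 zH h0
    have h3 : F₂ (caκ τ₁ x) = 0 := ca_S_zero _ _ hP0 zH h0
    refine ⟨?_, ?_, ?_, zg x hx⟩
    · rw [rv, h1]; ring
    · rw [rF₁, h3]; ring
    · rw [rF₂, h2]; ring
  have mid : ∀ x : E, x 2 ≤ 3 * τ₁ / 2 → v x = V x + q * V (caκ τ₁ x) ∧
      F₁ x = q * H (caκ τ₁ x) ∧ F₂ x = -H x ∧ g x = G x := fun x hx => by
    obtain ⟨h1, h2, h3, h4⟩ := low (caκ τ₁ x) (by rw [ca_κ2]; linarith)
    refine ⟨?_, ?_, ?_, ?_⟩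
    · rw [rv, h1]
    · rw [rF₁, h3]; ring
    · rw [rF₂, h2]; ring
    · rw [rg, h4]; ring
  have eV : ∀ x : E, 3 * τ₁ / 2 ≤ x 2 → V x = 0 := fun x hx => by
    simp only [hV]; rw [eB _ hx, zero_mul]
  have eH : ∀ x : E, 3 * τ₁ / 2 ≤ x 2 → H x = 0 := fun x hx => by
    simp only [hH]; rw [eB₁ _ hx, zero_mul]
  have eG : ∀ x : E, 3 * τ₁ / 2 ≤ x 2 → G x = 0 := fun x hx => by
    simp only [hG]; rw [hrb1 _ (by linarith), erd _ hx]; ring
  have hP2 : ∀ x : E, 2 * τ₁ ≤ x 2 → 2 * τ₁ ≤ caκ τ₁ x 2 := fun x hx => by rw [ca_κ2]; linarith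
  have sG : ∀ x : E, (Real.sin (x 0) = 0 ∨ Real.sin (x 1) = 0) → g x = 0 := fun x hx => by
    refine ca_S_zero _ (fun x : E => Real.sin (x 0) = 0 ∨ Real.sin (x 1) = 0) ?_ ?_ hx
    · rintro y (h | h)
      · right; rw [ca_κ1]; exact ca_sin_two h
      · left; rw [ca_κ0]; exact ca_sin_two h
    · rintro y (h | h)
      · have h4 : Real.sin (4 * y 0) = 0 := by
          rw [show 4 * y 0 = 2 * (2 * y 0) by ring]; exact ca_sin_two (ca_sin_two h)
        simp only [hG]; rw [ca_sin_two h, h4]; ring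
      · simp only [hG]; rw [ca_sin_two h, h]; ring
  have hc2 : Continuous fun y : E => y 2 := (lipschitz_X 2).continuous
  obtain ⟨hTa, hTb, hTc, -⟩ := id hTM
  -- first stage
  have base0 : ∀ x : E, caGood τ₁ D x → τ₀ < x 2 → x 2 < τ₁ → T1ok 300 v F₁ F₂ g x := by
    intro x hx h0 h1
    obtain ⟨g1, -, g3⟩ := hx 0
    have g1' : x 2 ∉ D := fun h => g1 (by
      rw [show 2 * τ₁ - 2 ^ 0 * (2 * τ₁ - x 2) = x 2 by ring]; exact Finset.mem_insert_of_mem h)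
    have := hTa (fun _ => 0) (fun _ => 0) (fun _ => 0) B B₁ (fun _ => 0) (1 / 2) 1 (k (x 2)) x
      (by norm_num) contDiffAt_const contDiffAt_const contDiffAt_const (cB _ g1') (cB₁ _ g1')
      contDiffAt_const (fun s => hasDerivAt_const s 0) hBd
      ((hasDerivAt_const _ (0 : ℝ)).congr_deriv (by ring))
      ((hB₁d _ g1').congr_deriv (by rw [hrb1 _ (by linarith), hrd1 _ h1.le]; ring))
      (by norm_num) le_rfl (hk _).1 (hk _).2 (by simp)
      (by have := hBpos (x 2) (by linarith) h1.le; simp only [abs_zero]; nlinarith)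
      (hBpos _ (by linarith) h1.le)
      (by rw [show 2 * (1 / 2) * x 1 = 2 ^ 0 * x 1 by ring]; exact g3)
    refine hTc _ _ _ _ _ _ _ _ _ x this ?_
    filter_upwards [hc2.continuousAt.eventually (Iio_mem_nhds h1)] with y hy
    obtain ⟨e1, e2, e3, e4⟩ := low y (le_of_lt hy)
    rw [e1, e2, e3, e4, show 2 * (1 / 2) * y 1 = y 1 by ring]
    simp only [hV, hH]
    refine ⟨by ring, by ring, by ring, by ring⟩
  -- second stage
  have base1 : ∀ x : E, caGood τ₁ D x → τ₁ < x 2 → x 2 < 3 * τ₁ / 2 → T1ok 300 v F₁ F₂ g x := by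
    intro x hx h0 h1
    obtain ⟨g1, -, -⟩ := hx 0
    obtain ⟨g4, g5, -⟩ := hx 1
    have g1' : x 2 ∉ D := fun h => g1 (by
      rw [show 2 * τ₁ - 2 ^ 0 * (2 * τ₁ - x 2) = x 2 by ring]; exact Finset.mem_insert_of_mem h)
    have g4' : 2 * (x 2 - τ₁) ∉ D := fun h => g4 (by
      rw [show 2 * τ₁ - 2 ^ 1 * (2 * τ₁ - x 2) = 2 * (x 2 - τ₁) by ring]
      exact Finset.mem_insert_of_mem h)
    have hlin : ∀ s : ℝ, HasDerivAt (fun s => 2 * (s - τ₁)) 2 s := fun s =>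
      (((hasDerivAt_id s).sub_const τ₁).const_mul 2).congr_deriv (by ring)
    have hlc : ContDiffAt ℝ 2 (fun s : ℝ => 2 * (s - τ₁)) (x 2) := by fun_prop
    obtain ⟨i1, i2⟩ := hineq (2 * (x 2 - τ₁)) (by linarith) (by linarith)
    rw [show τ₁ + 2 * (x 2 - τ₁) / 2 = x 2 by ring] at i1 i2
    have hpos := hBpos (2 * (x 2 - τ₁)) (by linarith) (by linarith)
    have := hTa B B₁ rd (fun s => q * B (2 * (s - τ₁))) (fun s => 2 * q * B₁ (2 * (s - τ₁)))
      (fun s => 4 * q * rb (2 * (s - τ₁))) 1 (k (x 2)) (k (2 * (x 2 - τ₁))) (sw x) one_pos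
      (by rw [sw_2]; exact cB _ g1') (by rw [sw_2]; exact cB₁ _ g1')
      (by rw [sw_2]; exact crd _ g1')
      (by rw [sw_2]; exact contDiffAt_const.mul ((cB _ g4').comp (x 2) hlc))
      (by rw [sw_2]; exact contDiffAt_const.mul ((cB₁ _ g4').comp (x 2) hlc))
      (by rw [sw_2]; exact contDiffAt_const.mul ((crb _ g4').comp (x 2) hlc))
      hBd (fun s => (((hBd _).comp s (hlin s)).const_mul q).congr_deriv (by ring))
      (by rw [sw_2]; exact (hB₁d _ g1').congr_deriv (by rw [hrb1 _ (by linarith)]; ring))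
      (by
        rw [sw_2]
        exact (((hB₁d _ g4').comp (x 2) (hlin (x 2))).const_mul (2 * q)).congr_deriv
          (by rw [hrd1 _ (by linarith)]; ring))
      (hk _).1 (hk _).2 (hk _).1 (hk _).2
      (by rw [sw_2, abs_mul, abs_of_pos (by positivity : 0 < 4 * q)]; linarith)
      (by rw [sw_2]; linarith) (by rw [sw_2]; positivity)
      (by rw [sw_1, show 2 * 1 * x 0 = 2 ^ 1 * x 0 by ring]; exact g5)
    refine hTc _ _ _ _ _ _ _ _ _ x (hTb _ _ _ _ _ x this) ?_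
    filter_upwards [hc2.continuousAt.eventually (Iio_mem_nhds h1)] with y hy
    obtain ⟨e1, e2, e3, e4⟩ := mid y (le_of_lt hy)
    rw [e1, e2, e3, e4]
    simp only [hV, hH, hG, sw_0, sw_1, sw_2, ca_κ1, ca_κ2, mul_one, one_mul]
    refine ⟨by ring, by ring, by ring, by ring⟩
  have main : ∀ m : ℕ, ∀ x : E, caGood τ₁ D x → τ₀ < x 2 → x 2 < 2 * τ₁ →
      τ₁ / 2 ≤ 2 ^ m * (2 * τ₁ - x 2) → T1ok 300 v F₁ F₂ g x := by
    have small : ∀ x : E, caGood τ₁ D x → τ₀ < x 2 → x 2 ≤ 3 * τ₁ / 2 →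
        T1ok 300 v F₁ F₂ g x := fun x hx h0 h1 => by
      have n1 : x 2 ≠ τ₁ := fun h => (hx 0).1 (by
        rw [show 2 * τ₁ - 2 ^ 0 * (2 * τ₁ - x 2) = x 2 by ring, h]; exact Finset.mem_insert_self _ _)
      have n2 : x 2 ≠ 3 * τ₁ / 2 := fun h => (hx 1).1 (by
        rw [h, show 2 * τ₁ - 2 ^ 1 * (2 * τ₁ - 3 * τ₁ / 2) = τ₁ by ring]
        exact Finset.mem_insert_self _ _)
      rcases lt_or_gt_of_ne n1 with h | h
      · exact base0 x hx h0 h
      · exact base1 x hx h (lt_of_le_of_ne h1 n2)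
    intro m
    induction m with
    | zero => intro x hx h0 _ h2; exact small x hx h0 (by linarith)
    | succ m ih =>
      intro x hx h0 h1 h2
      rcases le_or_gt (x 2) (3 * τ₁ / 2) with h | h
      · exact small x hx h0 h
      have := ih (caκ τ₁ x) (ca_good_step hx) (by rw [ca_κ2]; linarith) (by rw [ca_κ2]; linarith)
        (by rw [ca_κ2]; rw [pow_succ] at h2; linarith)
      refine hTc _ _ _ _ _ _ _ _ _ x (ca_step hTM hq0.ne' this) ?_
      filter_upwards [hc2.continuousAt.eventually (Ioi_mem_nhds h)] with y hy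
      have hy' : 3 * τ₁ / 2 ≤ y 2 := le_of_lt hy
      refine ⟨?_, rF₁ y, ?_, ?_⟩
      · rw [rv, eV y hy', zero_add]
      · rw [rF₂, eH y hy', neg_zero, zero_add]
      · rw [rg, eG y hy', zero_add]
  refine ⟨2 * τ₁, v, F₁, F₂, g, by linarith, ca_S_lip hq0.le hq bcv blV,
    ca_S_lip hq0.le hq bc₁ blH, ca_S_lip hq0.le hq bc₂ blH, ca_S_lip hq0.le hq bcg blG,
    fun x hx => ⟨ca_S_zero _ _ hP2 (fun y hy => eV y (by linarith)) hx,
      ca_S_zero _ _ hP2 (fun y hy => eH y (by linarith)) hx,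
      ca_S_zero _ _ hP2 (fun y hy => eH y (by linarith)) hx,
      ca_S_zero _ _ hP2 (fun y hy => eG y (by linarith)) hx⟩,
    fun x hx => ⟨?_, sG x (Or.inl hx)⟩, fun x hx => ⟨?_, sG x (Or.inr hx)⟩, fun x hx => ?_, ?_⟩
  · have h : ∀ k, c₁ k * H ((caκ τ₁)^[k] x) = 0 := fun k => by
      have := (ca_parity τ₁ k x).1 hx
      simp only [hc₁, hH]
      linear_combination (q ^ k / 2 * B₁ ((caκ τ₁)^[k] x 2)) * this
    simp only [hF₁, caS, h, tsum_zero]
  · have h : ∀ k, c₂ k * H ((caκ τ₁)^[k] x) = 0 := fun k => by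
      have := (ca_parity τ₁ k x).2 hx
      simp only [hc₂, hH]
      linear_combination (-(q ^ k / 2 * B₁ ((caκ τ₁)^[k] x 2))) * this
    simp only [hF₂, caS, h, tsum_zero]
  · obtain ⟨e1, e2, e3, e4⟩ := low x (hx.trans hτ)
    obtain ⟨e5, e6⟩ := hb0 _ hx
    rw [e1, e3, ← e5, ← e6]
    exact ⟨rfl, e2, rfl, e4⟩
  · filter_upwards [ca_ae_good τ₁ D] with x hx h0 h1
    obtain ⟨m, hm⟩ := pow_unbounded_of_one_lt (τ₁ / 2 / (2 * τ₁ - x 2)) (one_lt_two (α := ℝ))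
    refine main m x hx h0 h1 ?_
    rw [div_lt_iff₀ (by linarith)] at hm
    exact hm.le

end Crest.Agent.R83
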