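import Crest.Agent.R83.Basic

set_option autoImplicit false

noncomputable section

namespace Crest.Agent.R83

open MeasureTheory Set Filter Topology Metric
open scoped Gradient RealInnerProductSpace NNReal

lemma cf_decomp (p : E) : p = p 0 • ee 0 + p 1 • ee 1 + p 2 • ee 2 := by
  apply ext3 <;> simp [ee_apply]

lemma cf_apply (L : E →L[ℝ] E) (p : E) (i : Fin 3) :
    L p i = p 0 * L (ee 0) i + p 1 * L (ee 1) i + p 2 * L (ee 2) i := by
  conv_lhs => rw [cf_decomp p]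
  simp

lemma cf_adj (L : E →L[ℝ] E) (p : E) (i : Fin 3) :
    L.adjoint p i = p 0 * L (ee i) 0 + p 1 * L (ee i) 1 + p 2 * L (ee i) 2 := by
  rw [← inner_ee, ContinuousLinearMap.adjoint_inner_left, inner3]

lemma cf_det (L : E →L[ℝ] E) : L.det =
    L (ee 0) 0 * L (ee 1) 1 * L (ee 2) 2 - L (ee 0) 0 * L (ee 2) 1 * L (ee 1) 2
    - L (ee 1) 0 * L (ee 0) 1 * L (ee 2) 2 + L (ee 1) 0 * L (ee 2) 1 * L (ee 0) 2
    + L (ee 2) 0 * L (ee 0) 1 * L (ee 1) 2 - L (ee 2) 0 * L (ee 1) 1 * L (ee 0) 2 := by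
  rw [ContinuousLinearMap.det, ← LinearMap.det_toMatrix (EuclideanSpace.basisFun (Fin 3) ℝ).toBasis,
    Matrix.det_fin_three]
  simp [LinearMap.toMatrix_apply, ee]

def cfCof (L : E →L[ℝ] E) : E →L[ℝ] E :=
  LinearMap.toContinuousLinearMap
    { toFun := fun j => !₂[⟪cross (L (ee 1)) (L (ee 2)), j⟫, ⟪cross (L (ee 2)) (L (ee 0)), j⟫,
        ⟪cross (L (ee 0)) (L (ee 1)), j⟫]
      map_add' := fun p q => by apply ext3 <;> simp [inner_add_right]
      map_smul' := fun c p => by apply ext3 <;> simp [inner_smul_right] }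

lemma cf_0 (L : E →L[ℝ] E) (j : E) : cfCof L j 0 = ⟪cross (L (ee 1)) (L (ee 2)), j⟫ := rfl
lemma cf_1 (L : E →L[ℝ] E) (j : E) : cfCof L j 1 = ⟪cross (L (ee 2)) (L (ee 0)), j⟫ := rfl
lemma cf_2 (L : E →L[ℝ] E) (j : E) : cfCof L j 2 = ⟪cross (L (ee 0)) (L (ee 1)), j⟫ := rfl

theorem CF_proof : CFStmt := by
  refine ⟨fun L => ⟨cfCof L, fun p q => ?_, fun r j => ?_, fun j => ?_⟩, cf_det, fun f κ x hκ hf => ?_⟩
  · apply ext3 <;> simp only [cf_0, cf_1, cf_2, inner3, cross_0, cross_1, cross_2, cf_adj] <;> ring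
  · rw [cf_det]
    simp only [cf_0, cf_1, cf_2, inner3, cross_0, cross_1, cross_2, cf_adj]; ring
  · have he : ∀ i, ‖L (ee i)‖ ≤ ‖L‖ := fun i => by
      have := L.le_opNorm (ee i); simpa [ee] using this
    have hb : ∀ a b, |⟪cross (L (ee a)) (L (ee b)), j⟫| ≤ ‖L‖ ^ 2 * ‖j‖ := fun a b => by
      refine (abs_real_inner_le_norm _ _).trans ?_
      gcongr
      refine (norm_cross_le _ _).trans ?_
      rw [sq]; gcongr <;> exact he _
    have h0 : 0 ≤ ‖L‖ ^ 2 * ‖j‖ := by positivity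
    apply (pow_le_pow_iff_left₀ (norm_nonneg _) (by positivity) two_ne_zero).1
    rw [normsq3, cf_0, cf_1, cf_2]
    have a := sq_le_sq' (abs_le.1 (hb 1 2)).1 (abs_le.1 (hb 1 2)).2
    have b := sq_le_sq' (abs_le.1 (hb 2 0)).1 (abs_le.1 (hb 2 0)).2
    have c := sq_le_sq' (abs_le.1 (hb 0 1)).1 (abs_le.1 (hb 0 1)).2
    nlinarith [sq_nonneg (‖L‖ ^ 2 * ‖j‖)]
  · ext i
    have h : HasFDerivAt (fun y => f (κ y)) ((fderiv ℝ f (κ x)).comp (fderiv ℝ κ x)) x :=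
      hf.hasFDerivAt.comp x hκ.hasFDerivAt
    rw [grad_eq_of_hasFDerivAt h, ← inner_ee ((fderiv ℝ κ x).adjoint _),
      ContinuousLinearMap.adjoint_inner_left, inner_grad]
    rfl

end Crest.Agent.R83
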