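import Crest.Agent.R83.LA

/-! Row 83, task CN: the connector chart. -/

set_option autoImplicit false

noncomputable section

namespace Crest.Agent.R83

open MeasureTheory Set Filter Topology Metric
open scoped Gradient RealInnerProductSpace NNReal

lemma cn_cont (c : ℝ) : Continuous (fun q : E => ‖zc c q‖) := by
  unfold zc; fun_prop

lemma cn_sq (c : ℝ) (q : E) : ‖zc c q‖ ^ 2 = (q 0 - c) ^ 2 + q 2 ^ 2 := by
  rw [Complex.sq_norm, zc, Complex.normSq_add_mul_I]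

lemma cn_ray (hTH : THStmt) (hZ : ZLStmt) (c θ : ℝ) :
    ∀ᵐ q : E, 0 ≤ q 2 → zc c q ≠ 0 → th c q ≠ θ := by
  have h : Real.sin θ ≠ 0 ∨ (0 : ℝ) ≠ 0 ∨ -Real.cos θ ≠ 0 := by
    by_contra h
    push Not at h
    have := Real.sin_sq_add_cos_sq θ
    rw [h.1, neg_eq_zero.1 h.2.2] at this
    norm_num at this
  filter_upwards [ae_ne_affine hZ _ _ _ (c * Real.sin θ) h] with q hq h1 h2 h3
  obtain ⟨-, -, -, e1, e2, -⟩ := hTH c q h1 h2
  rw [h3] at e1 e2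
  apply hq
  have e3 : q 0 = c + ‖zc c q‖ * Real.cos θ := by linarith
  generalize ‖zc c q‖ = r at e2 e3
  rw [e2, e3]; ring

theorem CN_proof (hTH : THStmt) (hCF : CFStmt) (hZ : ZLStmt) : CNStmt := by
  intro c r₀ s t₀ T e ϱ Ξ K₀ D hs he hT hr hϱ hΞ hb hd
  obtain ⟨ϱ', lϱ, eϱ⟩ := hϱ.extend_real
  obtain ⟨Ξ', lΞ, eΞ⟩ := hΞ.extend_real
  obtain ⟨R, hR0, hR⟩ : ∃ R : ℝ, r₀ ≤ R ∧ ∀ θ ∈ Icc 0 Real.pi, ϱ θ ≤ R := by
    obtain ⟨C, hC⟩ := isCompact_Icc.exists_bound_of_continuousOn hϱ.continuousOn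
    exact ⟨max r₀ C, le_max_left _ _, fun θ h =>
      ((le_abs_self _).trans (hC θ h)).trans (le_max_right _ _)⟩
  have hRp : 0 < R := by linarith
  have hss : s * s = 1 := by rcases hs with h | h <;> simp [h]
  set S : Set E := {q : E | ∀ i, ![c - R - 1, -1, 0] i ≤ q i ∧
    q i ≤ ![c + R + 1, Real.pi + 1, R + 1] i} ∩ {q | e / 2 ≤ ‖zc c q‖} with hS
  have cS : IsCompact S :=
    (isCompact_box3 _ _).inter_right (isClosed_le continuous_const (cn_cont c))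
  have mS : ∀ q : E, q ∈ S ↔ ((c - R - 1 ≤ q 0 ∧ q 0 ≤ c + R + 1) ∧ (-1 ≤ q 1 ∧ q 1 ≤ Real.pi + 1) ∧
      (0 ≤ q 2 ∧ q 2 ≤ R + 1)) ∧ e / 2 ≤ ‖zc c q‖ := fun q => by
    simp [hS, Fin.forall_fin_succ]
  have hS2 : ∀ q ∈ S, 0 ≤ q 2 ∧ zc c q ≠ 0 := fun q hq =>
    ⟨((mS q).1 hq).1.2.2.1, norm_pos_iff.1 (by linarith [((mS q).1 hq).2])⟩
  have hθ : ∀ q ∈ S, th c q ∈ Icc 0 Real.pi := fun q hq =>
    ⟨(hTH c q (hS2 q hq).1 (hS2 q hq).2).2.1, (hTH c q (hS2 q hq).1 (hS2 q hq).2).2.2.1⟩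
  have hne : ∀ θ ∈ Icc 0 Real.pi, r₀ - ϱ θ ≠ 0 := fun θ h h0 => by
    have := (hb θ h).1
    rw [h0, mul_zero] at this
    linarith
  have laθ : ∀ q ∈ S, LA (th c) q := fun q hq =>
    LA.of_cd ((hTH c q (hS2 q hq).1 (hS2 q hq).2).2.2.2.2.2.2.1.of_le (by norm_num))
  have lam : ∀ q ∈ S, LA (fun q => (r₀ - ‖zc c q‖) / (r₀ - ϱ' (th c q))) q := fun q hq =>
    ((LA.const _ _).sub (LA.of_cd ((hTH c q (hS2 q hq).1 (hS2 q hq).2).2.2.2.2.2.2.2.1.of_le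
      (by norm_num)))).div ((LA.const _ _).sub ((LA.of_lip lϱ _).comp (laθ q hq)))
      (by rw [← eϱ (hθ q hq)]; exact hne _ (hθ q hq))
  obtain ⟨p0, l0, e0⟩ := exists_lip_ext' cS (f := fun q =>
      th c q + (r₀ - ‖zc c q‖) / (r₀ - ϱ' (th c q)) * (Ξ' (th c q) - th c q))
    (fun q hq => (laθ q hq).add ((lam q hq).mul (((LA.of_lip lΞ _).comp (laθ q hq)).sub (laθ q hq))))
  obtain ⟨p2, l2, e2⟩ := exists_lip_ext' cS (f := fun q =>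
      t₀ + (T - t₀) * ((r₀ - ‖zc c q‖) / (r₀ - ϱ' (th c q))))
    (fun q hq => (LA.const _ _).add ((LA.const _ _).mul (lam q hq)))
  have e0' : ∀ q ∈ S, p0 q =
      th c q + (r₀ - ‖zc c q‖) / (r₀ - ϱ (th c q)) * (Ξ (th c q) - th c q) := fun q hq => by
    rw [e0 q hq, eϱ (hθ q hq), eΞ (hθ q hq)]
  have e2' : ∀ q ∈ S, p2 q = t₀ + (T - t₀) * ((r₀ - ‖zc c q‖) / (r₀ - ϱ (th c q))) :=
    fun q hq => by rw [e2 q hq, eϱ (hθ q hq)]
  obtain ⟨K, hK⟩ := lip_vec l0 ⟨1, lipschitz_X 1⟩ l2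
  have hZr : ∀ q ∈ Zone c r₀ s ϱ, e ≤ ‖zc c q‖ ∧ ‖zc c q‖ ≤ R ∧ |q 0 - c| ≤ R ∧ q 2 ≤ R := by
    rintro q ⟨h1, h2, h3, h4⟩
    obtain ⟨-, t1, t2, -⟩ := hTH c q h1.1 h2
    have h5 := hb _ ⟨t1, t2⟩
    have h6 := hR _ ⟨t1, t2⟩
    have h7 : e ≤ ‖zc c q‖ ∧ ‖zc c q‖ ≤ R := by
      rcases hs with h | h <;> rw [h] at h3 h4 <;> constructor <;> linarith [h5.2]
    have h8 := cn_sq c q
    refine ⟨h7.1, h7.2, le_trans ?_ h7.2, le_trans ?_ h7.2⟩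
    · exact abs_le_of_sq_le_sq' (by nlinarith) (norm_nonneg _) |> abs_le.2
    · exact (abs_le_of_sq_le_sq' (by nlinarith) (norm_nonneg _)).2
  have hZS : ∀ q ∈ Zone c r₀ s ϱ, q ∈ S := fun q hq => by
    obtain ⟨h1, h2, h3, h4⟩ := hZr q hq
    obtain ⟨⟨k1, k2, k3⟩, -⟩ := hq
    have := abs_le.1 h3
    exact (mS q).2 ⟨⟨⟨by linarith, by linarith⟩, ⟨by linarith, by linarith⟩, k1, by linarith⟩,
      by linarith⟩
  refine ⟨vec p0 (X 1) p2, K, (T - t₀) * min 1 e / (R * R),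
    div_pos (mul_pos (by linarith) (lt_min one_pos he)) (by positivity), hK, ?_,
    fun q hq => ⟨by rw [vec_0, e0' q (hZS q hq)], by simp, by rw [vec_2, e2' q (hZS q hq)]⟩⟩
  have hD : ∀ᵐ q : E, ∀ θ ∈ D, 0 ≤ q 2 → zc c q ≠ 0 → th c q ≠ θ :=
    (ae_ball_iff D.countable_toSet).2 (fun θ _ => cn_ray hTH hZ c θ)
  filter_upwards [hD, ae_coord_ne 2 0] with q k1 k2 hq
  obtain ⟨h1, h2, h3, h4⟩ := hZr q hq
  obtain ⟨⟨m1, m2, m3⟩, m4, m5, m6⟩ := id hq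
  have m7 : 0 < q 2 := lt_of_le_of_ne m1 k2.symm
  obtain ⟨-, t1, t2, -, t4, -, t6, t7, t8, t9⟩ := hTH c q m1 m4
  have hI : th c q ∈ Ioo 0 Real.pi := by
    refine ⟨lt_of_le_of_ne t1 (fun h => ?_), lt_of_le_of_ne t2 (fun h => ?_)⟩
    · rw [← h] at t4; simp at t4; exact k2 t4
    · rw [h] at t4; simp at t4; exact k2 t4
  obtain ⟨d1, d2, d3⟩ := hd _ hI (fun h => k1 _ h m1 m4 rfl)
  have hn : ∀ᶠ y in 𝓝 q, y ∈ S := by
    have nlt : ∀ (i : Fin 3) (r : ℝ), q i < r → ∀ᶠ y : E in 𝓝 q, y i < r := fun i r h =>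
      (isOpen_lt (continuous_coord i) continuous_const).mem_nhds h
    have ngt : ∀ (i : Fin 3) (r : ℝ), r < q i → ∀ᶠ y : E in 𝓝 q, r < y i := fun i r h =>
      (isOpen_lt continuous_const (continuous_coord i)).mem_nhds h
    have := abs_le.1 h3
    filter_upwards [ngt 0 (c - R - 1) (by linarith), nlt 0 (c + R + 1) (by linarith),
      ngt 1 (-1) (by linarith), nlt 1 (Real.pi + 1) (by linarith), ngt 2 0 m7,
      nlt 2 (R + 1) (by linarith),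
      (isOpen_lt continuous_const (cn_cont c)).mem_nhds (show e / 2 < ‖zc c q‖ by linarith)]
      with y j1 j2 j3 j4 j5 j6 j7
    exact (mS y).2 ⟨⟨⟨j1.le, j2.le⟩, ⟨j3.le, j4.le⟩, j5.le, j6.le⟩, le_of_lt j7⟩
  have hn0 : p0 =ᶠ[𝓝 q] fun q =>
      th c q + (r₀ - ‖zc c q‖) * (r₀ - ϱ (th c q))⁻¹ * (Ξ (th c q) - th c q) := by
    filter_upwards [hn] with y hy using by rw [e0' y hy, div_eq_mul_inv]
  have hn2 : p2 =ᶠ[𝓝 q] fun q => t₀ + (T - t₀) * ((r₀ - ‖zc c q‖) * (r₀ - ϱ (th c q))⁻¹) := by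
    filter_upwards [hn] with y hy using by rw [e2' y hy, div_eq_mul_inv]
  have n0 := hne _ ⟨t1, t2⟩
  have t6' : ContDiffAt ℝ 1 (th c) q := t6.of_le (by norm_num)
  have t7' : ContDiffAt ℝ 1 (fun y => ‖zc c y‖) q := t7.of_le (by norm_num)
  have sm : ContDiffAt ℝ 1 (fun q => (r₀ - ‖zc c q‖) * (r₀ - ϱ (th c q))⁻¹) q :=
    (contDiffAt_const.sub t7').mul ((contDiffAt_const.sub (d1.comp q t6')).inv n0)
  refine ⟨cd_vec ((t6'.add (sm.mul ((d2.comp q t6').sub t6'))).congr_of_eventuallyEq hn0)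
    (contDiff_X 1).contDiffAt ((contDiffAt_const.add (contDiffAt_const.mul sm)).congr_of_eventuallyEq
      hn2), ?_, norm_fderiv_le_of_lipschitz ℝ hK⟩
  have gθ : HG (th c) q _ := ⟨t6'.differentiableAt (by norm_num), t8⟩
  have gr : HG (fun y => ‖zc c y‖) q _ := ⟨t7'.differentiableAt (by norm_num), t9⟩
  have gm := ((HG.const r₀ q).sub gr).mul (((HG.const r₀ q).sub
    (gθ.comp (d1.differentiableAt (by norm_num)).hasDerivAt)).inv n0)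
  have g0 := (gθ.add (gm.mul ((gθ.comp (d2.differentiableAt (by norm_num)).hasDerivAt).sub
    gθ))).congr hn0
  have g2 := ((HG.const t₀ q).add (gm.const_mul (T - t₀))).congr hn2
  rw [det_vec hCF (f1 := X 1) g0 (HG.X 1 q) g2]
  clear g0 g2 gm gr gθ t8 t9 hn0 hn2 sm t7' t6' t7 t6 t4 k1 hI d1 d2 m4
  have hsq := cn_sq c q
  have hrp : 0 < ‖zc c q‖ := by linarith
  obtain ⟨b1, b2⟩ := hb _ ⟨t1, t2⟩
  have b3 := hR _ ⟨t1, t2⟩
  generalize deriv Ξ (th c q) = Ξ1 at d3 ⊢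
  generalize deriv ϱ (th c q) = ϱ1
  generalize Ξ (th c q) = Ξ0
  generalize ϱ (th c q) = ϱ0 at *
  generalize th c q = θ
  generalize ‖zc c q‖ = r at *
  set m := (r₀ - r) / (r₀ - ϱ0) with hm
  have key : ∀ x : ℝ, x = (T - t₀) * (1 - m + m * Ξ1) / ((r₀ - ϱ0) * r) →
      (T - t₀) * min 1 e / (R * R) ≤ s * x := by
    rintro x rfl
    have a1 : 0 < s * (r₀ - ϱ0) := by linarith
    have a2 : s * (r₀ - ϱ0) ≤ R := by rcases hs with h | h <;> rw [h] <;> linarith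
    have hs0 : s ≠ 0 := by rintro rfl; simp at hss
    have a3 : m = s * (r₀ - r) / (s * (r₀ - ϱ0)) := by rw [hm]; field_simp
    have a4 : 0 ≤ m := by rw [a3]; positivity
    have a5 : m ≤ 1 := by rw [a3, div_le_one a1]; linarith
    have a6 : min 1 e ≤ 1 - m + m * Ξ1 := by
      have := min_le_left 1 e
      have := min_le_right 1 e
      nlinarith
    have a7 : s * ((T - t₀) * (1 - m + m * Ξ1) / ((r₀ - ϱ0) * r)) =
        (T - t₀) * (1 - m + m * Ξ1) / (s * (r₀ - ϱ0) * r) := by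
      field_simp
      rw [sq, hss, one_mul]
    have a8 : 0 < min 1 e := lt_min one_pos he
    rw [a7]
    have a9 : 0 < T - t₀ := by linarith
    gcongr
    exact mul_nonneg a9.le (a8.le.trans a6)
  apply key
  simp [ee_apply, hm]
  field_simp
  linear_combination
    (-(r * (r₀ - ϱ0) ^ 2 * (T - t₀) * (r₀ - ϱ0 - (r₀ - r) + (r₀ - r) * Ξ1))) * hsq

end Crest.Agent.R83
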