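import Crest.Agent.R83.Basic

/-! Row 83, task CP: the life profile of one mode. -/

set_option autoImplicit false

noncomputable section

namespace Crest.Agent.R83

open MeasureTheory Set Filter Topology Metric
open scoped NNReal

/-- `χ`, `χ'`, `χ''` -/
def cpc0 : ℝ → ℝ := Real.smoothTransition
def cpc1 : ℝ → ℝ := deriv cpc0
def cpc2 : ℝ → ℝ := deriv cpc1

lemma cp_c0_cd (n : ℕ) : ContDiff ℝ n cpc0 := by
  have := Real.smoothTransition.contDiff (n := (n : ℕ∞))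
  exact_mod_cast this

lemma cp_c1_cd (n : ℕ) : ContDiff ℝ n cpc1 := by
  have h : ContDiff ℝ ((n : WithTop ℕ∞) + 1) cpc0 := by exact_mod_cast cp_c0_cd (n + 1)
  exact h.deriv'

lemma cp_c2_cd (n : ℕ) : ContDiff ℝ n cpc2 := by
  have h : ContDiff ℝ ((n : WithTop ℕ∞) + 1) cpc1 := by exact_mod_cast cp_c1_cd (n + 1)
  exact h.deriv'

lemma cp_hd0 (t : ℝ) : HasDerivAt cpc0 (cpc1 t) t :=
  (((cp_c0_cd 1).differentiable (by norm_num)) t).hasDerivAt

lemma cp_hd1 (t : ℝ) : HasDerivAt cpc1 (cpc2 t) t :=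
  (((cp_c1_cd 1).differentiable (by norm_num)) t).hasDerivAt

lemma cp_deriv_Iic {f : ℝ → ℝ} {c a : ℝ} (hf : Continuous (deriv f)) (h : ∀ t, t ≤ a → f t = c) :
    ∀ t, t ≤ a → deriv f t = 0 := by
  have h1 : EqOn (deriv f) (fun _ => 0) (Iio a) := fun t ht => by
    have : f =ᶠ[𝓝 t] fun _ => c := by
      filter_upwards [Iio_mem_nhds ht] with s hs using h s (le_of_lt hs)
    rw [this.deriv_eq]; simp
  have h2 := h1.closure hf continuous_const
  rw [closure_Iio] at h2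
  exact fun t ht => h2 ht

lemma cp_deriv_Ici {f : ℝ → ℝ} {c a : ℝ} (hf : Continuous (deriv f)) (h : ∀ t, a ≤ t → f t = c) :
    ∀ t, a ≤ t → deriv f t = 0 := by
  have h1 : EqOn (deriv f) (fun _ => 0) (Ioi a) := fun t ht => by
    have : f =ᶠ[𝓝 t] fun _ => c := by
      filter_upwards [Ioi_mem_nhds ht] with s hs using h s (le_of_lt hs)
    rw [this.deriv_eq]; simp
  have h2 := h1.closure hf continuous_const
  rw [closure_Ioi] at h2
  exact fun t ht => h2 ht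

lemma cp_c0_neg {t : ℝ} (h : t ≤ 0) : cpc0 t = 0 := Real.smoothTransition.zero_of_nonpos h
lemma cp_c0_one {t : ℝ} (h : 1 ≤ t) : cpc0 t = 1 := Real.smoothTransition.one_of_one_le h
lemma cp_c0_nonneg (t : ℝ) : 0 ≤ cpc0 t := Real.smoothTransition.nonneg t
lemma cp_c0_pos {t : ℝ} (h : 0 < t) : 0 < cpc0 t := Real.smoothTransition.pos_of_pos h
lemma cp_c1_neg {t : ℝ} (h : t ≤ 0) : cpc1 t = 0 :=
  cp_deriv_Iic (cp_c1_cd 0).continuous (fun _ => cp_c0_neg) t h
lemma cp_c1_one {t : ℝ} (h : 1 ≤ t) : cpc1 t = 0 :=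
  cp_deriv_Ici (cp_c1_cd 0).continuous (fun _ => cp_c0_one) t h
lemma cp_c2_neg {t : ℝ} (h : t ≤ 0) : cpc2 t = 0 :=
  cp_deriv_Iic (cp_c2_cd 0).continuous (fun _ => cp_c1_neg) t h
lemma cp_c2_one {t : ℝ} (h : 1 ≤ t) : cpc2 t = 0 :=
  cp_deriv_Ici (cp_c2_cd 0).continuous (fun _ => cp_c1_one) t h

lemma cp_bound : ∃ C : ℝ, 1 ≤ C ∧ ∀ t, |cpc2 t| + 2 * |cpc1 t| ≤ C := by
  have hc : Continuous fun t => |cpc2 t| + 2 * |cpc1 t| := by
    have h1 := (cp_c1_cd 0).continuous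
    have h2 := (cp_c2_cd 0).continuous
    fun_prop
  obtain ⟨C, hC⟩ := (isCompact_Icc (a := (0 : ℝ)) (b := 1)).exists_bound_of_continuousOn
    hc.continuousOn
  refine ⟨max 1 C, le_max_left _ _, fun t => ?_⟩
  by_cases h0 : t ≤ 0
  · rw [cp_c1_neg h0, cp_c2_neg h0]; simp
  by_cases h1 : 1 ≤ t
  · rw [cp_c1_one h1, cp_c2_one h1]; simp
  have := hC t ⟨by linarith, by linarith⟩
  exact ((le_abs_self _).trans this).trans (le_max_right _ _)

/-- positive part -/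
def cpp (a : ℝ) (t : ℝ) : ℝ := max (t - a) 0

lemma cp_pp_le {a t : ℝ} (h : t ≤ a) : cpp a t = 0 := max_eq_right (by linarith)
lemma cp_pp_ge {a t : ℝ} (h : a ≤ t) : cpp a t = t - a := max_eq_left (by linarith)

lemma cp_pp_lip (a : ℝ) : LocallyLipschitz (cpp a) := by
  have h : LocallyLipschitz fun t : ℝ => t - a :=
    (contDiff_id.sub contDiff_const : ContDiff ℝ 1 _).locallyLipschitz
  exact h.max_const 0

lemma cp_pp_ev_lt {a t : ℝ} (h : t < a) : cpp a =ᶠ[𝓝 t] fun _ => 0 := by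
  filter_upwards [Iio_mem_nhds h] with s hs using cp_pp_le (le_of_lt hs)

lemma cp_pp_ev_gt {a t : ℝ} (h : a < t) : cpp a =ᶠ[𝓝 t] fun s => s - a := by
  filter_upwards [Ioi_mem_nhds h] with s hs using cp_pp_ge (le_of_lt hs)

lemma cp_pp_cd {a t : ℝ} (h : t ≠ a) : ContDiffAt ℝ 2 (cpp a) t := by
  rcases lt_or_gt_of_ne h with h | h
  · exact contDiffAt_const.congr_of_eventuallyEq (cp_pp_ev_lt h)
  · exact (contDiffAt_id.sub contDiffAt_const).congr_of_eventuallyEq (cp_pp_ev_gt h)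

lemma cp_pp_hd {a t : ℝ} (h : t ≠ a) : HasDerivAt (cpp a) (if a < t then 1 else 0) t := by
  rcases lt_or_gt_of_ne h with h | h
  · rw [if_neg (not_lt.2 h.le)]
    exact (hasDerivAt_const t (0 : ℝ)).congr_of_eventuallyEq (cp_pp_ev_lt h)
  · rw [if_pos h]
    exact ((hasDerivAt_id t).sub_const a).congr_of_eventuallyEq (cp_pp_ev_gt h)

lemma cp_pp_sq_hd (a t : ℝ) : HasDerivAt (fun s => cpp a s ^ 2) (2 * cpp a t) t := by
  by_cases h : t = a
  · subst h
    rw [cp_pp_le le_rfl, mul_zero]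
    have h1 : HasDerivWithinAt (fun s => cpp t s ^ 2) 0 (Iic t) t :=
      (hasDerivAt_const t (0 : ℝ)).hasDerivWithinAt.congr
        (fun s hs => by rw [cp_pp_le hs]; simp) (by rw [cp_pp_le le_rfl]; simp)
    have h3 : HasDerivAt (fun s : ℝ => (s - t) ^ 2) 0 t := by
      have := ((hasDerivAt_id t).sub_const t).fun_pow 2
      simpa using this
    have h2 : HasDerivWithinAt (fun s => cpp t s ^ 2) 0 (Ici t) t :=
      h3.hasDerivWithinAt.congr (fun s hs => by rw [cp_pp_ge hs]) (by rw [cp_pp_ge le_rfl])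
    have := h1.union h2
    rwa [Iic_union_Ici, hasDerivWithinAt_univ] at this
  · have := (cp_pp_hd h).fun_pow 2
    refine this.congr_deriv ?_
    rcases lt_or_gt_of_ne h with h | h
    · rw [cp_pp_le h.le]; simp
    · rw [if_pos h]; simp

/-- locally Lipschitz, vanishing off `(0, L)`: bounded and Lipschitz -/
lemma cp_lip {f : ℝ → ℝ} {L : ℝ} (hL : 0 ≤ L) (hf : LocallyLipschitz f) (h0 : ∀ t, t ≤ 0 → f t = 0)
    (h1 : ∀ t, L ≤ t → f t = 0) : ∃ K : ℝ≥0, LipschitzWith K f ∧ ∀ t, |f t| ≤ K := by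
  obtain ⟨K, hK⟩ := (hf.locallyLipschitzOn (s := Icc 0 L)).exists_lipschitzOnWith_of_compact
    isCompact_Icc
  have hcl : ∀ t, f t = f (max 0 (min L t)) := fun t => by
    rcases le_total t 0 with h | h
    · rw [h0 t h, h0 _ (max_le le_rfl ((min_le_right _ _).trans h))]
    · rcases le_total t L with h' | h'
      · rw [min_eq_right h', max_eq_right h]
      · rw [min_eq_left h', max_eq_right hL, h1 t h', h1 L le_rfl]
  have hmem : ∀ t, max 0 (min L t) ∈ Icc 0 L := fun t =>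
    ⟨le_max_left _ _, max_le hL (min_le_left _ _)⟩
  have hc : LipschitzWith 1 fun t : ℝ => max 0 (min L t) :=
    (LipschitzWith.id.const_min L).const_max 0
  have hlip : LipschitzWith K f := LipschitzWith.of_dist_le_mul fun x y => by
    rw [hcl x, hcl y]
    refine (hK.dist_le_mul _ (hmem x) _ (hmem y)).trans ?_
    have := hc.dist_le_mul x y
    simp only [NNReal.coe_one, one_mul] at this
    gcongr
  refine ⟨K + K * ⟨L, hL⟩, hlip.weaken le_self_add, fun t => ?_⟩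
  rw [hcl t]
  have := hK.dist_le_mul _ (hmem t) 0 ⟨le_rfl, hL⟩
  rw [h0 0 le_rfl, Real.dist_eq, Real.dist_eq, sub_zero, sub_zero, abs_of_nonneg (hmem t).1] at this
  have h2 : (0 : ℝ) ≤ K := K.2
  have h3 := (hmem t).2
  change _ ≤ (K : ℝ) + K * L
  nlinarith

lemma cp_ll_mul {f g : ℝ → ℝ} (hf : LocallyLipschitz f) (hg : LocallyLipschitz g) :
    LocallyLipschitz (fun x => f x * g x) := by
  have h : LocallyLipschitz (fun z : ℝ × ℝ => z.1 * z.2) :=
    (contDiff_fst.mul contDiff_snd : ContDiff ℝ 1 _).locallyLipschitz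
  exact h.comp (hf.prodMk hg)

section profile

variable (a e : ℝ)

/-- phase and its derivative; `a = τa`, `a + 24 = τ₁`, `e = τe` -/
def cpφ (t : ℝ) : ℝ := t / 4 + (cpp a t ^ 2 - cpp (a + 24) t ^ 2) / 64
def cpφ1 (t : ℝ) : ℝ := 1 / 4 + (cpp a t - cpp (a + 24) t) / 32
def cpφ2 (t : ℝ) : ℝ := ((if a < t then 1 else 0) - (if a + 24 < t then 1 else 0)) / 32
def cpE (t : ℝ) : ℝ := Real.exp (-cpφ a t)
def cpB (t : ℝ) : ℝ := (cpc0 t + cpc0 (e - t) - 1) * cpE a t
def cpB1 (t : ℝ) : ℝ :=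
  (cpc1 t - cpc1 (e - t)) * cpE a t - (cpc0 t + cpc0 (e - t) - 1) * (cpφ1 a t * cpE a t)
def cprb (t : ℝ) : ℝ := (cpc2 t - cpc1 t / 2) * Real.exp (-t / 4)
def cprd (t : ℝ) : ℝ := (cpc2 (e - t) + 2 * cpc1 (e - t)) * Real.exp (-(t - 3 * (2 * a + 24) / 8))
def cpk (t : ℝ) : ℝ := cpφ1 a t ^ 2 - cpφ2 a t

lemma cp_φ_hd (t : ℝ) : HasDerivAt (cpφ a) (cpφ1 a t) t := by
  have := ((hasDerivAt_id t).div_const 4).add
    (((cp_pp_sq_hd a t).sub (cp_pp_sq_hd (a + 24) t)).div_const 64)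
  refine HasDerivAt.congr_deriv this ?_
  unfold cpφ1; ring

lemma cp_φ1_hd {t : ℝ} (h1 : t ≠ a) (h2 : t ≠ a + 24) : HasDerivAt (cpφ1 a) (cpφ2 a t) t := by
  have := (((cp_pp_hd h1).sub (cp_pp_hd h2)).div_const 32).const_add (1 / 4)
  exact this

lemma cp_E_hd (t : ℝ) : HasDerivAt (cpE a) (-(cpφ1 a t * cpE a t)) t := by
  have := (cp_φ_hd a t).fun_neg.exp
  refine HasDerivAt.congr_deriv this ?_
  unfold cpE; ring

lemma cp_c0e_hd (t : ℝ) : HasDerivAt (fun s => cpc0 (e - s)) (-cpc1 (e - t)) t := by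
  have := (cp_hd0 (e - t)).comp t ((hasDerivAt_id t).const_sub e)
  exact HasDerivAt.congr_deriv this (by ring)

lemma cp_c1e_hd (t : ℝ) : HasDerivAt (fun s => cpc1 (e - s)) (-cpc2 (e - t)) t := by
  have := (cp_hd1 (e - t)).comp t ((hasDerivAt_id t).const_sub e)
  exact HasDerivAt.congr_deriv this (by ring)

lemma cp_B_hd (t : ℝ) : HasDerivAt (cpB a e) (cpB1 a e t) t := by
  have := (((cp_hd0 t).fun_add (cp_c0e_hd e t)).sub_const 1).fun_mul (cp_E_hd a t)
  refine HasDerivAt.congr_deriv this ?_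
  unfold cpB1; ring

lemma cp_φ_le {t : ℝ} (h : t ≤ a) : cpφ a t = t / 4 := by
  unfold cpφ; rw [cp_pp_le h, cp_pp_le (by linarith)]; ring

lemma cp_φ1_le {t : ℝ} (h : t ≤ a) : cpφ1 a t = 1 / 4 := by
  unfold cpφ1; rw [cp_pp_le h, cp_pp_le (by linarith)]; ring

lemma cp_φ_ge {t : ℝ} (h : a + 24 ≤ t) : cpφ a t = t - 3 * (2 * a + 24) / 8 := by
  unfold cpφ; rw [cp_pp_ge h, cp_pp_ge (by linarith)]; ring

lemma cp_φ1_ge {t : ℝ} (h : a + 24 ≤ t) : cpφ1 a t = 1 := by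
  unfold cpφ1; rw [cp_pp_ge h, cp_pp_ge (by linarith)]; ring

lemma cp_B1_hd (ha : 1 ≤ a) (he : a + 25 ≤ e) {t : ℝ} (h1 : t ≠ a) (h2 : t ≠ a + 24) :
    HasDerivAt (cpB1 a e) (cpk a t * cpB a e t + cprb t + cprd a e t) t := by
  have := (((cp_hd1 t).fun_sub (cp_c1e_hd e t)).fun_mul (cp_E_hd a t)).fun_sub
    ((((cp_hd0 t).fun_add (cp_c0e_hd e t)).sub_const 1).fun_mul
      ((cp_φ1_hd a h1 h2).fun_mul (cp_E_hd a t)))
  refine HasDerivAt.congr_deriv this ?_
  have e1 : cprb t = (cpc2 t - 2 * cpc1 t * cpφ1 a t) * cpE a t := by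
    unfold cprb
    rcases le_total 1 t with h | h
    · rw [cp_c1_one h, cp_c2_one h]; ring
    · unfold cpE
      rw [cp_φ_le a (h.trans ha), cp_φ1_le a (h.trans ha), neg_div]; ring
  have e2 : cprd a e t = (cpc2 (e - t) + 2 * cpc1 (e - t) * cpφ1 a t) * cpE a t := by
    unfold cprd
    rcases le_total 1 (e - t) with h | h
    · rw [cp_c1_one h, cp_c2_one h]; ring
    · unfold cpE
      rw [cp_φ_ge a (by linarith), cp_φ1_ge a (by linarith)]; ring
  rw [e1, e2]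
  unfold cpk cpB; ring

lemma cp_k_bound (t : ℝ) : 1 / 32 ≤ cpk a t ∧ cpk a t ≤ 1 := by
  unfold cpk cpφ2
  by_cases h1 : a < t
  · by_cases h2 : a + 24 < t
    · rw [if_pos h1, if_pos h2, cp_φ1_ge a h2.le]; norm_num
    · rw [if_pos h1, if_neg h2]
      unfold cpφ1
      rw [cp_pp_ge h1.le, cp_pp_le (not_lt.1 h2)]
      constructor <;> nlinarith [not_lt.1 h2]
  · rw [if_neg h1, if_neg (by linarith [not_lt.1 h1]), cp_φ1_le a (not_lt.1 h1)]; norm_num

lemma cp_φ_ll : LocallyLipschitz (cpφ a) := by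
  have h : ContDiff ℝ 1 fun z : ℝ × ℝ × ℝ => z.1 / 4 + (z.2.1 ^ 2 - z.2.2 ^ 2) / 64 := by fun_prop
  exact h.locallyLipschitz.comp (LocallyLipschitz.id.prodMk
    ((cp_pp_lip a).prodMk (cp_pp_lip (a + 24))))

lemma cp_φ1_ll : LocallyLipschitz (cpφ1 a) := by
  have h : ContDiff ℝ 1 fun z : ℝ × ℝ => 1 / 4 + (z.1 - z.2) / 32 := by fun_prop
  exact h.locallyLipschitz.comp ((cp_pp_lip a).prodMk (cp_pp_lip (a + 24)))

lemma cp_E_ll : LocallyLipschitz (cpE a) := by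
  have h : ContDiff ℝ 1 fun z : ℝ => Real.exp (-z) := by fun_prop
  exact h.locallyLipschitz.comp (cp_φ_ll a)

lemma cp_c_cd (n : ℕ) : ContDiff ℝ n fun t => cpc0 t + cpc0 (e - t) - 1 :=
  ((cp_c0_cd n).add ((cp_c0_cd n).comp (contDiff_const.sub contDiff_id))).sub contDiff_const

lemma cp_c'_cd (n : ℕ) : ContDiff ℝ n fun t => cpc1 t - cpc1 (e - t) :=
  (cp_c1_cd n).sub ((cp_c1_cd n).comp (contDiff_const.sub contDiff_id))

lemma cp_B_ll : LocallyLipschitz (cpB a e) :=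
  cp_ll_mul (cp_c_cd e 1).locallyLipschitz (cp_E_ll a)

lemma cp_B1_ll : LocallyLipschitz (cpB1 a e) :=
  (cp_ll_mul (cp_c'_cd e 1).locallyLipschitz (cp_E_ll a)).sub
    (cp_ll_mul (cp_c_cd e 1).locallyLipschitz (cp_ll_mul (cp_φ1_ll a) (cp_E_ll a)))

lemma cp_rb_cd (n : ℕ) : ContDiff ℝ n cprb := by
  have h1 := cp_c1_cd n
  have h2 := cp_c2_cd n
  unfold cprb
  fun_prop

lemma cp_rd_cd (n : ℕ) : ContDiff ℝ n (cprd a e) := by
  have h1 := cp_c1_cd n
  have h2 := cp_c2_cd n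
  unfold cprd
  fun_prop

lemma cp_E_cd {t : ℝ} (h1 : t ≠ a) (h2 : t ≠ a + 24) : ContDiffAt ℝ 2 (cpE a) t := by
  have h3 := cp_pp_cd h1
  have h4 := cp_pp_cd h2
  unfold cpE cpφ
  fun_prop

lemma cp_φ1_cd {t : ℝ} (h1 : t ≠ a) (h2 : t ≠ a + 24) : ContDiffAt ℝ 2 (cpφ1 a) t := by
  have h3 := cp_pp_cd h1
  have h4 := cp_pp_cd h2
  unfold cpφ1
  fun_prop

lemma cp_B_cd {t : ℝ} (h1 : t ≠ a) (h2 : t ≠ a + 24) : ContDiffAt ℝ 2 (cpB a e) t :=
  (cp_c_cd e 2).contDiffAt.mul (cp_E_cd a h1 h2)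

lemma cp_B1_cd {t : ℝ} (h1 : t ≠ a) (h2 : t ≠ a + 24) : ContDiffAt ℝ 2 (cpB1 a e) t :=
  ((cp_c'_cd e 2).contDiffAt.mul (cp_E_cd a h1 h2)).sub
    ((cp_c_cd e 2).contDiffAt.mul ((cp_φ1_cd a h1 h2).mul (cp_E_cd a h1 h2)))

lemma cp_b0_deriv (t : ℝ) :
    deriv b0 t = cpc1 t * Real.exp (-t / 4) - cpc0 t * (1 / 4 * Real.exp (-t / 4)) := by
  have h1 : HasDerivAt (fun s : ℝ => Real.exp (-s / 4)) (Real.exp (-t / 4) * (-1 / 4)) t :=
    ((hasDerivAt_id t).fun_neg.div_const 4).exp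
  have := (cp_hd0 t).fun_mul h1
  have h2 : deriv b0 t = _ := this.deriv
  rw [h2]; ring

end profile

theorem CP_proof : CPStmt := by
  intro τ₀ hτ₀
  obtain ⟨C, hC1, hC⟩ := cp_bound
  set δ : ℝ := 1 / (2048 * C) with hδ
  have hδ0 : 0 < δ := by positivity
  have hδC : 2048 * C * δ = 1 := by rw [hδ]; field_simp
  have hδ1 : δ ≤ 1 / 4 := by nlinarith
  set Δ : ℝ := τ₀ + 320 * C / δ with hΔ
  have hΔ1 : τ₀ ≤ Δ := by have : 0 ≤ 320 * C / δ := by positivity
                          linarith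
  have hexp : 160 * C * Real.exp (-(Δ / 2)) ≤ δ := by
    have h1 : Δ / 2 + 1 ≤ Real.exp (Δ / 2) := Real.add_one_le_exp _
    have h2 : 160 * C ≤ δ * Real.exp (Δ / 2) := by
      have h3 : δ * (Δ / 2) = δ * τ₀ / 2 + 160 * C := by rw [hΔ]; field_simp; ring
      nlinarith
    rw [Real.exp_neg, ← div_eq_mul_inv, div_le_iff₀ (Real.exp_pos _)]
    exact h2
  set a : ℝ := 2 * Δ + 2 with ha
  set e : ℝ := a + 24 + Δ + 1 with he
  have ha1 : 1 ≤ a := by linarith
  have hae : a + 25 ≤ e := by linarith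
  set P : ℝ := (a + 24) / 4 + 9 with hP
  have hB0 : ∀ t, t ≤ 0 → cpB a e t = 0 := fun t ht => by
    unfold cpB; rw [cp_c0_neg ht, cp_c0_one (by linarith)]; ring
  have hBe : ∀ t, e ≤ t → cpB a e t = 0 := fun t ht => by
    unfold cpB; rw [cp_c0_one (by linarith), cp_c0_neg (by linarith)]; ring
  have hB10 : ∀ t, t ≤ 0 → cpB1 a e t = 0 := fun t ht => by
    unfold cpB1; rw [cp_c0_neg ht, cp_c0_one (by linarith), cp_c1_neg ht, cp_c1_one (by linarith)]
    ring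
  have hB1e : ∀ t, e ≤ t → cpB1 a e t = 0 := fun t ht => by
    unfold cpB1
    rw [cp_c0_one (by linarith), cp_c0_neg (by linarith), cp_c1_one (by linarith),
      cp_c1_neg (by linarith)]
    ring
  have hrb0 : ∀ t, t ≤ 0 → cprb t = 0 := fun t ht => by
    unfold cprb; rw [cp_c1_neg ht, cp_c2_neg ht]; ring
  have hrb1 : ∀ t, 1 ≤ t → cprb t = 0 := fun t ht => by
    unfold cprb; rw [cp_c1_one ht, cp_c2_one ht]; ring
  have hrd0 : ∀ t, t ≤ e - 1 → cprd a e t = 0 := fun t ht => by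
    unfold cprd; rw [cp_c1_one (by linarith), cp_c2_one (by linarith)]; ring
  have hrde : ∀ t, e ≤ t → cprd a e t = 0 := fun t ht => by
    unfold cprd; rw [cp_c1_neg (by linarith), cp_c2_neg (by linarith)]; ring
  have he0 : 0 ≤ e := by linarith
  obtain ⟨K1, hK1, hK1'⟩ := cp_lip he0 (cp_B_ll a e) hB0 hBe
  obtain ⟨K2, hK2, hK2'⟩ := cp_lip he0 (cp_B1_ll a e) hB10 hB1e
  obtain ⟨K3, hK3, hK3'⟩ := cp_lip he0 (cp_rb_cd 1).locallyLipschitz hrb0
    (fun t ht => hrb1 t (by linarith))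
  obtain ⟨K4, hK4, hK4'⟩ := cp_lip he0 (cp_rd_cd a e 1).locallyLipschitz
    (fun t ht => hrd0 t (by linarith)) hrde
  have hBlow : ∀ t, t ≤ e - 1 → cpB a e t = cpc0 t * cpE a t := fun t ht => by
    unfold cpB; rw [cp_c0_one (t := e - t) (by linarith)]; ring
  have hBhigh : ∀ t, 1 ≤ t → cpB a e t = cpc0 (e - t) * cpE a t := fun t ht => by
    unfold cpB; rw [cp_c0_one ht]; ring
  have hEpos : ∀ t, 0 < cpE a t := fun t => Real.exp_pos _
  have hD : ∀ t : ℝ, t ∉ ({a, a + 24} : Finset ℝ) → t ≠ a ∧ t ≠ a + 24 := fun t ht => by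
    simpa [not_or] using ht
  have k1 : (K1 : ℝ) ≤ (K1 + K2 + K3 + K4 : ℝ≥0) := by
    push_cast; linarith [K2.2, K3.2, K4.2, NNReal.coe_nonneg K2, NNReal.coe_nonneg K3,
      NNReal.coe_nonneg K4]
  have k2 : (K2 : ℝ) ≤ (K1 + K2 + K3 + K4 : ℝ≥0) := by
    push_cast; linarith [NNReal.coe_nonneg K1, NNReal.coe_nonneg K3, NNReal.coe_nonneg K4]
  have k3 : (K3 : ℝ) ≤ (K1 + K2 + K3 + K4 : ℝ≥0) := by
    push_cast; linarith [NNReal.coe_nonneg K1, NNReal.coe_nonneg K2, NNReal.coe_nonneg K4]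
  have k4 : (K4 : ℝ) ≤ (K1 + K2 + K3 + K4 : ℝ≥0) := by
    push_cast; linarith [NNReal.coe_nonneg K1, NNReal.coe_nonneg K2, NNReal.coe_nonneg K3]
  have hqle : Real.exp (-P) ≤ 1 := Real.exp_le_one_iff.2 (by linarith)
  refine ⟨cpB a e, cpB1 a e, cprb, cprd a e, cpk a, a + 24, δ * Real.exp (-P), {a, a + 24},
    K1 + K2 + K3 + K4, by linarith, by positivity, ?_, ?_, hrb1, fun t ht => hrd0 t (by linarith),
    ?_, ?_, cp_B_hd a e, fun t ht => cp_B1_hd a e ha1 hae (hD t ht).1 (hD t ht).2,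
    cp_k_bound a, ?_⟩
  · nlinarith [Real.exp_pos (-P)]
  · intro f hf
    simp only [List.mem_cons, List.not_mem_nil, or_false] at hf
    rcases hf with rfl | rfl | rfl | rfl
    · exact ⟨hK1.weaken (by exact_mod_cast k1), fun t => (hK1' t).trans k1, hB0,
        fun t ht => hBe t (by linarith), fun t ht => cp_B_cd a e (hD t ht).1 (hD t ht).2⟩
    · exact ⟨hK2.weaken (by exact_mod_cast k2), fun t => (hK2' t).trans k2, hB10,
        fun t ht => hB1e t (by linarith), fun t ht => cp_B1_cd a e (hD t ht).1 (hD t ht).2⟩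
    · exact ⟨hK3.weaken (by exact_mod_cast k3), fun t => (hK3' t).trans k3, hrb0,
        fun t ht => hrb1 t (by linarith), fun t _ => (cp_rb_cd 2).contDiffAt⟩
    · exact ⟨hK4.weaken (by exact_mod_cast k4), fun t => (hK4' t).trans k4,
        fun t ht => hrd0 t (by linarith), fun t ht => hrde t (by linarith),
        fun t _ => (cp_rd_cd a e 2).contDiffAt⟩
  · intro t ht ht'
    rw [hBlow t (by linarith)]
    exact mul_pos (cp_c0_pos ht) (hEpos t)
  · intro t ht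
    have hta : t ≤ a := by linarith
    refine ⟨?_, ?_⟩
    · rw [hBlow t (by linarith)]
      unfold cpE b0
      rw [cp_φ_le a hta, neg_div]; rfl
    · rw [cp_b0_deriv]
      unfold cpB1 cpE
      rw [cp_φ_le a hta, cp_φ1_le a hta, cp_c0_one (t := e - t) (by linarith),
        cp_c1_one (t := e - t) (by linarith), neg_div]
      ring
  · intro t ht0 ht1
    refine ⟨?_, ?_⟩
    · rw [hBhigh _ (by linarith)]
      rcases le_total 1 t with h | h
      · rw [hrb1 t h]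
        simpa using mul_nonneg (cp_c0_nonneg _) (hEpos _).le
      · rw [cp_c0_one (by linarith), one_mul]
        unfold cpE
        rw [cp_φ_ge a (by linarith)]
        have h1 : |cprb t| ≤ C := by
          unfold cprb
          rw [abs_mul, abs_of_pos (Real.exp_pos _)]
          have h2 : Real.exp (-t / 4) ≤ 1 := Real.exp_le_one_iff.2 (by linarith)
          have h3 : |cpc2 t - cpc1 t / 2| ≤ C := by
            have := abs_sub (cpc2 t) (cpc1 t / 2)
            rw [abs_div, abs_two] at this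
            linarith [hC t, abs_nonneg (cpc1 t)]
          nlinarith [abs_nonneg (cpc2 t - cpc1 t / 2), Real.exp_pos (-t / 4)]
        have h4 : -(a + 24 + t / 2 - 3 * (2 * a + 24) / 8) = -P + -(t / 2) := by rw [hP]; ring
        rw [h4, Real.exp_add]
        have h5 : 1 / 2 ≤ Real.exp (-(t / 2)) := by
          have := Real.add_one_le_exp (-(t / 2)); linarith
        have h6 : 1024 * δ * |cprb t| ≤ 1 / 2 := by nlinarith
        have h7 := Real.exp_pos (-P)
        calc 1024 * (δ * Real.exp (-P)) * |cprb t| = Real.exp (-P) * (1024 * δ * |cprb t|) := by ring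
          _ ≤ Real.exp (-P) * Real.exp (-(t / 2)) := by gcongr; linarith
    · have hBn : 0 ≤ δ * Real.exp (-P) * cpB a e t := by
        rw [hBlow t (by linarith)]
        have := cp_c0_nonneg t
        have := hEpos t
        positivity
      rcases le_total (t / 2) Δ with h | h
      · rw [hrd0 _ (by linarith)]; simpa using hBn
      rcases le_total (Δ + 1) (t / 2) with h' | h'
      · rw [hrde _ (by linarith)]; simpa using hBn
      rw [hBlow t (by linarith), cp_c0_one (by linarith), one_mul]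
      unfold cpE cprd
      rw [cp_φ_le a (by linarith), abs_mul, abs_of_pos (Real.exp_pos _)]
      have h3 : |cpc2 (e - (a + 24 + t / 2)) + 2 * cpc1 (e - (a + 24 + t / 2))| ≤ C := by
        have := abs_add_le (cpc2 (e - (a + 24 + t / 2))) (2 * cpc1 (e - (a + 24 + t / 2)))
        rw [abs_mul, abs_two] at this
        linarith [hC (e - (a + 24 + t / 2))]
      have h4 : -(a + 24 + t / 2 - 3 * (2 * a + 24) / 8) = -P + (-(t / 4) + -(t / 4)) := by
        rw [hP]; ring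
      rw [h4, Real.exp_add, Real.exp_add]
      have h5 : Real.exp (-(t / 4)) ≤ Real.exp (-(Δ / 2)) := Real.exp_le_exp.2 (by linarith)
      have h7 := Real.exp_pos (-P)
      have h8 := Real.exp_pos (-(t / 4))
      calc 160 * (|cpc2 (e - (a + 24 + t / 2)) + 2 * cpc1 (e - (a + 24 + t / 2))| *
            (Real.exp (-P) * (Real.exp (-(t / 4)) * Real.exp (-(t / 4)))))
          ≤ 160 * (C * (Real.exp (-P) * (Real.exp (-(Δ / 2)) * Real.exp (-(t / 4))))) := by gcongr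
        _ = (160 * C * Real.exp (-(Δ / 2))) * Real.exp (-P) * Real.exp (-(t / 4)) := by ring
        _ ≤ δ * Real.exp (-P) * Real.exp (-(t / 4)) := by gcongr

end Crest.Agent.R83
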