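import Crest.Agent.R83.Basic

/-! Row 83, task DI: the dilogarithm. -/

set_option autoImplicit false

noncomputable section

namespace Crest.Agent.R83

open MeasureTheory Set Filter Topology Metric
open scoped Gradient RealInnerProductSpace NNReal

def dif (w : ℂ) : ℂ := -Complex.log (1 - w)

lemma di_slit {w : ℂ} (hw : w ∈ ball (0 : ℂ) 1) : 1 - w ∈ Complex.slitPlane := by
  rw [sub_eq_add_neg]
  exact Complex.mem_slitPlane_of_norm_lt_one (by simpa using hw)

lemma di_ne {w : ℂ} (hw : w ∈ ball (0 : ℂ) 1) : 1 - w ≠ 0 := Complex.slitPlane_ne_zero (di_slit hw)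

lemma di_f_hd {w : ℂ} (hw : w ∈ ball (0 : ℂ) 1) : HasDerivAt dif (1 / (1 - w)) w := by
  have := (((hasDerivAt_id w).const_sub 1).clog (di_slit hw)).fun_neg
  exact HasDerivAt.congr_deriv this (by simp [neg_div])

lemma di_f_diff : DifferentiableOn ℂ dif (ball 0 1) := fun _ hw =>
  (di_f_hd hw).differentiableAt.differentiableWithinAt

lemma di_f0 : dif 0 = 0 := by simp [dif]

lemma di_dslope {F : ℂ → ℂ} (h0 : F 0 = 0) (w : ℂ) : dslope F 0 w * w = F w := by
  have := sub_smul_dslope F 0 w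
  rw [sub_zero, h0, sub_zero, smul_eq_mul] at this
  rw [mul_comm, this]

lemma di_bound {F : ℂ → ℂ} (hF : DifferentiableOn ℂ F (ball 0 1)) (h0 : F 0 = 0) {r : ℝ}
    (hr : r < 1) : ∃ C : ℝ, 0 ≤ C ∧ ∀ w : ℂ, ‖w‖ ≤ r → ‖F w‖ ≤ C * ‖w‖ := by
  have h1 : DifferentiableOn ℂ (dslope F 0) (ball 0 1) :=
    (Complex.differentiableOn_dslope (ball_mem_nhds 0 one_pos)).2 hF
  obtain ⟨C, hC⟩ := (isCompact_closedBall (0 : ℂ) r).exists_bound_of_continuousOn
    (h1.continuousOn.mono (closedBall_subset_ball hr))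
  refine ⟨|C|, abs_nonneg _, fun w hw => ?_⟩
  rw [← di_dslope h0 w, norm_mul]
  gcongr
  exact (hC w (by simpa using hw)).trans (le_abs_self C)

lemma di_f_real {s : ℝ} (hs : s < 1) : (dif s).im = 0 := by
  have : (1 : ℂ) - s = ((1 - s : ℝ) : ℂ) := by push_cast; ring
  rw [dif, Complex.neg_im, Complex.log_im, this, Complex.arg_ofReal_of_nonneg (by linarith), neg_zero]

lemma di_Li : ∃ Li : ℂ → ℂ, Li 0 = 0 ∧ (∀ w ∈ ball (0 : ℂ) 1, HasDerivAt Li (dslope dif 0 w) w) ∧
    ∀ s : ℝ, |s| < 1 → (Li s).im = 0 := by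
  have h1 : DifferentiableOn ℂ (dslope dif 0) (ball 0 1) :=
    (Complex.differentiableOn_dslope (ball_mem_nhds 0 one_pos)).2 di_f_diff
  obtain ⟨Li, h0, hLi⟩ := h1.isExactOn_ball.with_val_at 0 0
  refine ⟨Li, h0, hLi, fun s hs => ?_⟩
  have hd : ∀ x ∈ Ioo (-1 : ℝ) 1, HasDerivAt (fun x : ℝ => (Li x).im) 0 x := fun x hx => by
    have hx' : (x : ℂ) ∈ ball (0 : ℂ) 1 := by
      rw [mem_ball_zero_iff, Complex.norm_real, Real.norm_eq_abs, abs_lt]; exact hx
    have h2 := Complex.imCLM.hasFDerivAt.comp_hasDerivAt x (hLi _ hx').comp_ofReal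
    refine HasDerivAt.congr_deriv h2 ?_
    rw [Complex.imCLM_apply]
    by_cases h : x = 0
    · subst h
      rw [Complex.ofReal_zero, dslope_same, (di_f_hd (mem_ball_self one_pos)).deriv]; simp
    · have h3 := congrArg Complex.im (di_dslope di_f0 x)
      rw [di_f_real hx.2, Complex.mul_im, Complex.ofReal_im, Complex.ofReal_re, mul_zero,
        zero_add] at h3
      exact (mul_eq_zero.1 h3).resolve_right h
  have := isOpen_Ioo.is_const_of_deriv_eq_zero isPreconnected_Ioo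
    (fun x hx => (hd x hx).differentiableAt.differentiableWithinAt)
    (fun x hx => (hd x hx).deriv) (abs_lt.1 hs) (show (0 : ℝ) ∈ Ioo (-1 : ℝ) 1 by norm_num)
  simpa [h0] using this

def diL : E →L[ℝ] ℂ :=
  -(Complex.ofRealCLM.comp (EuclideanSpace.proj 2)) +
    Complex.I • (Complex.ofRealCLM.comp (EuclideanSpace.proj 0))

lemma di_L_apply (q : E) : diL q = -(q 2 : ℂ) + (q 0 : ℂ) * Complex.I := by
  simp [diL, mul_comm]

lemma di_wq (q : E) : wq q = Complex.exp (diL q) := by rw [di_L_apply]; rfl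

lemma di_wq_cd : ContDiff ℝ 3 wq := by
  have : wq = fun q => Complex.exp (diL q) := funext di_wq
  rw [this]
  exact Complex.contDiff_exp.comp diL.contDiff

lemma di_wq_hd (q : E) : HasFDerivAt wq (wq q • diL) q := by
  have : wq = Complex.exp ∘ diL := funext di_wq
  have h := (Complex.hasDerivAt_exp (diL q)).comp_hasFDerivAt q diL.hasFDerivAt
  rw [← this, ← di_wq] at h
  exact h

lemma di_norm (q : E) : ‖wq q‖ = Real.exp (-q 2) := by
  rw [wq, Complex.norm_exp]; simp

lemma di_im (q : E) : (wq q).im = Real.exp (-q 2) * Real.sin (q 0) := by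
  rw [wq, Complex.exp_im]; simp

lemma di_mem {q : E} (hq : 0 < q 2) : wq q ∈ ball (0 : ℂ) 1 := by
  rw [mem_ball_zero_iff, di_norm]
  exact Real.exp_lt_one_iff.2 (by linarith)

lemma di_grad (P : ℂ →L[ℝ] ℝ) {F : ℂ → ℂ} {F' : ℂ} {q : E} (h : HasDerivAt F F' (wq q)) :
    ∇ (fun y => P (F (wq y))) q 0 = P (F' * wq q * Complex.I) ∧
    ∇ (fun y => P (F (wq y))) q 1 = 0 ∧
    ∇ (fun y => P (F (wq y))) q 2 = -P (F' * wq q) := by
  have h1 : HasFDerivAt (fun y => P (F (wq y))) (P.comp (F' • wq q • diL)) q :=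
    P.hasFDerivAt.comp q (h.comp_hasFDerivAt q (di_wq_hd q))
  refine ⟨?_, ?_, ?_⟩ <;> rw [grad_eq_of_hasFDerivAt h1]
  · simp [di_L_apply, ee_apply, mul_assoc]
  · simp [di_L_apply, ee_apply]
  · simp [di_L_apply, ee_apply]

lemma di_cd (P : ℂ →L[ℝ] ℝ) {F : ℂ → ℂ} (hF : DifferentiableOn ℂ F (ball 0 1)) {q : E}
    (hq : 0 < q 2) : ContDiffAt ℝ 3 (fun y => P (F (wq y))) q := by
  have h1 : ContDiffAt ℂ 3 F (wq q) :=
    (hF.analyticAt (isOpen_ball.mem_nhds (di_mem hq))).contDiffAt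
  exact P.contDiff.contDiffAt.comp q ((h1.restrict_scalars ℝ).comp q di_wq_cd.contDiffAt)

lemma di_v0 : v0 = fun y => Complex.reCLM (dif (wq y)) := by
  funext y; simp [v0, dif, Complex.log_re]

lemma di_A0 : A0 = fun y => (-Complex.imCLM) (dif (wq y)) := by
  funext y; simp [A0, dif, Complex.log_im]

theorem DI_proof : DIStmt := by
  obtain ⟨Li, h0, hLi, hreal⟩ := di_Li
  have hLd : DifferentiableOn ℂ Li (ball 0 1) := fun w hw =>
    (hLi w hw).differentiableAt.differentiableWithinAt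
  refine ⟨fun y => Complex.imCLM (Li (wq y)), fun q hq => ?_, fun t₀ ht₀ => ?_⟩
  · have hm := di_mem hq
    obtain ⟨w0, w1, w2⟩ := di_grad Complex.imCLM (hLi _ hm)
    obtain ⟨a0, a1, a2⟩ := di_grad (-Complex.imCLM) (di_f_hd hm)
    obtain ⟨b0, b1, b2⟩ := di_grad Complex.reCLM (di_f_hd hm)
    rw [← di_A0] at a0 a1 a2
    rw [← di_v0] at b0 b1 b2
    rw [di_dslope di_f0] at w0 w2
    refine ⟨di_cd _ hLd hq, di_v0 ▸ di_cd _ di_f_diff hq, di_A0 ▸ di_cd _ di_f_diff hq,
      ?_, w1, ?_, ?_, b1, ?_, a1, ?_, fun hs => ?_⟩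
    · rw [w0, di_v0]; simp
    · rw [w2, di_A0]; simp
    · rw [b0, ← di_im, ← Complex.normSq_eq_norm_sq]
      have hn : Complex.normSq (1 - wq q) ≠ 0 := by simpa using di_ne hm
      simp only [Complex.reCLM_apply, Complex.mul_re, Complex.I_re, Complex.I_im, mul_zero,
        mul_one, zero_sub, Complex.mul_im, one_div, Complex.inv_re, Complex.inv_im,
        Complex.sub_re, Complex.sub_im, Complex.one_re, Complex.one_im]
      field_simp
      ring
    · rw [a0, b2]; simp
    · rw [a2, b0]; simp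
    · have him : (wq q).im = 0 := by rw [di_im, hs, mul_zero]
      have hre : wq q = ((wq q).re : ℂ) := Complex.ext (by simp) (by simp [him])
      have hlt : |(wq q).re| < 1 :=
        (Complex.abs_re_le_norm _).trans_lt (by simpa using hm)
      refine ⟨?_, ?_⟩
      · change (Li (wq q)).im = 0
        rw [hre]; exact hreal _ hlt
      · rw [di_A0]
        simp only [ContinuousLinearMap.neg_apply, Complex.imCLM_apply, neg_eq_zero]
        rw [hre]; exact di_f_real (abs_lt.1 hlt).2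
  · have hr : Real.exp (-t₀) < 1 := Real.exp_lt_one_iff.2 (by linarith)
    have hh : DifferentiableOn ℂ (fun w : ℂ => 1 / (1 - w) * w) (ball 0 1) := fun w hw => by
      have := di_ne hw
      refine DifferentiableAt.differentiableWithinAt ?_
      fun_prop (disch := assumption)
    obtain ⟨C1, p1, hC1⟩ := di_bound hLd h0 hr
    obtain ⟨C2, p2, hC2⟩ := di_bound di_f_diff di_f0 hr
    obtain ⟨C3, p3, hC3⟩ := di_bound hh (by simp) hr
    refine ⟨C1 + C2 + C3, fun q hq => ?_⟩
    have hw : ‖wq q‖ ≤ Real.exp (-t₀) := by rw [di_norm]; exact Real.exp_le_exp.2 (by linarith)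
    have e1 := hC1 _ hw
    have e2 := hC2 _ hw
    have e3 := hC3 _ hw
    rw [di_norm] at e1 e2 e3
    have hE := Real.exp_pos (-q 2)
    obtain ⟨-, -, b2⟩ := di_grad Complex.reCLM (di_f_hd (di_mem (ht₀.trans_le hq)))
    rw [← di_v0] at b2
    refine ⟨?_, ?_, ?_, ?_⟩
    · have := Complex.abs_im_le_norm (Li (wq q))
      change |(Li (wq q)).im| ≤ _
      nlinarith
    · have := Complex.abs_re_le_norm (dif (wq q))
      rw [di_v0]
      simp only [Complex.reCLM_apply]
      nlinarith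
    · have := Complex.abs_im_le_norm (dif (wq q))
      rw [di_A0]
      simp only [ContinuousLinearMap.neg_apply, Complex.imCLM_apply, abs_neg]
      nlinarith
    · have := Complex.abs_re_le_norm (1 / (1 - wq q) * wq q)
      rw [b2, abs_neg, Complex.reCLM_apply]
      nlinarith

end Crest.Agent.R83
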