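import Crest.Agent.R83.H28Aux

/-! Row 83, task DL: density. -/

set_option autoImplicit false

noncomputable section

namespace Crest.Agent.R83

open MeasureTheory Set Filter Topology Metric Crest.AnalysisR.PDE.Calderon
open scoped Gradient RealInnerProductSpace NNReal

theorem DL_proof (hML : MLStmt) : DLStmt := by
  rintro γ u g C r hγ hC hu ⟨K, hK⟩ hr h0 ε hε
  obtain ⟨f, f1, f2, f3, f4⟩ := hML g K hK
  obtain ⟨U, hU0, hU⟩ := h28_grad_bdd hu.locallyLipschitz 3
  have du := hu.differentiable one_ne_zero
  have e : ∀ n x, ∇ (fun y => u y + f n y) x = ∇ u x + ∇ (f n) x := fun n x =>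
    grad_add (du x) ((f1 n).differentiable two_ne_zero x)
  have h1 : Tendsto (fun n => ballEnergy γ fun y => u y + f n y) atTop
      (𝓝 (ballEnergy γ fun y => u y + g y)) := by
    refine tendsto_integral_of_dominated_convergence (fun _ => C * (U + K) ^ 2)
      (fun n => (hγ.mul ((measurable_grad _).norm.pow_const 2)).aestronglyMeasurable)
      (integrableOn_const measure_ball_lt_top.ne) (fun n => ?_) (ae_restrict_of_ae ?_)
    · rw [ae_restrict_iff' measurableSet_ball]
      refine Eventually.of_forall fun x hx => ?_
      rw [norm_mul, norm_pow, norm_norm, e]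
      exact mul_le_mul (hC x) (pow_le_pow_left₀ (norm_nonneg _) ((norm_add_le _ _).trans
        (add_le_add (hU x (mem_ball_zero_iff.1 hx)) (f2 n x))) 2) (by positivity)
        ((abs_nonneg _).trans (hC x))
    · filter_upwards [f3, hK.ae_differentiableAt (μ := volume)] with x h1 h2
      simp only [e, grad_add (du x) h2]
      exact ((h1.const_add _).norm.pow 2).const_mul _
  obtain ⟨n, hn1, hn2⟩ := ((h1.eventually_lt_const (lt_add_of_pos_right _ hε)).and
    (tendsto_one_div_add_atTop_nhds_zero_nat.eventually_lt_const (sub_pos.2 hr))).exists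
  refine ⟨_, hu.add ((f1 n).of_le one_le_two), fun x hx => ?_, hn1⟩
  rw [f4 n x fun y hy => h0 y ?_, add_zero]
  have := norm_sub_norm_le x y
  rw [mem_closedBall, dist_comm, dist_eq_norm] at hy
  linarith

end Crest.Agent.R83
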