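import Mathlib
import Crest.Prelude.Def_Conductivity

/-!
# Row 83 (S0111): definitions and sub-task statements

Plan.  (1) *Gauge trick*: if `div (γ ∇c)` lives on a Cantor set on which all near-minimisers are
nearly constant, `γ` and `c² γ` have the same boundary energies (`AG1`, `AG2`).
(2) The Cantor set comes from a self-similar binary tree of compactly supported fields (`TR`),
built from one gadget (`GA`) = isotropic realisation (`RL`) of an anisotropic pre-gadget (`PA`),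
which is the pull-back by an explicit map (`PK`) of a model (`MD`): harmonic `log` fields in the middle
(`MG`) and three ports, in which one field is killed by a Miller cascade (`PM`).
Each `…Stmt` below is a task; its docstring says which other statements may be taken as hypotheses.
-/

set_option autoImplicit false

noncomputable section

namespace Crest.Agent.R83

open MeasureTheory Set Filter Topology Metric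
open scoped Gradient RealInnerProductSpace NNReal

abbrev E := EuclideanSpace ℝ (Fin 3)

/-- cross product -/
def cross (p q : E) : E :=
  !₂[p 1 * q 2 - p 2 * q 1, p 2 * q 0 - p 0 * q 2, p 0 * q 1 - p 1 * q 0]

/-- basis vectors -/
def ee (i : Fin 3) : E := EuclideanSpace.single i 1

/-- coordinate functions -/
def X (i : Fin 3) : E → ℝ := fun q => q i

def Lip (f : E → ℝ) : Prop := ∃ K : ℝ≥0, LipschitzWith K f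

/-- weakly divergence free (Lipschitz, compactly supported test functions) -/
def DivFree (k : E → E) : Prop :=
  ∀ φ : E → ℝ, Lip φ → HasCompactSupport φ → ∫ x, ⟪k x, ∇ φ x⟫ = 0

/-! ## A. Analysis toolkit -/

/-- **ML** (mollification; no hypotheses).  `fn n = ρₙ ⋆ f` with a normed `ContDiffBump` of outer radius
`< 1/(n+1)`.  `∇(ρ ⋆ f) = (∇ρ) ⋆ f = ρ ⋆ ∇f` coordinatewise by
`LipschitzWith.integral_lineDeriv_mul_eq` (+ Rademacher: `lineDeriv = fderiv` a.e.); a.e. convergence by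
`ContDiffBump.ae_convolution_tendsto_right_of_locallyIntegrable`; `ρ ⋆ f` is `K`-Lipschitz. -/
def MLStmt : Prop :=
  ∀ (f : E → ℝ) (K : ℝ≥0), LipschitzWith K f → ∃ fn : ℕ → E → ℝ,
    (∀ n, ContDiff ℝ 2 (fn n)) ∧ (∀ n x, ‖∇ (fn n) x‖ ≤ K) ∧
    (∀ᵐ x, Tendsto (fun n => ∇ (fn n) x) atTop (𝓝 (∇ f x))) ∧
    ∀ (n : ℕ) x, (∀ y ∈ closedBall x (1 / ((n : ℝ) + 1)), f y = 0) → fn n x = 0

/-- **NL** (null Lagrangian; hyp. `MLStmt`).  Multiply `F, G` by a bump equal to 1 near `tsupport φ` to make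
them globally Lipschitz (off `tsupport φ`, `∇φ = 0`).  For `C²` functions `F,G` the field
`∇F × ∇G` is `C¹` with zero divergence (symmetry of second derivatives): integrate by parts against the
Lipschitz `φ` (`LipschitzWith.integral_lineDeriv_mul_eq`, after cutting off).  Then dominated convergence with
the approximants from `ML`. -/
def NLStmt : Prop :=
  ∀ F G φ : E → ℝ, LocallyLipschitz F → LocallyLipschitz G → Lip φ → HasCompactSupport φ →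
    ∫ x, ⟪cross (∇ F x) (∇ G x), ∇ φ x⟫ = 0

/-- **ZL** (no hypotheses).  (a) For continuous `f` the zeros with nonzero derivative form a null set
(measurable by `measurable_fderiv`; either Lebesgue density `Besicovitch.ae_tendsto_measure_inter_div`
and a thin slab, or Fubini: on each line parallel to `ee i` the zeros with `∂ᵢ f ≠ 0` are isolated).
(b) follows from (a) for `f - g` and Rademacher (localise with `LocallyLipschitz`, or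
`LipschitzOnWith.extend_real` on a countable cover by balls); (c) is Rademacher for locally Lipschitz maps. -/
def ZLStmt : Prop :=
  (∀ f : E → ℝ, Continuous f → volume {x | f x = 0 ∧ fderiv ℝ f x ≠ 0} = 0) ∧
  (∀ f g : E → ℝ, LocallyLipschitz f → LocallyLipschitz g → ∀ᵐ x, f x = g x → ∇ f x = ∇ g x) ∧
  (∀ f : E → ℝ, LocallyLipschitz f → ∀ᵐ x, DifferentiableAt ℝ f x)

/-- **WL** (wall lemma; hyps `NLStmt`, `ZLStmt`).  Core: `F,G,φ ≥ 0` with `min(F,G,φ) = 0` on the floor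
`x 2 = 0`: a.e. `det(∇F,∇G,∇φ) = det(∇(F-φ),∇(G-φ),∇μ)`, `μ = min F (min G φ)` (by ZL `∇μ` is a.e. one of the three
gradients); `μ·1_{x 2 > 0}` is Lipschitz with compact support, apply NL.  Split signs
(`F = F⁺ - F⁻`, …) to get the case `F G φ = 0` on the floor.  Finally
`φ = Σ_{a,b} ψ_a(F) ψ_b(G) φ` with `ψ₀(s) = 1 - s/π`, `ψ₁(s) = s/π`, and use `F - π`, `G - π` when `a,b = 1`. -/
def WLStmt : Prop :=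
  ∀ F G φ : E → ℝ, LocallyLipschitz F → LocallyLipschitz G → Lip φ → HasCompactSupport φ →
    (∀ x : E, x 2 = 0 → φ x ≠ 0 → (F x = 0 ∨ F x = Real.pi) ∨ (G x = 0 ∨ G x = Real.pi)) →
    ∫ x in {x : E | 0 < x 2}, ⟪cross (∇ F x) (∇ G x), ∇ φ x⟫ = 0 ∧
    ∫ x in {x : E | x 2 < 0}, ⟪cross (∇ F x) (∇ G x), ∇ φ x⟫ = 0

/-- **GL** (gluing Lipschitz functions; no hypotheses).  For `x ∈ B i`, `y ∉ B i` in the convex set `S` the segment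
meets `frontier (B i)` in a point `x'`, which lies in no `B j` (open, disjoint); do the same from `y`'s side;
distances add up along the segment. -/
def GLStmt : Prop :=
  ∀ (ι : Type) (S : Set E) (B : ι → Set E) (u w : E → ℝ) (v : ι → E → ℝ) (K : ℝ≥0),
    Convex ℝ S → (∀ i, IsOpen (B i)) → Pairwise (fun i j => Disjoint (B i) (B j)) →
    LipschitzOnWith K u (S \ ⋃ i, B i) → (∀ i, LipschitzOnWith K (v i) (S ∩ closure (B i))) →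
    (∀ i, ∀ x ∈ S ∩ frontier (B i), v i x = u x) →
    (∀ i, ∀ x ∈ S ∩ B i, w x = v i x) → (∀ x ∈ S \ ⋃ i, B i, w x = u x) →
    LipschitzOnWith K w S

/-- **FL** (Friedrichs; may use `GLStmt`, `ZLStmt`).  `g = f·1_{ball}` is Lipschitz with compact support;
`∫ g² = -∫ 2 x₀ g ∂₀ g` (`LipschitzWith.integral_lineDeriv_mul_eq` with a cut-off coordinate), Cauchy–Schwarz. -/
def FLStmt : Prop :=
  ∀ f : E → ℝ, LocallyLipschitz f → (∀ x : E, ‖x‖ = 3 → f x = 0) →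
    ∫ x in ball (0 : E) 3, f x ^ 2 ≤ 36 * ∫ x in ball (0 : E) 3, ‖∇ f x‖ ^ 2

open Crest.AnalysisR.PDE.Calderon in
/-- **DL** (density; hyps `MLStmt`, `ZLStmt`).  `w = u + gₙ`, dominated convergence. -/
def DLStmt : Prop :=
  ∀ (γ u g : E → ℝ) (C r : ℝ), Measurable γ → (∀ x, |γ x| ≤ C) → ContDiff ℝ 1 u → Lip g → r < 3 →
    (∀ x : E, r ≤ ‖x‖ → g x = 0) → ∀ ε : ℝ, 0 < ε →
    ∃ w : E → ℝ, ContDiff ℝ 1 w ∧ (∀ x : E, ‖x‖ = 3 → w x = u x) ∧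
      ballEnergy γ w < ballEnergy γ (fun x => u x + g x) + ε

/-- `κ` is `C¹` at a.e. point of `Ω`, with `σ · det ≥ d` and derivative bounded by `K`. -/
def QC (σ d K : ℝ) (κ : E → E) (Ω : Set E) : Prop :=
  ∀ᵐ x, x ∈ Ω → ContDiffAt ℝ 1 κ x ∧ d ≤ σ * (fderiv ℝ κ x).det ∧ ‖fderiv ℝ κ x‖ ≤ K

/-- **NP** (null preimages, composition of `QC`; no hypotheses).  Inverse function theorem
(`ContDiffAt.toOpenPartialHomeomorph`, local inverse `C¹` near the image point),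
`addHaar_image_eq_zero_of_differentiableOn_of_addHaar_eq_zero`, and a countable subcover
(`measure_null_of_locally_null`).  (b): chain rule, `det_comp`, and (a). -/
def NPStmt : Prop :=
  (∀ (κ : E → E) (Z : Set E), volume Z = 0 →
    ∀ᵐ x, ContDiffAt ℝ 1 κ x → (fderiv ℝ κ x).det ≠ 0 → κ x ∉ Z) ∧
  ∀ (σ₁ σ₂ d₁ d₂ K₁ K₂ : ℝ) (κ₁ κ₂ : E → E) (Ω₁ Ω₂ : Set E), 0 < d₁ → 0 < d₂ →
    QC σ₁ d₁ K₁ κ₁ Ω₁ → QC σ₂ d₂ K₂ κ₂ Ω₂ → MapsTo κ₁ Ω₁ Ω₂ →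
    QC (σ₁ * σ₂) (d₁ * d₂) (K₁ * K₂) (κ₂ ∘ κ₁) Ω₁

/-- **ST** (transport under a similarity `T x = s⁻¹ • R (x - b)`; no hypotheses). -/
def STStmt : Prop :=
  ∀ (R : E ≃ₗᵢ[ℝ] E) (s : ℝ) (b : E) (T : E → E), 0 < s → (∀ x, T x = s⁻¹ • R (x - b)) →
    (∀ f : E → ℝ, ∫ x, f (T x) = s ^ 3 * ∫ y, f y) ∧
    (∀ f : E → ℝ, Integrable f → Integrable (fun x => f (T x))) ∧
    (∀ (f : E → ℝ) (x : E), ∇ (fun x => f (T x)) x = s⁻¹ • R.symm (∇ f (T x))) ∧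
    (∀ p : E → Prop, (∀ᵐ y, p y) → ∀ᵐ x, p (T x)) ∧
    (∀ k : E → E, DivFree k → DivFree (fun x => R.symm (k (T x)))) ∧
    (∀ (f : E → ℝ) (K : ℝ≥0), LipschitzWith K f → LipschitzWith K (fun x => s * f (T x)))

/-! ## B. Isotropic realisation -/

/-- A perturbation `(w, k)` of a field/flux pair, supported in `Ω`. -/
structure Pert (Ω : Set E) (K : ℝ≥0) (w : E → ℝ) (k : E → E) : Prop where
  lip : LipschitzWith K w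
  w0 : ∀ x, x ∉ Ω → w x = 0
  meas : Measurable k
  bdd : ∀ᵐ x, ‖k x‖ ≤ K
  k0 : ∀ x, x ∉ Ω → k x = 0
  div : DivFree k

/-- The constant conductivity `A` can be replaced on `Ω` by a scalar one, exactly for affine fields. -/
def Realizable (A : E → E) (M : ℝ≥0) (Ω : Set E) : Prop :=
  ∃ γ : E → ℝ, (∀ x, 1 ≤ (M : ℝ) * γ x ∧ γ x ≤ M) ∧ ∀ p : E, ∃ (w : E → ℝ) (k : E → E),
    Pert Ω (M * ‖p‖₊) w k ∧ ∀ᵐ x, x ∈ Ω → A p + k x = γ x • (p + ∇ w x)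

def RealAll (A : E → E) (M : ℝ≥0) : Prop :=
  ∀ Ω : Set E, IsOpen Ω → Bornology.IsBounded Ω → Realizable A M Ω

def diag (l : Fin 3 → ℝ) (p : E) : E := WithLp.toLp 2 fun i => l i * p i

/-- open ellipsoid with squared semi-axes `d i + s` -/
def ell (d : Fin 3 → ℝ) (s : ℝ) : Set E := {x | ∑ i, x i ^ 2 / (d i + s) < 1}

def PP (d : Fin 3 → ℝ) (s : ℝ) : ℝ := 2 / √((d 0 + s) * (d 1 + s) * (d 2 + s))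

def GG (d : Fin 3 → ℝ) (ρe : ℝ) (i : Fin 3) : ℝ :=
  ∫ s in (0 : ℝ)..ρe, 1 / ((d i + s) * √((d 0 + s) * (d 1 + s) * (d 2 + s)))

/-- effective conductivities of the coated ellipsoid with shell `γ` and core `γ (1 + β i)` -/
def lamOf (d : Fin 3 → ℝ) (ρe γ : ℝ) (β : Fin 3 → ℝ) (i : Fin 3) : ℝ :=
  γ * (1 + PP d ρe * β i / (PP d 0 + β i * GG d ρe i))

/-- **FI** (filling; hyps `GLStmt`, `STStmt` with `R = refl`).  `T = diag √(d i + s)` maps the unit ball onto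
`ell d s`.  Cover `T⁻¹ Ω` a.e. by countably many disjoint closed balls inside it
(`Besicovitch.exists_disjoint_closedBall_covering_ae`, spheres are null), rescale the patch to each
`T(ball)`: `r • w((x - c)/r)`, `k((x - c)/r)`, `γ((x - c)/r)`; glue `w` with GL (`u = 0`), sum the fluxes
(`integral_iUnion`/`hasSum_integral_iUnion`). -/
def FIStmt : Prop :=
  ∀ (A : E → E) (M : ℝ≥0) (d : Fin 3 → ℝ) (s : ℝ), (∀ i, 0 < d i + s) →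
    Realizable A M (ell d s) → RealAll A M

/-- **RO** (rotation; hyp `STStmt` with `s = 1`, `b = 0`) -/
def ROStmt : Prop :=
  ∀ (A : E → E) (M : ℝ≥0) (R : E ≃ₗᵢ[ℝ] E), RealAll A M → RealAll (fun p => R (A (R.symm p))) M

/-- **SI1** (confocal coordinate; no hypotheses, may use `GLStmt`).  `ρ(x) ∈ [0,ρe]` = root of
`Σ xᵢ²/(dᵢ+ρ) = 1` in the closed shell, `0` on the core, `ρe` outside; it is Lipschitz (two-point estimate: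
`-∂_ρ ≥ c` on the shell) and in the open shell `∇ρ = 2y/|y|²`, `yᵢ = xᵢ/(dᵢ+ρ)`.
`g l ρ = ∫_ρ^{ρe} ds/((d l + s)√Π)`, `f l x = x l * g l (ρ x)` (vanishes outside, so globally Lipschitz).
`∇ f l = g l • e_l - (2 y_l/(√Π |y|²)) • y` and `g 0 + g 1 + g 2 = PP d ρ - PP d ρe` (FTC, `Π'/Π^{3/2}`) give the
cross-product identities by `ring`. -/
def SI1Stmt : Prop :=
  ∀ (d : Fin 3 → ℝ) (ρe : ℝ), (∀ i, 0 < d i) → 0 < ρe →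
    GG d ρe 0 + GG d ρe 1 + GG d ρe 2 = PP d 0 - PP d ρe ∧
    ∃ f : Fin 3 → E → ℝ, (∀ l, Lip (f l)) ∧ (∀ l x, x ∉ ell d ρe → f l x = 0) ∧
      (∀ l, ∀ x ∈ ell d 0, f l x = GG d ρe l * x l) ∧
      ∀ x ∈ ell d ρe, 1 < ∑ i, x i ^ 2 / (d i + 0) → ∀ l : Fin 3,
        ∇ (f l) x + PP d ρe • ee l + cross (∇ (f (l + 1)) x) (ee (l + 2))
          + cross (ee (l + 1)) (∇ (f (l + 2)) x) = 0

/-- **SI2** (coated ellipsoid; hyps `SI1Stmt`, `NLStmt`).  `B i = -β i/(PP d 0 + β i * GG i)`.  For `p`: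
`w₀ = Σ pᵢ Bᵢ fᵢ`, `k₀ = -γ Σ pᵢ Bᵢ (∇f_{i+1} × e_{i+2} + e_{i+1} × ∇f_{i+2})` (times the indicator of `ell d ρe`; frontier of a convex
set is null: `Convex.addHaar_frontier`); div-free by NL with coordinate functions.  In the shell
`diag λ p + k₀ = γ (p + ∇w₀)`; in the core `p + ∇w₀ = p' := (pᵢ(1 + Bᵢ Gᵢ))`, `‖p'‖ ≤ ‖p‖`, and
`diag λ p + k₀ = diag (γ(1+β)) p'`.  Add the perturbation of the core given by `RealAll` for `p'`. -/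
def SI2Stmt : Prop :=
  ∀ (d : Fin 3 → ℝ) (ρe βm : ℝ) (M' : ℝ≥0), (∀ i, 0 < d i) → 0 < ρe → ∃ M : ℝ≥0,
    ∀ (γ : ℝ) (β : Fin 3 → ℝ), 1 ≤ (M' : ℝ) * γ → γ ≤ M' → (∀ i, 0 ≤ β i ∧ β i ≤ βm) →
      RealAll (diag fun i => γ * (1 + β i)) M' → Realizable (diag (lamOf d ρe γ β)) M (ell d ρe)

/-- **SP** (parameters; hyp `SI1Stmt` for `ΣG = P₀ - P_e`).  `d = (δ²,1,1)`, `ρe = 3δ²`, `δ² ≤ 1/12`, `δ² ≤ 1/(19K)`,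
`βm = 1/δ²`.  `P₀ = 2/δ`, `P_e = 1/(δ(1+3δ²))`, `0 ≤ G₁ = G₂ ≤ 3δ`, so `G₀ ≥ P₀/4`.
`hᵢ(β) = 1 + P_e β/(P₀ + β Gᵢ)`; `h₀ ≤ 3`, `h₁(βm) ≥ 0.16/δ²`.  IVT for `h₀/h₁ = λ₀/λ₂` on `[0,βm]`,
`γ = λ₂/h₁(β)`, IVT for `h₁(β') = λ₁/γ ∈ [1, h₁ β]` on `[0,β]`. -/
def SPStmt : Prop :=
  ∀ K : ℝ, 1 ≤ K → ∃ δ βm : ℝ, 0 < δ ∧ 0 ≤ βm ∧ ∀ l : Fin 3 → ℝ, 0 < l 0 → l 0 ≤ l 1 → l 1 ≤ l 2 →
    l 2 ≤ K * l 0 → ∃ γ β β' : ℝ, 0 ≤ β' ∧ β' ≤ β ∧ β ≤ βm ∧ γ ≤ l 0 ∧ l 0 ≤ (1 + βm) * γ ∧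
      (l 1 = l 2 → β' = β) ∧ lamOf ![δ ^ 2, 1, 1] (3 * δ ^ 2) γ ![β, β', β] = l

/-- **RA** (hyps `SPStmt`, `SI2Stmt`, `FIStmt`, `ROStmt`).  Scalars are trivially realisable (`w = k = 0`).
Level 2: `diag (a,b,b)`, `a ≤ b`: SP gives `β' = β`, scalar core.  Level 1: sorted `l`: the core is
`diag (κ,κ',κ)`, `κ' ≤ κ ≤ (1+βm) κ'`, a coordinate swap (RO) of level 2.  General `l`: sort by a
coordinate permutation (`LinearIsometryEquiv.piLpCongrLeft`).  `RealAll` is monotone in `M`. -/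
def RAStmt : Prop :=
  ∀ Λ : ℝ, ∃ M : ℝ≥0, 1 ≤ M ∧ ∀ (l : Fin 3 → ℝ) (R : E ≃ₗᵢ[ℝ] E), (∀ i, 1 ≤ Λ * l i ∧ 0 < l i ∧ l i ≤ Λ) →
    RealAll (fun p => R (diag l (R.symm p))) M

/-- strict ellipticity of a pair of gradients and fluxes (forces rank two) -/
def Ell (Λ : ℝ) (p₁ p₂ j₁ j₂ : E) : Prop :=
  0 < Λ ∧ ∀ a b : ℝ, (a ≠ 0 ∨ b ≠ 0) →
    ‖a • p₁ + b • p₂‖ ^ 2 + ‖a • j₁ + b • j₂‖ ^ 2 < Λ * ⟪a • p₁ + b • p₂, a • j₁ + b • j₂⟫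

/-- **EA** (no hypotheses).  Gram–Schmidt for the positive form `⟪p,j⟫`: combinations with
`⟪p̃_a, j̃_b⟫ = δ_ab`; `n` a unit normal to `p₁,p₂`; `A ξ = Σ ⟪j̃_a,ξ⟫ j̃_a + ⟪n,ξ⟫ n` is symmetric, `A pᵢ = jᵢ`,
`⟪ξ,Aξ⟫ ≤ (2Λ+1)|ξ|²`, `|ξ|² ≤ (4Λ²+2Λ+1)⟪ξ,Aξ⟫` (write `ξ = x₁p̃₁ + x₂p̃₂ + τ n`); diagonalise with
`LinearMap.IsSymmetric.eigenvectorBasis`. -/
def EAStmt : Prop :=
  ∀ Λ : ℝ, ∃ Λ' : ℝ, ∀ p₁ p₂ j₁ j₂ : E, ⟪p₁, j₂⟫ = ⟪p₂, j₁⟫ → Ell Λ p₁ p₂ j₁ j₂ →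
    ∃ (l : Fin 3 → ℝ) (R : E ≃ₗᵢ[ℝ] E), (∀ i, 1 ≤ Λ' * l i ∧ 0 < l i ∧ l i ≤ Λ') ∧
      R (diag l (R.symm p₁)) = j₁ ∧ R (diag l (R.symm p₂)) = j₂

def J1 (v₁ v₂ α β : E → ℝ) (y : E) : E := cross (∇ β y) (∇ v₁ y) - cross (∇ α y) (∇ v₂ y)
def J2 (v₁ v₂ β δ : E → ℝ) (y : E) : E := cross (∇ δ y) (∇ v₁ y) - cross (∇ β y) (∇ v₂ y)

/-- Near `x` the fields `u i` with fluxes `j i` are combinations of a rank-two elliptic pair generated by five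
`C¹` potentials (such a pair is automatically symmetric and divergence free). -/
def Good {ι : Type} (Λ : ℝ) (u : ι → E → ℝ) (j : ι → E → E) (x : E) : Prop :=
  ∃ v₁ v₂ α β δ : E → ℝ, ContDiffAt ℝ 1 v₁ x ∧ ContDiffAt ℝ 1 v₂ x ∧ ContDiffAt ℝ 1 α x ∧
    ContDiffAt ℝ 1 β x ∧ ContDiffAt ℝ 1 δ x ∧
    Ell Λ (∇ v₁ x) (∇ v₂ x) (J1 v₁ v₂ α β x) (J2 v₁ v₂ β δ x) ∧
    ∀ i, ∃ c₀ c₁ c₂ : ℝ, ∀ᶠ y in 𝓝 x, u i y = c₀ + c₁ * v₁ y + c₂ * v₂ y ∧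
      j i y = c₁ • J1 v₁ v₂ α β y + c₂ • J2 v₁ v₂ β δ y

/-- **GB** (basic facts on `Ell`, `Good`; no hypotheses): `Ell` is an open condition (it is positivity of a
binary quadratic form: `Q₁₁ > 0`, `Q₁₁Q₂₂ > Q₁₂²`), monotone in `Λ`; `Good` is open, monotone, stable under
linear recombination / local equality, and bounds the flux. -/
def GBStmt : Prop :=
  (∀ Λ : ℝ, IsOpen {z : E × E × E × E | Ell Λ z.1 z.2.1 z.2.2.1 z.2.2.2}) ∧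
  (∀ (ι : Type) [Finite ι] (Λ : ℝ) (u : ι → E → ℝ) (j : ι → E → E), IsOpen {x | Good Λ u j x}) ∧
  (∀ (ι : Type) (Λ Λ' : ℝ) (u : ι → E → ℝ) (j : ι → E → E) (x : E), Λ ≤ Λ' → Good Λ u j x →
    Good Λ' u j x) ∧
  (∀ (ι ι' : Type) [Fintype ι] (Λ : ℝ) (u : ι → E → ℝ) (j : ι → E → E) (u' : ι' → E → ℝ)
    (j' : ι' → E → E) (x : E), Good Λ u j x →
    (∀ i', ∃ (c : ℝ) (e : ι → ℝ), ∀ᶠ y in 𝓝 x,
      u' i' y = c + ∑ i, e i * u i y ∧ j' i' y = ∑ i, e i • j i y) → Good Λ u' j' x) ∧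
  (∀ (ι : Type) (Λ : ℝ) (u : ι → E → ℝ) (j : ι → E → E) (x : E), Good Λ u j x →
    0 < Λ ∧ ∀ i, ContDiffAt ℝ 1 (u i) x ∧ ‖j i x‖ ≤ Λ * ‖∇ (u i) x‖)

/-- **FT** (Taylor cut-off; no hypotheses).  `f' = f - χ((x - x₀)/r) (f - ℓ)`, `χ` a `ContDiffBump 0` with
`rIn = 1/2`, `rOut = 3/4`; `∇f' - ∇f(x₀) = (1-χ)(∇f - ∇f(x₀)) - (f - ℓ)∇χ/r`, `|f - ℓ| ≤ ω(r) r`. -/
def FTStmt : Prop :=
  ∀ (f : E → ℝ) (x₀ : E), ContDiffAt ℝ 1 f x₀ → ∀ ε : ℝ, 0 < ε → ∀ᶠ r in 𝓝[>] (0 : ℝ),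
    (∀ x ∈ closedBall x₀ r, ContDiffAt ℝ 1 f x) ∧ ∃ f' : E → ℝ,
      (∀ x ∈ closedBall x₀ r, ContDiffAt ℝ 1 f' x ∧ ‖∇ f' x - ∇ f x₀‖ ≤ ε) ∧
      (∀ x, x ∉ ball x₀ (3 * r / 4) → f' x = f x) ∧
      ∀ x ∈ closedBall x₀ (r / 2), f' x = f x₀ + ⟪∇ f x₀, x - x₀⟫

/-- all fluxes are a common scalar multiple of the gradients at `x` -/
def Final {ι : Type} (M : ℝ≥0) (u : ι → E → ℝ) (j : ι → E → E) (x : E) : Prop :=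
  ∃ γ : ℝ, 1 ≤ (M : ℝ) * γ ∧ γ ≤ M ∧ ∀ i, j i x = γ • ∇ (u i) x

/-- **OB** (one ball; hyps `FTStmt`, `EAStmt`, `RAStmt`, `NLStmt`, `GLStmt`, `GBStmt`, `ZLStmt`).  Flatten the five potentials with FT
(`ε` so small that, by openness/continuity, `Ell` and `‖c₁∇v₁' + c₂∇v₂'‖ < L` persist on the closed ball);
`u♭ = c₀ + c₁v₁' + c₂v₂'`, `j♭ = c₁J1' + c₂J2'` on the ball, unchanged outside; `j♭ - j` is div-free by NL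
(extend the potentials from the closed ball by `LipschitzOnWith.extend_real`).  On `ball x₀ (r/2)` the state is
constant, `j♭ = A ∇u♭` with `A` from EA; add the perturbations from RA for `p = ∇(u i) x₀`.
`u'` is `L`-Lipschitz on the annulus side, `(1+M₀)L`-Lipschitz inside; glue with GL.  `M = 1 + M₀ + |Λ|`, say. -/
def OBStmt : Prop :=
  ∀ Λ : ℝ, ∃ M : ℝ≥0, 1 ≤ M ∧ Λ ≤ M ∧ ∀ (ι : Type) [Finite ι] (u : ι → E → ℝ) (j : ι → E → E) (x₀ : E)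
    (L K : ℝ≥0), M * L ≤ K → (∀ i, LipschitzWith K (u i)) → (∀ i, Measurable (j i)) →
    Good Λ u j x₀ → (∀ i, ‖∇ (u i) x₀‖ < L) → ∀ᶠ r in 𝓝[>] (0 : ℝ),
      ∃ (u' : ι → E → ℝ) (j' : ι → E → E),
        (∀ i, LipschitzWith K (u' i) ∧ Measurable (j' i) ∧ DivFree (fun x => j' i x - j i x) ∧
          ∀ x, x ∉ ball x₀ r → u' i x = u i x ∧ j' i x = j i x) ∧
        (∀ x ∈ ball x₀ r, x ∉ closedBall x₀ (r / 2) → Good Λ u' j' x ∧ ∀ i, ‖∇ (u' i) x‖ < L) ∧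
        ∀ᵐ x, x ∈ ball x₀ (r / 2) → Final M u' j' x

/-- invariant of the exhaustion -/
def Inv {ι : Type} (Λ : ℝ) (L K : ℝ≥0) (u : ι → E → ℝ) (j : ι → E → E) (G : Set E) : Prop :=
  IsOpen G ∧ Bornology.IsBounded G ∧ (∀ i, LipschitzWith K (u i) ∧ Measurable (j i)) ∧
    ∀ x ∈ G, Good Λ u j x ∧ ∀ i, ‖∇ (u i) x‖ < L

/-- **RS** (one generation; hyps `OBStmt`, `GLStmt`, `GBStmt`).  Besicovitch with the admissible radii of OB and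
`closedBall ⊆ G`; glue (`u' = u'_B` on the open ball `B`, `u` elsewhere); `G'` = union of the open annuli,
`vol G' ≤ 7/8 vol G`; `Good`, `∇`, `Final` are local, so they transfer on the open balls; flux bounds from GB
and `Final`; `DivFree` of the countable disjoint sum by `hasSum_integral_iUnion`. -/
def RSStmt : Prop :=
  ∀ Λ : ℝ, ∃ M : ℝ≥0, 1 ≤ M ∧ ∀ (ι : Type) [Finite ι] (u : ι → E → ℝ) (j : ι → E → E) (G : Set E)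
    (L K : ℝ≥0), M * L ≤ K → Inv Λ L K u j G →
    ∃ (u' : ι → E → ℝ) (j' : ι → E → E) (G' : Set E), Inv Λ L K u' j' G' ∧ G' ⊆ G ∧
      volume G' ≤ 7 / 8 * volume G ∧
      (∀ i, DivFree (fun x => j' i x - j i x) ∧ (∀ x, x ∉ G → u' i x = u i x ∧ j' i x = j i x) ∧
        ∀ᵐ x, x ∈ G → ‖j i x‖ ≤ M * K ∧ ‖j' i x‖ ≤ M * K) ∧
      ∀ᵐ x, x ∈ G → x ∉ G' → Final M u' j' x

/-- **RL** (realisation lemma; hyps `RSStmt`, `ZLStmt`).  Iterate RS (`L` > the Lipschitz constants, `K = M L`).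
`Z = ⋂ Gₙ` is null; off `Z` the sequences `uⁿ`, `jⁿ` are eventually constant.  `u'` = McShane extension
(`LipschitzOnWith.extend_real`) of the limit from `Zᶜ`; `u' = uⁿ⁺¹` off `Gₙ₊₁`, so the gradients agree a.e. there (ZL).
`j'` = limit (`j` on `Z`); div-free by telescoping + dominated convergence.  A measurable `γ`: clamp of
`Σ⟪j' i,∇u' i⟫/Σ‖∇u' i‖²` to `[1/M, M]`. -/
def RLStmt : Prop :=
  ∀ Λ : ℝ, ∃ M : ℝ≥0, 1 ≤ M ∧ ∀ (ι : Type) [Finite ι] (u : ι → E → ℝ) (j : ι → E → E) (G : Set E),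
    IsOpen G → Bornology.IsBounded G → (∀ i, Lip (u i) ∧ Measurable (j i)) →
    (∀ x ∈ G, Good Λ u j x) →
    ∃ (u' : ι → E → ℝ) (j' : ι → E → E) (γ : E → ℝ) (C : ℝ), Measurable γ ∧
      (∀ x, 1 ≤ (M : ℝ) * γ x ∧ γ x ≤ M) ∧
      (∀ i, Lip (u' i) ∧ Measurable (j' i) ∧ DivFree (fun x => j' i x - j i x) ∧
        (∀ x, x ∉ G → u' i x = u i x ∧ j' i x = j i x) ∧ ∀ᵐ x, x ∈ G → ‖j' i x‖ ≤ C) ∧
      ∀ᵐ x, x ∈ G → ∀ i, j' i x = γ x • ∇ (u' i) x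

/-! ## C. Local potentials, pull-back -/

def dv (j : E → E) (y : E) : ℝ := ∑ i, fderiv ℝ j y (ee i) i

/-- **LF** (flat potentials; no hypotheses).  WLOG (bump) `j₁,j₂` globally `C¹`, identities on a cube around `y₀`.
With `j₁ = (a,b,c)`, `j₂ = (b,d,e)` and base point `y₀ = (s₀,s₁,s₂)`:
`α = ∫_{s₂}^{y₂} a(y₀',y₁,s) ds - ∫_{s₀}^{y₀'} c(s,y₁,s₂) ds`, `β = ∫_{s₂}^{y₂} b ds`,
`δ = ∫_{s₂}^{y₂} d ds - ∫_{s₁}^{y₁} e(y₀',s,s₂) ds`; the claim reads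
`j₁ = (∂₂α, ∂₂β, -∂₀α - ∂₁β)`, `j₂ = (∂₂β, ∂₂δ, -∂₀β - ∂₁δ)`.  Parametric integrals over `[0,1]` of `C¹` functions
are `C¹` (`intervalIntegral.hasFDerivAt_integral_of_dominated_of_fderiv_le`, continuity of the derivative). -/
def LFStmt : Prop :=
  ∀ (j₁ j₂ : E → E) (y₀ : E), ContDiffAt ℝ 1 j₁ y₀ → ContDiffAt ℝ 1 j₂ y₀ →
    (∀ᶠ y in 𝓝 y₀, dv j₁ y = 0 ∧ dv j₂ y = 0 ∧ j₁ y 1 = j₂ y 0) →
    ∃ α β δ : E → ℝ, ContDiffAt ℝ 1 α y₀ ∧ ContDiffAt ℝ 1 β y₀ ∧ ContDiffAt ℝ 1 δ y₀ ∧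
      ∀ᶠ y in 𝓝 y₀, j₁ y = J1 (X 0) (X 1) α β y ∧ j₂ y = J2 (X 0) (X 1) β δ y

def flux {n : ℕ} (F G : Fin n → E → ℝ) (x : E) : E := ∑ k, cross (∇ (F k) x) (∇ (G k) x)

/-- **CF** (cofactor algebra; no hypotheses): for `L : E →L E` there is a linear `cof` with
`(Lᵀp) × (Lᵀq) = cof (p × q)`, `⟪Lᵀ r, cof j⟫ = det L ⟪r,j⟫`, `‖cof j‖ ≤ 6‖L‖²‖j‖`; the determinant in coordinates;
and the chain rule for gradients. -/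
def CFStmt : Prop :=
  (∀ L : E →L[ℝ] E, ∃ cof : E →L[ℝ] E,
    (∀ p q, cross (L.adjoint p) (L.adjoint q) = cof (cross p q)) ∧
    (∀ r j, ⟪L.adjoint r, cof j⟫ = L.det * ⟪r, j⟫) ∧ ∀ j, ‖cof j‖ ≤ 6 * ‖L‖ ^ 2 * ‖j‖) ∧
  (∀ L : E →L[ℝ] E, L.det =
    L (ee 0) 0 * L (ee 1) 1 * L (ee 2) 2 - L (ee 0) 0 * L (ee 2) 1 * L (ee 1) 2
    - L (ee 1) 0 * L (ee 0) 1 * L (ee 2) 2 + L (ee 1) 0 * L (ee 2) 1 * L (ee 0) 2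
    + L (ee 2) 0 * L (ee 0) 1 * L (ee 1) 2 - L (ee 2) 0 * L (ee 1) 1 * L (ee 0) 2) ∧
  (∀ (f : E → ℝ) (κ : E → E) (x : E), DifferentiableAt ℝ κ x → DifferentiableAt ℝ f (κ x) →
    ∇ (fun y => f (κ y)) x = (fderiv ℝ κ x).adjoint (∇ f (κ x)))

/-- **LP** (local potentials; hyps `LFStmt`, `CFStmt`).  Chart `Φ = (u₁,u₂,⟪n,·⟫)`, `n = ∇u₁ × ∇u₂ (x) ≠ 0` by `Ell`;
`C²` local inverse `Ψ` (`ContDiffAt.to_localInverse`).  `ĵ = flux (F∘Ψ) (G∘Ψ)` is `C¹`, div-free (symmetry of second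
derivatives), symmetric by CF.  LF gives `α̂,β̂,δ̂`; compose with `Φ`; both sides transform by `cof (DΦ)`. -/
def LPStmt : Prop :=
  ∀ (n : ℕ) (Λ : ℝ) (u₁ u₂ : E → ℝ) (F₁ G₁ F₂ G₂ : Fin n → E → ℝ) (x : E),
    ContDiffAt ℝ 2 u₁ x → ContDiffAt ℝ 2 u₂ x →
    (∀ k, ContDiffAt ℝ 2 (F₁ k) x ∧ ContDiffAt ℝ 2 (G₁ k) x ∧ ContDiffAt ℝ 2 (F₂ k) x ∧
      ContDiffAt ℝ 2 (G₂ k) x) →
    (∀ᶠ y in 𝓝 x, ⟪∇ u₁ y, flux F₂ G₂ y⟫ = ⟪∇ u₂ y, flux F₁ G₁ y⟫) →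
    Ell Λ (∇ u₁ x) (∇ u₂ x) (flux F₁ G₁ x) (flux F₂ G₂ x) →
    Good Λ ![u₁, u₂] ![flux F₁ G₁, flux F₂ G₂] x

/-- `Good` for fluxes given by `C¹` potentials, with an orientation sign `s` -/
def DGood {ι : Type} {n : ℕ} (Λ s : ℝ) (u : ι → E → ℝ) (F G : ι → Fin n → E → ℝ) (x : E) : Prop :=
  Good Λ u (fun i y => s • flux (F i) (G i) y) x ∧
    ∀ i k, ContDiffAt ℝ 1 (F i k) x ∧ ContDiffAt ℝ 1 (G i k) x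

/-- **PB** (pull-back; hyp `CFStmt`).  New potentials `v∘κ`, `σ α∘κ`, `σ β∘κ`, `σ δ∘κ`; gradients transform by `Lᵀ`,
fluxes by `σ cof L` at every point near `x`; `Λ' = |Λ| (1 + K² + 36 K⁴)/d`. -/
def PBStmt : Prop :=
  ∀ Λ d K : ℝ, 0 < d → ∃ Λ' : ℝ, ∀ (ι : Type) [Finite ι] (n : ℕ) (s σ : ℝ) (u : ι → E → ℝ)
    (F G : ι → Fin n → E → ℝ) (κ : E → E) (x : E), (σ = 1 ∨ σ = -1) → ContDiffAt ℝ 1 κ x →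
    d ≤ σ * (fderiv ℝ κ x).det → ‖fderiv ℝ κ x‖ ≤ K → DGood Λ s u F G (κ x) →
    DGood Λ' (σ * s) (fun i y => u i (κ y)) (fun i k y => F i k (κ y)) (fun i k y => G i k (κ y)) x

/-! ## D. The model.  Port coordinates `q = (x, y, t)`. -/

def pmU (v : E → ℝ) : Fin 2 → E → ℝ := ![X 2, v]
def pmF (F₁ F₂ g : E → ℝ) : Fin 2 → Fin 3 → E → ℝ := ![![X 0, 0, 0], ![F₁, F₂, g]]
def pmG : Fin 2 → Fin 3 → E → ℝ := ![![X 1, 0, 0], ![X 1, X 0, X 2]]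

/-- background `t` with flux `e_t`; second field `v` with flux
`∇F₁ × e_y + ∇F₂ × e_x + ∇g × e_t = (-∂_tF₁ + ∂_y g, ∂_tF₂ - ∂_x g, ∂_xF₁ - ∂_yF₂)` -/
def T1ok (Λ : ℝ) (v F₁ F₂ g : E → ℝ) (q : E) : Prop :=
  ContDiffAt ℝ 2 v q ∧ ContDiffAt ℝ 2 F₁ q ∧ ContDiffAt ℝ 2 F₂ q ∧ ContDiffAt ℝ 2 g q ∧
  (∀ᶠ y in 𝓝 q, ∇ F₁ y 0 - ∇ F₂ y 1 = ∇ v y 2) ∧
  (∇ v q 0) ^ 2 + (∇ v q 1) ^ 2 + (-∇ F₁ q 2 + ∇ g q 1) ^ 2 + (∇ F₂ q 2 - ∇ g q 0) ^ 2 <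
    Λ * (∇ v q 0 * (-∇ F₁ q 2 + ∇ g q 1) + ∇ v q 1 * (∇ F₂ q 2 - ∇ g q 0))

/-- **T1** (hyp `LPStmt`).  (a) LP; (b) dummy second field: `v₁ = t`, `v₂ = x`, `α = δ = y`, `β = 0`;
(c) the algebraic inequality used in TM, FS. -/
def T1Stmt : Prop :=
  (∀ (Λ : ℝ) (v F₁ F₂ g : E → ℝ) (q : E), 2 < Λ → T1ok Λ v F₁ F₂ g q →
    DGood Λ 1 (pmU v) (pmF F₁ F₂ g) pmG q) ∧
  (∀ (Λ : ℝ) (v F₁ F₂ g : E → ℝ) (q : E), 2 < Λ →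
    (∀ᶠ y in 𝓝 q, v y = 0 ∧ F₁ y = 0 ∧ F₂ y = 0 ∧ g y = 0) →
    DGood Λ 1 (pmU v) (pmF F₁ F₂ g) pmG q) ∧
  ∀ vx vy ka kb dx dy : ℝ, 1 / 32 ≤ ka → ka ≤ 1 → 1 / 32 ≤ kb → kb ≤ 1 →
    |dx| + |dy| ≤ (|vx| + |vy|) / 128 → vy ≠ 0 →
    vx ^ 2 + vy ^ 2 + (ka * vx + dx) ^ 2 + (kb * vy + dy) ^ 2 <
      300 * (vx * (ka * vx + dx) + vy * (kb * vy + dy))

/-- swap of the first two coordinates -/
def sw (p : E) : E := !₂[p 1, p 0, p 2]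

/-- **TM** (two modes; hyp `T1Stmt` part (c)).  (a) old mode `a(t) cos(nx)`, new mode `b(t) cos(2ny)`:
`j_x = ka v_x - (ra/n) sin(nx)(1 - cos 4ny) - rb cos(2ny) sin(2nx)/(2n)`,
`j_y = kb v_y - (rb/2n) sin(2ny)(1 - cos 2nx) - ra cos(nx) sin(4ny)/(4n)`; the `rb` terms are `≤ 2|rb||sin nx|/n ≤ |v_x|/128`,
the `ra` terms `≤ (5/2)|ra||sin 2ny|/n ≤ |v_y|/128`.  (b) swap symmetry, (c) locality, (d) scaling + translation in `t`. -/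
def TMStmt : Prop :=
  (∀ (a a₁ ra b b₁ rb : ℝ → ℝ) (n ka kb : ℝ) (q : E), 0 < n →
    ContDiffAt ℝ 2 a (q 2) → ContDiffAt ℝ 2 a₁ (q 2) → ContDiffAt ℝ 2 ra (q 2) →
    ContDiffAt ℝ 2 b (q 2) → ContDiffAt ℝ 2 b₁ (q 2) → ContDiffAt ℝ 2 rb (q 2) →
    (∀ s, HasDerivAt a (a₁ s) s) → (∀ s, HasDerivAt b (b₁ s) s) →
    HasDerivAt a₁ (n ^ 2 * ka * a (q 2) + ra (q 2)) (q 2) →
    HasDerivAt b₁ (4 * n ^ 2 * kb * b (q 2) + rb (q 2)) (q 2) →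
    1 / 32 ≤ ka → ka ≤ 1 → 1 / 32 ≤ kb → kb ≤ 1 →
    256 * |rb (q 2)| ≤ n ^ 2 * a (q 2) → 160 * |ra (q 2)| ≤ n ^ 2 * b (q 2) → 0 < b (q 2) →
    Real.sin (2 * n * q 1) ≠ 0 →
    T1ok 300 (fun y => a (y 2) * Real.cos (n * y 0) + b (y 2) * Real.cos (2 * n * y 1))
      (fun y => a₁ (y 2) * Real.sin (n * y 0) / n)
      (fun y => -(b₁ (y 2) * Real.sin (2 * n * y 1) / (2 * n)))
      (fun y => (ra (y 2) * Real.sin (n * y 0) * Real.sin (4 * n * y 1)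
        - rb (y 2) * Real.sin (2 * n * y 1) * Real.sin (2 * n * y 0)) / (4 * n ^ 2)) q) ∧
  (∀ (Λ : ℝ) (v F₁ F₂ g : E → ℝ) (q : E), T1ok Λ v F₁ F₂ g (sw q) →
    T1ok Λ (fun y => v (sw y)) (fun y => -F₂ (sw y)) (fun y => -F₁ (sw y)) (fun y => -g (sw y)) q) ∧
  (∀ (Λ : ℝ) (v F₁ F₂ g v' F₁' F₂' g' : E → ℝ) (q : E), T1ok Λ v F₁ F₂ g q →
    (∀ᶠ y in 𝓝 q, v' y = v y ∧ F₁' y = F₁ y ∧ F₂' y = F₂ y ∧ g' y = g y) → T1ok Λ v' F₁' F₂' g' q) ∧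
  ∀ (Λ ε : ℝ) (b : E) (v F₁ F₂ g : E → ℝ) (q : E), ε ≠ 0 → T1ok Λ v F₁ F₂ g (q - b) →
    T1ok Λ (fun y => ε * v (y - b)) (fun y => ε * F₁ (y - b)) (fun y => ε * F₂ (y - b))
      (fun y => ε * g (y - b)) q

/-- birth profile -/
def b0 (t : ℝ) : ℝ := Real.smoothTransition t * Real.exp (-t / 4)

/-- **CP** (life profile of one mode; no hypotheses).  `χ = Real.smoothTransition`, `C ≥ |χ''| + 2|χ'|`,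
`δ ≤ min(1/4, 1/(2048 C))`, `Δ ≥ 1/2` with `160 C e^{-Δ/2} ≤ δ`, `τa = 2Δ+2 ≥ τ₀`, `τ₁ = τa + 24`, `τd = τ₁ + Δ`, `τe = τd + 1`,
`φ τ = τ/4 + ((τ-τa)₊² - (τ-τ₁)₊²)/64`, `B τ = χ(τ) χ(τe - τ) e^{-φ τ}`, `q = δ e^{-φ τ₁}`, `B₁ = B'`,
`rb = (χ'' - χ'/2) e^{-τ/4}`, `rd = (χ̃'' - 2χ̃') e^{-φ τ₁} e^{-(τ-τ₁)}` (`χ̃ = χ(τe - ·)`),
`k = 1/16, φ'² - 1/32, 1` on the three pieces, `D = {τa, τ₁}`. -/
def CPStmt : Prop :=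
  ∀ τ₀ : ℝ, 1 ≤ τ₀ → ∃ (B B₁ rb rd k : ℝ → ℝ) (τ₁ q : ℝ) (D : Finset ℝ) (K : ℝ≥0),
    τ₀ ≤ τ₁ ∧ 0 < q ∧ q ≤ 1 / 4 ∧
    (∀ f ∈ [B, B₁, rb, rd], LipschitzWith K f ∧ (∀ τ, |f τ| ≤ K) ∧ (∀ τ, τ ≤ 0 → f τ = 0) ∧
      (∀ τ, 3 * τ₁ / 2 ≤ τ → f τ = 0) ∧ ∀ τ, τ ∉ D → ContDiffAt ℝ 2 f τ) ∧
    (∀ τ, 1 ≤ τ → rb τ = 0) ∧ (∀ τ, τ ≤ τ₁ → rd τ = 0) ∧
    (∀ τ, 0 < τ → τ ≤ τ₁ → 0 < B τ) ∧
    (∀ τ, τ ≤ τ₀ → B τ = b0 τ ∧ B₁ τ = deriv b0 τ) ∧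
    (∀ τ, HasDerivAt B (B₁ τ) τ) ∧
    (∀ τ, τ ∉ D → HasDerivAt B₁ (k τ * B τ + rb τ + rd τ) τ) ∧ (∀ τ, 1 / 32 ≤ k τ ∧ k τ ≤ 1) ∧
    ∀ τ, 0 ≤ τ → τ ≤ τ₁ →
      1024 * q * |rb τ| ≤ B (τ₁ + τ / 2) ∧ 160 * |rd (τ₁ + τ / 2)| ≤ q * B τ

/-- **CA** (the cascade; hyps `CPStmt`, `TMStmt`).  Stage `St` (old mode in `y`, frequency 1):
`v = B(t) cos y`, `F₁ = 0`, `F₂ = -B₁(t) sin y`, `g = q rb(2(t-τ₁)) sin 2x sin 2y - rd(t) sin y sin(4x)/4`.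
Swap `Sw (v,F₁,F₂,g) = (v∘sw, -F₂∘sw, -F₁∘sw, -g∘sw)`.  Total = `Σ_k q^k (Sw^k St)(2^k x, 2^k y, τ_k)`,
`τ_k = 2^k (t - s_k)`, `s_k = τ₁(2 - 2^{1-k})`, `τ_{k+1} = 2(τ_k - τ₁)`, `T = 2τ₁`.  Term `k` is `C (2q)^k`-Lipschitz, so the `tsum` is
Lipschitz.  For `t ∈ (s_k, s_{k+1})` only terms `k-1, k` are non-zero near `q`, and TM(a) applies with `n = 2^{k-1}` (TM(b)
for odd `k`; `a = 0`, `n = 1/2` for `k = 0`).  Exceptional null set: `t ∈ {s_k, T} ∪ τ_k⁻¹ D`, `sin(2^k x) sin(2^k y) = 0`. -/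
def CAStmt : Prop :=
  ∀ τ₀ : ℝ, 1 ≤ τ₀ → ∃ (T : ℝ) (v F₁ F₂ g : E → ℝ), τ₀ < T ∧ Lip v ∧ Lip F₁ ∧ Lip F₂ ∧ Lip g ∧
    (∀ q : E, T ≤ q 2 → v q = 0 ∧ F₁ q = 0 ∧ F₂ q = 0 ∧ g q = 0) ∧
    (∀ q : E, Real.sin (q 0) = 0 → F₁ q = 0 ∧ g q = 0) ∧
    (∀ q : E, Real.sin (q 1) = 0 → F₂ q = 0 ∧ g q = 0) ∧
    (∀ q : E, q 2 ≤ τ₀ → v q = b0 (q 2) * Real.cos (q 1) ∧ F₁ q = 0 ∧
      F₂ q = -(deriv b0 (q 2) * Real.sin (q 1)) ∧ g q = 0) ∧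
    ∀ᵐ q : E, τ₀ < q 2 → q 2 < T → T1ok 300 v F₁ F₂ g q

def wq (q : E) : ℂ := Complex.exp (-(q 2 : ℂ) + (q 0 : ℂ) * Complex.I)
def v0 (q : E) : ℝ := -Real.log ‖1 - wq q‖
def A0 (q : E) : ℝ := Complex.arg (1 - wq q)

/-- **DI** (dilogarithm; no hypotheses).  `f w = -log(1-w)`, `Li` a primitive of `f w / w` (`dslope f 0`) on the unit
disc with `Li 0 = 0` (`DifferentiableOn.isExactOn_ball`, or the power series `Σ wᵏ/k²`), `W = Im Li (wq q)`;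
`v0 = Re f`, `A0 = -Im f`, `∂_x w = i w`, `∂_t w = -w`.  `Li` is real on the real segment; `|Li w|, |f w|, |w/(1-w)| ≤ C|w|`
for `|w| ≤ e^{-t₀}`. -/
def DIStmt : Prop :=
  ∃ W : E → ℝ, (∀ q : E, 0 < q 2 → ContDiffAt ℝ 3 W q ∧ ContDiffAt ℝ 3 v0 q ∧ ContDiffAt ℝ 3 A0 q ∧
      ∇ W q 0 = v0 q ∧ ∇ W q 1 = 0 ∧ ∇ W q 2 = A0 q ∧
      ∇ v0 q 0 = -(Real.exp (-q 2) * Real.sin (q 0) / ‖1 - wq q‖ ^ 2) ∧ ∇ v0 q 1 = 0 ∧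
      ∇ A0 q 0 = ∇ v0 q 2 ∧ ∇ A0 q 1 = 0 ∧ ∇ A0 q 2 = -∇ v0 q 0 ∧
      (Real.sin (q 0) = 0 → W q = 0 ∧ A0 q = 0)) ∧
    ∀ t₀ : ℝ, 0 < t₀ → ∃ C : ℝ, ∀ q : E, t₀ ≤ q 2 → |W q| ≤ C * Real.exp (-q 2) ∧
      |v0 q| ≤ C * Real.exp (-q 2) ∧ |A0 q| ≤ C * Real.exp (-q 2) ∧ |∇ v0 q 2| ≤ C * Real.exp (-q 2)

def Box (t₀ T : ℝ) : Set E :=
  {q | 0 ≤ q 0 ∧ q 0 ≤ Real.pi ∧ 0 ≤ q 1 ∧ q 1 ≤ Real.pi ∧ t₀ ≤ q 2 ∧ q 2 ≤ T}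

/-- **PM** (port model; hyps `DIStmt`, `CAStmt`, `TMStmt`, `T1Stmt`).  `χ̃ t = χ(t₀ + Δ + 1 - t)`, `τ₀ = Δ + 1`, cascade shifted by `t₀`
and scaled by `ε`; `R = χ̃'' W + 2 χ̃' A0`, `rb = b0'' - b0/16` (zero for `τ ≥ 1`):
`v = χ̃ v0 + ε v^c`, `F₁ = χ̃' W + χ̃ A0 + ε F₁^c`, `F₂ = ε F₂^c`,
`g = ε g^c - ε rb(t - t₀) sin y sin(2x)/2 + R sin(2y)/2`.  For `t - t₀ ∈ (0,τ₀)`:
`j_x = v_x - 2R sin²y - ε rb cos y sin(2x)/2`, `j_y = v_y/16 - 2ε rb sin y sin²x - R_x sin(2y)/2`; choose `ε` with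
`3ε|rb| ≤ e^{-t₀-1}/512` (`|v_x| ≥ e^{-t}|sin x|/4` when `χ̃ = 1`), then `Δ ≥ 1` with `(2|R| + |R_x|) ≤ ε b0/128`.
Use T1(c), T1(a); TM(c,d) for `t - t₀ > τ₀`; T1(b) after the cascade.  Global Lipschitz: the functions are Lipschitz on the compact
convex box; compose with the clamp onto the box or use `LipschitzOnWith.extend_real`. -/
def PMStmt : Prop :=
  ∀ t₀ : ℝ, 0 < t₀ → ∃ (T : ℝ) (v F₁ F₂ g : E → ℝ), t₀ < T ∧ Lip v ∧ Lip F₁ ∧ Lip F₂ ∧ Lip g ∧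
    (∀ q ∈ Box t₀ (T + 1), q 2 = t₀ → v q = v0 q ∧ F₁ q = A0 q ∧ F₂ q = 0 ∧ g q = 0) ∧
    (∀ q ∈ Box t₀ (T + 1), T ≤ q 2 → v q = 0 ∧ F₁ q = 0 ∧ F₂ q = 0 ∧ g q = 0) ∧
    (∀ q ∈ Box t₀ (T + 1), q 0 = 0 ∨ q 0 = Real.pi → F₁ q = 0 ∧ g q = 0) ∧
    (∀ q ∈ Box t₀ (T + 1), q 1 = 0 ∨ q 1 = Real.pi → F₂ q = 0 ∧ g q = 0) ∧
    ∀ᵐ q : E, q ∈ Box t₀ (T + 1) → DGood 300 1 (pmU v) (pmF F₁ F₂ g) pmG q

/-! Model coordinates `q = (ξ, y, ζ)`, planar point `ξ + iζ`. -/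

def zc (c : ℝ) (q : E) : ℂ := ((q 0 - c : ℝ) : ℂ) + (q 2 : ℂ) * Complex.I
/-- polar angle about `c`; equals `arg (zc c q)` when `0 ≤ q 2`, `zc c q ≠ 0`, and is smooth near such points -/
def th (c : ℝ) (q : E) : ℝ := Real.pi / 2 + Complex.arg (-Complex.I * zc c q)

def rho : ℝ := 13 / 25
def cc : ℝ := 11 / 20
def LL : ℝ := 19 / 10
def N1 : ℝ := 247 / 250
def cen : Bool → ℝ := fun i => bif i then cc else -cc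
def n1 (ξ : ℝ) : ℝ := max (ξ / (27 / 20)) (-ξ / (49 / 20))
def tent (ξ : ℝ) : ℝ := max (rho - |ξ + cc|) 0 + max (rho - |ξ - cc|) 0
def top (ξ : ℝ) : ℝ := 200 * (1 - max N1 (n1 ξ))
/-- the strip -/
def SS : Set E := {q | 0 ≤ q 2 ∧ 0 ≤ q 1 ∧ q 1 ≤ Real.pi}
/-- the model domain -/
def DD : Set E := {q | 0 ≤ q 1 ∧ q 1 ≤ Real.pi ∧ tent (q 0) ≤ q 2 ∧ q 2 ≤ top (q 0)}

/-- **TH** (polar angle toolkit; no hypotheses) -/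
def THStmt : Prop :=
  ∀ (c : ℝ) (q : E), 0 ≤ q 2 → zc c q ≠ 0 →
    th c q = Complex.arg (zc c q) ∧ 0 ≤ th c q ∧ th c q ≤ Real.pi ∧
    q 0 - c = ‖zc c q‖ * Real.cos (th c q) ∧ q 2 = ‖zc c q‖ * Real.sin (th c q) ∧
    (q 2 = 0 → th c q = 0 ∨ th c q = Real.pi) ∧
    ContDiffAt ℝ 3 (th c) q ∧ ContDiffAt ℝ 3 (fun y => ‖zc c y‖) q ∧
    ∇ (th c) q = !₂[-q 2 / ‖zc c q‖ ^ 2, 0, (q 0 - c) / ‖zc c q‖ ^ 2] ∧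
    ∇ (fun y => ‖zc c y‖) q = !₂[(q 0 - c) / ‖zc c q‖, 0, q 2 / ‖zc c q‖]

/-- **MG** (middle; hyps `LPStmt`, `THStmt`, `GBStmt`).  `∇θᵢ × e_y = ∇(-log rᵢ)`, the two gradients are independent for `ζ > 0`. -/
def MGStmt : Prop :=
  ∀ q : E, 0 < q 2 → DGood 3 1 (fun (i : Bool) y => -Real.log ‖zc (cen i) y‖)
    (fun i => ![th (cen i)]) (fun _ => ![X 1]) q

/-- zone between the circle of radius `r₀` and the curve `r = ϱ(θ)` -/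
def Zone (c r₀ s : ℝ) (ϱ : ℝ → ℝ) : Set E :=
  {q | q ∈ SS ∧ zc c q ≠ 0 ∧ 0 ≤ s * (r₀ - ‖zc c q‖) ∧ 0 ≤ s * (‖zc c q‖ - ϱ (th c q))}

/-- **CN** (connector chart; hyps `THStmt`, `CFStmt`, `NPStmt`, `ZLStmt`).  `m = (r₀ - r)/(r₀ - ϱ θ) ∈ [0,1]`.  The formula is Lipschitz on
the (bounded) zone: `θ`, `r` are Lipschitz on the compact set `SS ∩ {e ≤ r ≤ R}`; extend with
`LipschitzOnWith.extend_finite_dimension`.  A.e. point of the zone is interior (`ζ>0`, `0<y<π`, strict inequalities; the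
level sets are null by ZL(a) or NP in polar coordinates) with `θ ∉ D`.  There
`det = (T - t₀)·(1 - m + m Ξ')/((r₀ - ϱ) r)` (polar map has det `-1/r`, the map `(θ,y,r) ↦ π` has det
`-(T-t₀)(1 - m + mΞ')/(r₀ - ϱ)`). -/
def CNStmt : Prop :=
  ∀ (c r₀ s t₀ T e : ℝ) (ϱ Ξ : ℝ → ℝ) (K₀ : ℝ≥0) (D : Finset ℝ), (s = 1 ∨ s = -1) → 0 < e → t₀ < T →
    e ≤ r₀ → LipschitzOnWith K₀ ϱ (Icc 0 Real.pi) → LipschitzOnWith K₀ Ξ (Icc 0 Real.pi) →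
    (∀ θ ∈ Icc 0 Real.pi, e ≤ s * (r₀ - ϱ θ) ∧ e ≤ ϱ θ) →
    (∀ θ ∈ Ioo 0 Real.pi, θ ∉ D → ContDiffAt ℝ 1 ϱ θ ∧ ContDiffAt ℝ 1 Ξ θ ∧ e ≤ deriv Ξ θ) →
    ∃ (pp : E → E) (K : ℝ≥0) (d : ℝ), 0 < d ∧ LipschitzWith K pp ∧ QC s d K pp (Zone c r₀ s ϱ) ∧
      ∀ q ∈ Zone c r₀ s ϱ,
        pp q 0 = th c q + (r₀ - ‖zc c q‖) / (r₀ - ϱ (th c q)) * (Ξ (th c q) - th c q) ∧ pp q 1 = q 1 ∧
        pp q 2 = t₀ + (T - t₀) * ((r₀ - ‖zc c q‖) / (r₀ - ϱ (th c q)))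

/-- inner port zone (about `-cc`) -/
def Z0 : Set E := {q | q ∈ SS ∧ rho ≤ |q 0 + cc| + q 2 ∧ ‖zc (-cc) q‖ ≤ cc}
/-- outer port zone -/
def Zi : Set E := {q | q ∈ SS ∧ 3 * cc ≤ ‖zc (-cc) q‖ ∧ q 2 ≤ top (q 0)}

/-- **ZP0** (hyps `CNStmt`, `THStmt`): `ϱ θ = rho/(|cos θ| + sin θ)`, `Ξ θ = π/2 (1 - cos θ/(|cos θ| + sin θ))`,
`Ξ' = (π/2)/(|cos θ| + sin θ)²`, `D = {π/2}`, `r₀ = cc`, `s = 1`; `Z0 = Zone …`. -/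
def ZP0Stmt : Prop :=
  ∀ t₀ T : ℝ, t₀ < T → ∃ (pp : E → E) (K : ℝ≥0) (d : ℝ), 0 < d ∧ LipschitzWith K pp ∧ QC 1 d K pp Z0 ∧
    (∀ q ∈ Z0, pp q ∈ Box t₀ T ∧ pp q 1 = q 1 ∧ (q 2 = 0 → pp q 0 = 0 ∨ pp q 0 = Real.pi) ∧
      (‖zc (-cc) q‖ = cc → pp q 0 = th (-cc) q ∧ pp q 2 = t₀) ∧
      (|q 0 + cc| + q 2 = rho → pp q 0 = Real.pi / 2 * (1 - (q 0 + cc) / rho) ∧ pp q 2 = T))

/-- **ZPI** (hyps `CNStmt`, `THStmt`): with `u = ξ + cc` the region `ζ ≤ top ξ`, `ζ ≥ 0` is the trapezoid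
`max(ζ/(12/5), (u + (27/4000)ζ)/LL, (-u + (49/4000)ζ)/LL) ≤ 1`; `ϱ θ = 1/max(sin θ/(12/5), (cos θ + (27/4000) sin θ)/LL,
(-cos θ + (49/4000) sin θ)/LL) ≥ 1.8 > 3cc`, `Ξ θ = π/2 (1 - ϱ θ cos θ/LL)`, `D` = the (finitely many) switching angles,
`r₀ = 3cc`, `s = -1`.  The last conjunct: the half circle `r = 3cc` lies in `Zi`. -/
def ZPIStmt : Prop :=
  ∀ t₀ T : ℝ, t₀ < T → ∃ (pp : E → E) (K : ℝ≥0) (d : ℝ), 0 < d ∧ LipschitzWith K pp ∧ QC (-1) d K pp Zi ∧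
    (∀ q ∈ Zi, pp q ∈ Box t₀ T ∧ pp q 1 = q 1 ∧ (q 2 = 0 → pp q 0 = 0 ∨ pp q 0 = Real.pi) ∧
      (‖zc (-cc) q‖ = 3 * cc → pp q 0 = th (-cc) q ∧ pp q 2 = t₀) ∧
      (q 2 = top (q 0) → pp q 0 = Real.pi / 2 * (1 - (q 0 + cc) / LL) ∧ pp q 2 = T)) ∧
    (∀ q ∈ SS, ‖zc (-cc) q‖ = 3 * cc → q ∈ Zi) ∧
    ∀ q ∈ SS, q 2 = top (q 0) → 3 * cc < ‖zc (-cc) q‖

/-- **MD** (model; hyps `PM, MG, ZP0, ZPI, TH, PB, NP, GL, GB`).  PM twice: `t₀ = log 2` (inner, chart `π₀` from ZP0 with end `T`) and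
`t₀ = log(3/2)` (outer, chart `π∞` from ZPI with end `T∞+1`); `π₁ = π₀ ∘ (ξ ↦ -ξ)` has sign `-1`.  Open disjoint sets `B₀ = {r₀ < cc}`,
`B₁ = {r₁ < cc}`, `B∞ = {3cc < r₀}` (`rᵢ = ‖zc (cen i) q‖`, index 0 = false); `c* = T∞ + 1`; `x,t,v,F₁,F₂,g` below are composed with the chart of the zone.
Middle: `aᵢ = c* - log(rᵢ/2cc)`, `Aᵢ = θᵢ`.
`B₀`: `a₀ = c* + t`, `A₀ = x`, `a₁ = c* + v`, `A₁ = π + F₁`.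
`B₁`: `a₁ = c* + t`, `A₁ = π - x`, `a₀ = c* + v`, `A₀ = -F₁`.
`B∞`: `a₀ = c* - t`, `A₀ = x`, `a₁ = c* - t + v`, `A₁ = x - F₁`; `τ = c* - t` (constant `c* - log(3/2)` off `B∞`).
`n = 2`; pair 0 is `(Aᵢ, X 1)`; extra pairs: field 1: `(P, A₀), (Q, a₀)` with `P = F₂` on `B₀`, `-F₂` on `B∞`, `Q = g` on `B₀` and on `B∞`;
field 0: `(F₂, A₁), (-g, a₁)` on `B₁`; the extra `F`'s are `0` elsewhere (so every `F`, `G` is `C¹` at a.e. point of `DD`).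
Glue with GL on a compact convex part of `SS` containing `DD`, extend by McShane.  On the circles `wq (π q) = z₀/2cc`,
`1 - w = -z₁/2cc`, etc.  `DGood` in a zone: PB + NP + recombination GB(4). -/
def MDStmt : Prop :=
  ∃ (Λ : ℝ) (n : ℕ) (a : Bool → E → ℝ) (F G : Bool → Fin (n + 1) → E → ℝ) (τ : E → ℝ),
    (∀ i, Lip (a i) ∧ G i 0 = X 1 ∧ ∀ k, Lip (F i k) ∧ Lip (G i k)) ∧ Lip τ ∧
    (∀ᵐ q : E, q ∈ DD → DGood Λ 1 a F G q) ∧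
    (∀ q ∈ DD, q 2 = 0 ∨ q 1 = 0 ∨ q 1 = Real.pi → ∀ i k,
      (F i k q = 0 ∨ F i k q = Real.pi) ∨ (G i k q = 0 ∨ G i k q = Real.pi)) ∧
    (∀ i, ∃ α β η : ℝ, (η = 0 ∨ η = Real.pi) ∧ ∀ q ∈ DD, |q 0 - cen i| + q 2 = rho →
      a i q = α ∧ a (!i) q = β ∧ F i 0 q = Real.pi / 2 * (1 - (q 0 - cen i) / rho) ∧ F (!i) 0 q = η ∧
      1 < τ q ∧ ∀ i' k, F i' (Fin.succ k) q = 0) ∧
    (∀ q ∈ DD, 0 ≤ τ q) ∧ volume {q ∈ DD | τ q = 1} = 0 ∧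
    (∀ q ∈ DD, τ q ≤ 1 → ∀ i, a i q = τ q ∧ F i 0 q = F false 0 q ∧ ∀ k, F i (Fin.succ k) q = 0) ∧
    ∀ q ∈ DD, q 2 = top (q 0) → τ q = 0 ∧ F false 0 q = Real.pi / 2 * (1 - (q 0 + cc) / LL)

/-! ## E. Physical space -/

def NN (x : E) : ℝ := max (n1 (x 0)) |x 1| + |x 2|
def UU : Set E := {x | NN x < 1}
/-- inverse of the similarity onto child `i`: `Sinv i x = rho⁻¹ • sw (x - (cen i, rho cc, 0))` -/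
def Sinv (i : Bool) (x : E) : E := !₂[x 1 / rho - cc, (x 0 - cen i) / rho, x 2 / rho]
def Ch (i : Bool) : Set E := Sinv i ⁻¹' UU
def Om : Set E := {x | NN x ≤ 1} \ (Ch false ∪ Ch true)
def push (i : Bool) (J : E → E) (x : E) : E := (rho⁻¹ ^ 2) • sw (J (Sinv i x))

/-- **GE** (geometry; no hypotheses) -/
def GEStmt : Prop :=
  (∃ K : ℝ≥0, LipschitzWith K NN) ∧ volume {x : E | NN x = 1} = 0 ∧
  (∀ x, NN x ≤ 1 → ‖x‖ < 27 / 10) ∧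
  (∀ i x, NN (Sinv i x) ≤ 1 → NN x ≤ N1 ∧ |x 0 - cen i| ≤ rho) ∧ (0 : E) ∈ UU ∧
  ∃ R : E ≃ₗᵢ[ℝ] E, (∀ p, R p = sw p) ∧ (∀ p, R.symm p = sw p) ∧
    (∀ i x, Sinv i x = rho⁻¹ • R (x - !₂[cen i, rho * cc, 0])) ∧
    ∀ p q, cross (sw p) (sw q) = -sw (cross p q)

/-- **PK** (the map to the model; hyps `GEStmt`, `CFStmt`, `NPStmt`, `ZLStmt`).  `κ = κ₂ ∘ κ₀`,
`κ₀ x = (x₀, x₁ / max (NN x) N1, NN x)`, `det Dκ₀ = sign(x₂)/max(NN,N1)`;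
`κ₂(ξ,η,ν) = (ξ, π/2 (1 - η), max (200 (ν - max N1 (n1 ξ))) (ν - Nb ξ η + tent ξ))`, with
`Nb ξ η = max (n1 ξ) (|η| N1) + Σᵢ max (rho - max (rho * n1 (LL η - cc)) |ξ - cen i|) 0`, `det Dκ₂ ∈ -π/2·{1,200}`.
Both are globally Lipschitz, and smooth off finitely many null level sets.
On `Om`: `ν ≥ Nb` (for `ν ≤ N1`, `ν - Nb = |x₂| - ΣGᵢ`; otherwise `Nb ≤ max N1 (n1 ξ)`). -/
def PKStmt : Prop :=
  ∃ (κ : E → E) (K : ℝ≥0) (d : ℝ), 0 < d ∧ LipschitzWith K κ ∧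
    QC (-1) d K κ {x | NN x ≤ 1 ∧ 0 < x 2} ∧ QC 1 d K κ {x | NN x ≤ 1 ∧ x 2 < 0} ∧
    (∀ x ∈ Om, κ x ∈ DD ∧ (x 2 = 0 → κ x 2 = 0 ∨ κ x 1 = 0 ∨ κ x 1 = Real.pi)) ∧
    (∀ i x, NN (Sinv i x) = 1 → x ∈ Om ∧ κ x 0 = x 0 ∧ |x 0 - cen i| + κ x 2 = rho ∧
      κ x 1 = Real.pi / 2 * (1 - x 1 / N1)) ∧
    ∀ x, NN x = 1 → x ∈ Om ∧ κ x 0 = x 0 ∧ κ x 2 = top (x 0) ∧ κ x 1 = Real.pi / 2 * (1 - x 1)

/-- **PA** (pre-gadget; hyps `MD, PK, GE, PB, NP, GL, WL, ZL, ST, GB`).  `Ω° = {NN < 1} ∩ {1 < NN∘Sinv i ∀ i}`,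
`B = Ω° ∩ {τκ < 1}`, `R = Ω° ∩ {1 < τκ}`, `σ = -sign x₂`.  `μ = min(τκ,1)` on `Om`, `1` on the children, `0` outside;
`r i = aᵢκ - min(τκ,1)` on `Om`, constants on the children, `0` outside (GL).  `JB = 1_B σ flux(F false κ, G false κ)`,
`JR i = 1_R σ flux(F i κ, G i κ)`.  Weak identity: glue potentials `F̃,G̃` (equal to `Fκ, Gκ` off the children; on `Ch i`: pair 0 is
`(X 1∘κ∘Sinv i, F false 0∘κ∘Sinv i)`, on `Ch (!i)`: `(η, X 1∘κ)`; extra `F̃ = 0`), apply WL to each pair; the integrands agree a.e. -/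
def PAStmt : Prop :=
  ∃ (Λ : ℝ) (B R : Set E) (μ : E → ℝ) (JB : E → E) (r : Bool → E → ℝ) (JR : Bool → E → E) (C : ℝ),
    IsOpen B ∧ IsOpen R ∧ B ⊆ UU ∧ R ⊆ UU ∧ Disjoint B R ∧ (∀ i, Disjoint B (Ch i) ∧ Disjoint R (Ch i)) ∧
    volume (UU \ (B ∪ R ∪ Ch false ∪ Ch true)) = 0 ∧
    Lip μ ∧ (∀ x, x ∉ UU → μ x = 0) ∧ (∀ x ∈ UU, x ∉ B → μ x = 1) ∧
    Measurable JB ∧ (∀ x, ‖JB x‖ ≤ C) ∧ (∀ x, x ∉ B → JB x = 0) ∧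
    (∀ i, Lip (r i) ∧ (∀ x, x ∉ UU → r i x = 0) ∧ (∀ x ∈ B, r i x = 0) ∧
      (∀ k, ∃ c, ∀ x ∈ Ch k, r i x = c) ∧
      Measurable (JR i) ∧ (∀ x, ‖JR i x‖ ≤ C) ∧ ∀ x, x ∉ R → JR i x = 0) ∧
    (∀ᵐ x, x ∈ B → Good Λ (fun _ : Unit => μ) (fun _ => JB) x) ∧
    (∀ᵐ x, x ∈ R → Good Λ r JR x) ∧
    ∀ i (φ : E → ℝ), Lip φ → (∀ x, x ∉ UU → φ x = 0) → (∀ x ∈ Ch i, Sinv i x ∉ B → φ x = 0) →
      ∫ x, ⟪JB x + JR i x + push i JB x, ∇ φ x⟫ = 0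

/-- **GA** (gadget; hyps `PA, RL, GB, GE, ST, ZL, FL`).  RL on `B ∩ {Good}` for `μ` gives `m, Jm, γB`, on `R ∩ {Good}` gives `r', J', γR`.
`γ = γB` on `B`, `γR` on `R`, `γB∘Sinv k` on `Sinv k ⁻¹ B`, `1` elsewhere; `mᵢ = m∘Sinv i`,
`a i = m²/2 + r' i + rho⁻¹(mᵢ - mᵢ²/2)`, `σ = 1_B γ‖∇m‖²`.  Test the weak identity with `φ = m(1 - mᵢ)ψ`; a.e.
`⟪J,∇φ⟫ = γ⟪∇a,∇ψ⟫ + ψσ - ψσᵢ` (ZL on each piece).  `∫σ > 0` by FL (`m` is not `0`: it is `1` on `Ch i`). -/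
def GAStmt : Prop :=
  ∃ (B : Set E) (M : ℝ) (γ : E → ℝ) (a : Bool → E → ℝ) (σ : E → ℝ),
    B ⊆ UU ∧ (∀ i, Disjoint B (Ch i)) ∧ Measurable γ ∧ (∀ x, 1 ≤ M * γ x ∧ 0 < γ x ∧ γ x ≤ M) ∧
    (∀ k x, Sinv k x ∈ B → γ x = γ (Sinv k x)) ∧
    Measurable σ ∧ (∀ x, 0 ≤ σ x ∧ σ x ≤ M) ∧ (∀ x, x ∉ UU → σ x = 0) ∧ 0 < ∫ x, σ x ∧
    ∀ i, Lip (a i) ∧ (∀ x, x ∉ UU → a i x = 0) ∧
      (∀ k, ∀ᵐ x, x ∈ Ch k → Sinv k x ∉ B → ∇ (a i) x = 0) ∧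
      ∀ ψ : E → ℝ, LocallyLipschitz ψ →
        ∫ x, γ x * ⟪∇ (a i) x, ∇ ψ x⟫ = (∫ x, ψ x * (rho⁻¹ ^ 3 * σ (Sinv i x))) - ∫ x, ψ x * σ x

/-- **TR** (tree; hyps `GA, GE, ST, ZL`).  `T [] = id`, `T (i :: P) = Sinv i ∘ T P` (a similarity of ratio `rho^-|P|`),
`U P = T P ⁻¹ UU`, `a P i = μ₀⁻¹ rho^{-|P|} a i ∘ T P`, `σ P = μ₀⁻¹ rho^{-3|P|} σ ∘ T P`, `μ₀ = ∫σ`;
`γ = γ₀ ∘ T P` on `T P ⁻¹ (UU \ (Ch false ∪ Ch true))` (disjoint for different `P`), `1` elsewhere;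
`γ = γ₀ ∘ T P` a.e. where `∇(a P i) ≠ 0`.  `ψ` = clamp of `x 0`. -/
def TRStmt : Prop :=
  ∃ (γ : E → ℝ) (C : ℝ) (U : List Bool → Set E) (a : List Bool → Bool → E → ℝ) (σ : List Bool → E → ℝ),
    Measurable γ ∧ (∀ x, 1 ≤ C * γ x ∧ 0 < γ x ∧ γ x ≤ C) ∧ (∀ x : E, 27 / 10 ≤ ‖x‖ → γ x = 1) ∧
    (∀ P, U P ⊆ ball 0 (27 / 10)) ∧ (∀ P i, U (i :: P) ⊆ U P) ∧
    (∀ P, Disjoint (U (false :: P)) (U (true :: P))) ∧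
    (∀ P, ∀ x ∈ U P, ∀ y ∈ U P, dist x y ≤ C * rho ^ P.length) ∧
    (∀ P i, Lip (a P i) ∧ (∀ x, x ∉ U P → a P i x = 0) ∧ (∀ x, |a P i x| ≤ C / rho ^ P.length) ∧
      ∫ x, γ x * ‖∇ (a P i) x‖ ^ 2 ≤ C / rho ^ P.length) ∧
    (∀ P, Measurable (σ P) ∧ (∃ C', ∀ x, 0 ≤ σ P x ∧ σ P x ≤ C') ∧ (∀ x, x ∉ U P → σ P x = 0) ∧
      ∫ x, σ P x = 1) ∧
    (∀ P i (ψ : E → ℝ), LocallyLipschitz ψ →
      ∫ x, γ x * ⟪∇ (a P i) x, ∇ ψ x⟫ = (∫ x, ψ x * σ (i :: P) x) - ∫ x, ψ x * σ P x) ∧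
    ∃ ψ : E → ℝ, Lip ψ ∧ (∀ x ∈ U [false], ψ x = 1) ∧ ∀ x ∈ U [true], ψ x = 0

/-- **AG1** (gauge data; hyps `TRStmt`, `ZLStmt`).  For weights `t` on words of length `n` put `T P = Σ` of `t` over the descendants and
`g_t = Σ_{|P|<n} Σ_i T(i::P) a P i`; telescoping: `∫γ⟪∇g_t,∇ψ⟫ = Σ t_Q ∫ψσ_Q - T[] ∫ψσ_[]`.  Same-level supports are disjoint
(a.e. `∇(a P i) = 0` off `U P`, ZL), so `E(level j) ≤ 2C rho^{-j} 2^{n-j-1} Σt²`, and Minkowski/Cauchy–Schwarz over levels with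
`2 rho > 1` gives `E(g_t) ≤ C' 2ⁿ Σ t²`.  `Wn n`: `t_Q = ±2^{-n}` (sign = root branch, last letter; take `n+1` levels), `ν n = 2^{-n} Σ σ_Q`.
Concentration: `t_Q = 2^{-n} φ_Q`, `φ_Q = ∫uσ_Q - ∫uσ_[]`, plus `osc ≤ Lip · diam`.
`W = (a [] false - a [] true)/2` off `U[false] ∪ U[true]`; if that vanished there, test with `ψ`. -/
def AG1Stmt : Prop :=
  ∃ (γ W σ₀ : E → ℝ) (Wn μ ν : ℕ → E → ℝ) (C : ℝ),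
    Measurable γ ∧ (∀ x, 1 ≤ C * γ x ∧ 0 < γ x ∧ γ x ≤ C) ∧ (∀ x : E, 27 / 10 ≤ ‖x‖ → γ x = 1) ∧
    (∃ x, W x ≠ 0) ∧ TendstoUniformly Wn W atTop ∧
    (∀ n, Lip (Wn n) ∧ (∀ x : E, 27 / 10 ≤ ‖x‖ → Wn n x = 0) ∧ (∀ x, |Wn n x| ≤ C) ∧
      ∫ x, γ x * ‖∇ (Wn n) x‖ ^ 2 ≤ C) ∧
    (∀ n, Measurable (μ n) ∧ Measurable (ν n) ∧ (∃ C', ∀ x, |μ n x| ≤ ν n x ∧ ν n x ≤ C') ∧
      (∀ x : E, 27 / 10 ≤ ‖x‖ → ν n x = 0) ∧ ∫ x, ν n x ≤ 1 ∧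
      ∀ ψ : E → ℝ, LocallyLipschitz ψ → ∫ x, γ x * ⟪∇ (Wn n) x, ∇ ψ x⟫ = ∫ x, ψ x * μ n x) ∧
    Measurable σ₀ ∧ (∀ x, |σ₀ x| ≤ C) ∧ (∀ x : E, 27 / 10 ≤ ‖x‖ → σ₀ x = 0) ∧
    ∀ (u : E → ℝ) (η : ℝ), ContDiff ℝ 1 u → 0 ≤ η →
      (∀ g : E → ℝ, Lip g → (∀ x : E, 27 / 10 ≤ ‖x‖ → g x = 0) →
        (∫ x, γ x * ⟪∇ g x, ∇ u x⟫) ^ 2 ≤ η * ∫ x, γ x * ‖∇ g x‖ ^ 2) →
      ∀ ε : ℝ, 0 < ε → ∀ᶠ n in atTop, ∫ x, (u x - ∫ y, u y * σ₀ y) ^ 2 * ν n x ≤ C * η + ε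

open Crest.AnalysisR.PDE.Calderon in
/-- **VI** (variational inequality; hyps `DLStmt`, `ZLStmt`).  `E(u + t(h+g)) ≥ E(u) - η` for all real `t` by DL; expand, discriminant. -/
def VIStmt : Prop :=
  ∀ (γ u h g : E → ℝ) (C η r : ℝ), Measurable γ → (∀ x, 0 ≤ γ x ∧ γ x ≤ C) → ContDiff ℝ 1 u →
    (∀ w, ContDiff ℝ 1 w → (∀ x : E, ‖x‖ = 3 → w x = u x) → ballEnergy γ u ≤ ballEnergy γ w + η) →
    ContDiff ℝ 1 h → (∀ x : E, ‖x‖ = 3 → h x = 0) → Lip g → r < 3 → (∀ x : E, r ≤ ‖x‖ → g x = 0) →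
    (∫ x in ball (0 : E) 3, γ x * ⟪∇ (fun y => h y + g y) x, ∇ u x⟫) ^ 2 ≤
      η * ballEnergy γ (fun y => h y + g y)

open Crest.AnalysisR.PDE.Calderon in
/-- **AG2** (gauge theorem; hyps `AG1Stmt`, `VIStmt`, `DLStmt`, `FLStmt`, `ZLStmt`).  `ε₀ = 1/(2 max(C,1))`, `cₙ = 1 + ε₀ Wn`, `c = 1 + ε₀W`,
`γ₁ = c²γ`.  `u` an `η`-near-minimiser for `γ`, `ℓ = ∫uσ₀`, `φ = u - ℓ`, `ũ = φ/cₙ + ℓ = u + φ(1/cₙ - 1)`.  A.e.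
`c²|∇(φ/c)|² = |∇φ|² - ⟪∇c,∇(φ²/c)⟫`, so `E_{cₙ²γ}(ũ) = E_γ(u) - ε₀∫(φ²/cₙ)μₙ = E_γ(u) + O(η)`; DL gives `inf₁ ≤ inf₀`.
For a competitor `w`, `h = w - ũ`: `E_{cₙ²γ}(w) ≥ E(ũ) + 2∫cₙ²γ⟪∇ũ,∇h⟫`, and
`c²⟪∇ũ,∇h⟫ = ⟪∇(ch),∇φ⟫ - ⟪∇c,∇(φh)⟫`, `c h = (w - u) + (c-1)(w - ℓ)`; first term `O(√η)` by VI (`ℓ` is bounded via FL applied to `u - w`),
second `O(√η)` by concentration.  `{γ ≠ γ₁} = {W ≠ 0}` is open and non-empty. -/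
def AG2Stmt : Prop :=
  ∃ γ₀ γ₁ : EuclideanSpace ℝ (Fin 3) → ℝ, ∃ c C : ℝ, 0 < c ∧ Measurable γ₀ ∧ Measurable γ₁ ∧
    (∀ x, c ≤ γ₀ x ∧ γ₀ x ≤ C ∧ c ≤ γ₁ x ∧ γ₁ x ≤ C) ∧
    (∃ r : ℝ, r < 3 ∧ ∀ x : EuclideanSpace ℝ (Fin 3), r < ‖x‖ → γ₀ x = 1 ∧ γ₁ x = 1) ∧
    0 < volume {x : EuclideanSpace ℝ (Fin 3) | γ₀ x ≠ γ₁ x} ∧
    SameBoundaryEnergies γ₀ γ₁

end Crest.Agent.R83
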