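import Crest.Agent.R83.Basic

/-! Row 83, task EA (an elliptic matrix for a symmetric elliptic pair). -/

set_option autoImplicit false

noncomputable section

namespace Crest.Agent.R83

open MeasureTheory Set Filter Topology Metric
open scoped Gradient RealInnerProductSpace NNReal

lemma ea_cramer (p q ξ : E) : (‖cross p q‖ ^ 2) • ξ = ⟪ξ, cross q (cross p q)⟫ • p +
    ⟪ξ, cross (cross p q) p⟫ • q + ⟪ξ, cross p q⟫ • cross p q := by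
  apply ext3 <;>
    simp only [normsq3, inner3, cross_0, cross_1, cross_2, PiLp.add_apply, PiLp.smul_apply,
      smul_eq_mul] <;> ring

lemma ea_sq (j ξ : E) : ⟪j, ξ⟫ ^ 2 ≤ ‖j‖ ^ 2 * ‖ξ‖ ^ 2 := by
  rw [← mul_pow, ← sq_abs]
  exact pow_le_pow_left₀ (abs_nonneg _) (abs_real_inner_le_norm j ξ) 2

lemma ea_two {Λ : ℝ} {p q : E} (x y : ℝ) (hp : ‖p‖ ^ 2 ≤ Λ) (hq : ‖q‖ ^ 2 ≤ Λ) :
    ‖x • p + y • q‖ ^ 2 ≤ 2 * Λ * (x ^ 2 + y ^ 2) := by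
  have a1 : ‖x • p + y • q‖ ^ 2 ≤ (‖x • p‖ + ‖y • q‖) ^ 2 :=
    pow_le_pow_left₀ (norm_nonneg _) (norm_add_le _ _) 2
  have a2 : ‖x • p‖ ^ 2 ≤ x ^ 2 * Λ := by
    rw [norm_smul, mul_pow, Real.norm_eq_abs, sq_abs]; gcongr
  have a3 : ‖y • q‖ ^ 2 ≤ y ^ 2 * Λ := by
    rw [norm_smul, mul_pow, Real.norm_eq_abs, sq_abs]; gcongr
  nlinarith [sq_nonneg (‖x • p‖ - ‖y • q‖)]

lemma ea_num {Λ x y τ a b u v N : ℝ} (hΛ : 0 < Λ) (e2 : a = x + τ * u) (e3 : b = y + τ * v)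
    (e4 : 1 = N + τ ^ 2) (e5 : N ≤ 2 * Λ * (x ^ 2 + y ^ 2)) (hu : u ^ 2 ≤ Λ) (hv : v ^ 2 ≤ Λ)
    (ha : a ^ 2 ≤ Λ) (hb : b ^ 2 ≤ Λ) (hτ : τ ^ 2 ≤ 1) :
    1 ≤ (8 * Λ ^ 2 + 4 * Λ + 1) * (a ^ 2 + b ^ 2 + τ ^ 2) ∧ 0 < a ^ 2 + b ^ 2 + τ ^ 2 ∧
      a ^ 2 + b ^ 2 + τ ^ 2 ≤ 8 * Λ ^ 2 + 4 * Λ + 1 := by
  have e6 : x ^ 2 ≤ 2 * a ^ 2 + 2 * (τ ^ 2 * Λ) := by
    have : τ ^ 2 * u ^ 2 ≤ τ ^ 2 * Λ := mul_le_mul_of_nonneg_left hu (sq_nonneg _)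
    rw [e2]; nlinarith [sq_nonneg (x + 2 * τ * u)]
  have e7 : y ^ 2 ≤ 2 * b ^ 2 + 2 * (τ ^ 2 * Λ) := by
    have : τ ^ 2 * v ^ 2 ≤ τ ^ 2 * Λ := mul_le_mul_of_nonneg_left hv (sq_nonneg _)
    rw [e3]; nlinarith [sq_nonneg (y + 2 * τ * v)]
  have hA := sq_nonneg a
  have hB := sq_nonneg b
  have hC := sq_nonneg τ
  clear e2 e3 hu hv
  generalize a ^ 2 = A at *
  generalize b ^ 2 = B at *
  generalize τ ^ 2 = C at *
  have e8 : 1 ≤ (8 * Λ ^ 2 + 4 * Λ + 1) * (A + B + C) := by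
    have := mul_le_mul_of_nonneg_left (add_le_add e6 e7) (show 0 ≤ 2 * Λ by linarith)
    nlinarith [mul_nonneg hΛ.le hC, mul_nonneg (sq_nonneg Λ) hA, mul_nonneg (sq_nonneg Λ) hB]
  exact ⟨e8, pos_of_mul_pos_right (lt_of_lt_of_le one_pos e8) (by positivity), by nlinarith⟩

lemma ea_core {Λ : ℝ} {p q j k : E} (hΛ : 0 < Λ) (h11 : ⟪p, j⟫ = 1) (h12 : ⟪p, k⟫ = 0)
    (h21 : ⟪q, j⟫ = 0) (h22 : ⟪q, k⟫ = 1) (hp : ‖p‖ ^ 2 ≤ Λ) (hq : ‖q‖ ^ 2 ≤ Λ) (hj : ‖j‖ ^ 2 ≤ Λ)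
    (hk : ‖k‖ ^ 2 ≤ Λ) : ∃ (l : Fin 3 → ℝ) (R : E ≃ₗᵢ[ℝ] E),
      (∀ i, 1 ≤ (8 * Λ ^ 2 + 4 * Λ + 1) * l i ∧ 0 < l i ∧ l i ≤ 8 * Λ ^ 2 + 4 * Λ + 1) ∧
      ∀ a b : ℝ, R (diag l (R.symm (a • p + b • q))) = a • j + b • k := by
  have hN : cross p q ≠ 0 := fun h => by
    have h1 : ⟪p, j⟫ * ⟪q, k⟫ - ⟪p, k⟫ * ⟪q, j⟫ = ⟪cross p q, cross j k⟫ := by
      simp only [inner3, cross_0, cross_1, cross_2]; ring
    rw [h11, h12, h21, h22, h, inner_zero_left] at h1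
    norm_num at h1
  have hN' : 0 < ‖cross p q‖ := norm_pos_iff.2 hN
  obtain ⟨n, hn, hnp, hnq, hdec⟩ : ∃ n : E, ‖n‖ = 1 ∧ ⟪n, p⟫ = 0 ∧ ⟪n, q⟫ = 0 ∧
      ∀ ξ : E, ∃ x y τ : ℝ, ξ = x • p + y • q + τ • n := by
    refine ⟨‖cross p q‖⁻¹ • cross p q, norm_smul_inv_norm hN, ?_, ?_, fun ξ => ?_⟩
    · rw [real_inner_smul_left]; simp only [inner3, cross_0, cross_1, cross_2]; ring
    · rw [real_inner_smul_left]; simp only [inner3, cross_0, cross_1, cross_2]; ring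
    · refine ⟨(‖cross p q‖ ^ 2)⁻¹ * ⟪ξ, cross q (cross p q)⟫,
        (‖cross p q‖ ^ 2)⁻¹ * ⟪ξ, cross (cross p q) p⟫, ‖cross p q‖⁻¹ * ⟪ξ, cross p q⟫, ?_⟩
      have h1 := congrArg (fun v => (‖cross p q‖ ^ 2)⁻¹ • v) (ea_cramer p q ξ)
      simp only [smul_add, smul_smul, inv_mul_cancel₀ (pow_pos hN' 2).ne', one_smul] at h1
      rw [smul_smul]
      convert h1 using 3
      field_simp
  let T : E →ₗ[ℝ] E :=
    { toFun := fun ξ => ⟪j, ξ⟫ • j + ⟪k, ξ⟫ • k + ⟪n, ξ⟫ • n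
      map_add' := fun x y => by simp only [inner_add_right]; module
      map_smul' := fun c x => by simp only [real_inner_smul_right, RingHom.id_apply]; module }
  have hTa : ∀ ξ, T ξ = ⟪j, ξ⟫ • j + ⟪k, ξ⟫ • k + ⟪n, ξ⟫ • n := fun _ => rfl
  have hT : T.IsSymmetric := fun x y => by
    simp only [hTa, inner_add_left, inner_add_right, real_inner_smul_left, real_inner_smul_right,
      real_inner_comm x]
    ring
  have hq' : ∀ ξ, ⟪ξ, T ξ⟫ = ⟪j, ξ⟫ ^ 2 + ⟪k, ξ⟫ ^ 2 + ⟪n, ξ⟫ ^ 2 := fun ξ => by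
    simp only [hTa, inner_add_right, real_inner_smul_right, real_inner_comm ξ]
    ring
  have hdim : Module.finrank ℝ E = 3 := by simp
  refine ⟨hT.eigenvalues hdim, (hT.eigenvectorBasis hdim).repr.symm, fun i => ?_, fun a b => ?_⟩
  · set ξ := hT.eigenvectorBasis hdim i
    have h1 : ‖ξ‖ = 1 := (hT.eigenvectorBasis hdim).orthonormal.1 i
    have h2 : hT.eigenvalues hdim i = ⟪j, ξ⟫ ^ 2 + ⟪k, ξ⟫ ^ 2 + ⟪n, ξ⟫ ^ 2 := by
      rw [← hq', hT.apply_eigenvectorBasis hdim i]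
      change _ = ⟪ξ, hT.eigenvalues hdim i • ξ⟫
      rw [real_inner_smul_right, real_inner_self_eq_norm_sq, h1]
      ring
    rw [h2]
    have u1 := ea_sq j ξ
    have u2 := ea_sq k ξ
    have u3 := ea_sq n ξ
    have u4 := ea_sq j n
    have u5 := ea_sq k n
    rw [h1] at u1 u2 u3
    rw [hn] at u3 u4 u5
    obtain ⟨x, y, τ, hξ⟩ := hdec ξ
    have hnn : ⟪n, n⟫ = 1 := by rw [real_inner_self_eq_norm_sq, hn]; norm_num
    have e1 : ⟪n, ξ⟫ = τ := by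
      rw [hξ]; simp only [inner_add_right, real_inner_smul_right, hnp, hnq, hnn]; ring
    have e2 : ⟪j, ξ⟫ = x + τ * ⟪j, n⟫ := by
      rw [hξ]
      simp only [inner_add_right, real_inner_smul_right, real_inner_comm p j, real_inner_comm q j,
        h11, h21]
      ring
    have e3 : ⟪k, ξ⟫ = y + τ * ⟪k, n⟫ := by
      rw [hξ]
      simp only [inner_add_right, real_inner_smul_right, real_inner_comm p k, real_inner_comm q k,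
        h12, h22]
      ring
    have e4 : 1 = ‖x • p + y • q‖ ^ 2 + τ ^ 2 := by
      have : ‖ξ‖ ^ 2 = ‖x • p + y • q‖ ^ 2 + τ ^ 2 := by
        rw [hξ, norm_add_sq_real, real_inner_smul_right, inner_add_left, real_inner_smul_left,
          real_inner_smul_left, real_inner_comm n p, real_inner_comm n q, hnp, hnq, norm_smul τ, hn]
        simp
      rw [← this, h1]; norm_num
    have e5 : ‖x • p + y • q‖ ^ 2 ≤ 2 * Λ * (x ^ 2 + y ^ 2) := by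
      exact ea_two x y hp hq
    rw [e1] at u3 ⊢
    exact ea_num hΛ e2 e3 e4 e5 (by linarith) (by linarith) (by linarith) (by linarith) (by linarith)
  · rw [LinearIsometryEquiv.symm_symm, LinearIsometryEquiv.symm_apply_eq]
    have : T (a • p + b • q) = a • j + b • k := by
      simp only [hTa, inner_add_right, real_inner_smul_right, real_inner_comm p j,
        real_inner_comm q j, real_inner_comm p k, real_inner_comm q k, h11, h12, h21, h22, hnp, hnq]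
      simp
    rw [← this]
    ext i
    rw [diag_apply, hT.eigenvectorBasis_apply_self_apply]
    rfl

theorem EA_proof : EAStmt := by
  intro Λ
  refine ⟨8 * Λ ^ 2 + 4 * Λ + 1, fun p₁ p₂ j₁ j₂ hs ⟨hΛ, hE⟩ => ?_⟩
  have g1 := hE 1 0 (Or.inl one_ne_zero)
  simp only [one_smul, zero_smul, add_zero] at g1
  have m1 : 0 < ⟪p₁, j₁⟫ := pos_of_mul_pos_right (lt_of_le_of_lt (by positivity) g1) hΛ.le
  set c := ⟪p₁, j₂⟫ / ⟪p₁, j₁⟫ with hc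
  have g2 := hE (-c) 1 (Or.inr one_ne_zero)
  simp only [one_smul] at g2
  set q := -c • p₁ + p₂ with hq
  set k := -c • j₁ + j₂ with hk
  have m2 : 0 < ⟪q, k⟫ := pos_of_mul_pos_right (lt_of_le_of_lt (by positivity) g2) hΛ.le
  have o1 : ⟪p₁, k⟫ = 0 := by
    rw [hk, inner_add_right, real_inner_smul_right, hc]; field_simp; ring
  have o2 : ⟪q, j₁⟫ = 0 := by
    rw [hq, inner_add_left, real_inner_smul_left, ← hs, hc]; field_simp; ring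
  have s1 := Real.sqrt_pos.2 m1
  have s2 := Real.sqrt_pos.2 m2
  have n1 : ∀ {v : E} {m : ℝ}, 0 < m → ‖v‖ ^ 2 ≤ Λ * m → ‖(√m)⁻¹ • v‖ ^ 2 ≤ Λ := by
    intro v m hm h
    rw [norm_smul, mul_pow, norm_inv, Real.norm_of_nonneg (Real.sqrt_nonneg m), inv_pow,
      Real.sq_sqrt hm.le, inv_mul_le_iff₀ hm]
    linarith
  have n2 : ∀ {v w : E}, 0 < ⟪v, w⟫ → ⟪(√⟪v, w⟫)⁻¹ • v, (√⟪v, w⟫)⁻¹ • w⟫ = 1 := by
    intro v w hm
    rw [real_inner_smul_left, real_inner_smul_right, ← mul_assoc, ← mul_inv,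
      Real.mul_self_sqrt hm.le, inv_mul_cancel₀ hm.ne']
  obtain ⟨l, R, hl, hA⟩ := ea_core (p := (√⟪p₁, j₁⟫)⁻¹ • p₁) (j := (√⟪p₁, j₁⟫)⁻¹ • j₁)
    (q := (√⟪q, k⟫)⁻¹ • q) (k := (√⟪q, k⟫)⁻¹ • k) hΛ (n2 m1)
    (by rw [real_inner_smul_left, real_inner_smul_right, o1]; simp)
    (by rw [real_inner_smul_left, real_inner_smul_right, o2]; simp) (n2 m2)
    (n1 m1 (by nlinarith [sq_nonneg ‖j₁‖])) (n1 m2 (by nlinarith [sq_nonneg ‖k‖]))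
    (n1 m1 (by nlinarith [sq_nonneg ‖p₁‖])) (n1 m2 (by nlinarith [sq_nonneg ‖q‖]))
  refine ⟨l, R, hl, ?_, ?_⟩
  · have := hA (√⟪p₁, j₁⟫) 0
    simpa only [smul_smul, mul_inv_cancel₀ s1.ne', one_smul, zero_mul, zero_smul, add_zero]
      using this
  · have := hA (c * √⟪p₁, j₁⟫) (√⟪q, k⟫)
    simp only [smul_smul, mul_assoc, mul_inv_cancel₀ s1.ne', mul_inv_cancel₀ s2.ne', one_smul,
      mul_one] at this
    rw [hq, hk] at this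
    simpa using this

end Crest.Agent.R83
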