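import Crest.Agent.R83.RS

/-! Row 83, task FI (filling an open set with ellipsoids). -/

set_option autoImplicit false

noncomputable section

namespace Crest.Agent.R83

open MeasureTheory Set Filter Topology Metric
open scoped Gradient RealInnerProductSpace NNReal

/-- Diagonal linear equivalence. -/
def fiD (a : Fin 3 → ℝ) (ha : ∀ i, a i ≠ 0) : E ≃ₗ[ℝ] E where
  toFun := diag fun i => (a i)⁻¹
  invFun := diag a
  map_add' p q := by ext i; simp [mul_add]
  map_smul' c p := by ext i; simp; ring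
  left_inv p := by ext i; simp [ha i]
  right_inv p := by ext i; simp [ha i]

theorem FI_proof (hGL : GLStmt) (hST : STStmt) : FIStmt := by
  intro A M d s hd hR Ω hΩo hΩb
  have hsq : ∀ i, √(d i + s) ≠ 0 := fun i => (Real.sqrt_pos.2 (hd i)).ne'
  set D := fiD (fun i => √(d i + s)) hsq with hD
  have hDc : Continuous D := D.toLinearMap.continuous_of_finiteDimensional
  have hDc' : Continuous D.symm := D.symm.toLinearMap.continuous_of_finiteDimensional
  have hell : ∀ x, x ∈ ell d s ↔ ‖D x‖ < 1 := fun x => by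
    rw [← pow_lt_one_iff_of_nonneg (norm_nonneg _) two_ne_zero, normsq3]
    have : ∀ i, D x i ^ 2 = x i ^ 2 / (d i + s) := fun i => by
      change ((√(d i + s))⁻¹ * x i) ^ 2 = _
      rw [mul_pow, inv_pow, Real.sq_sqrt (hd i).le, div_eq_inv_mul]
    simp only [this, ell, mem_ofPred_eq, Fin.sum_univ_three]
  have hΩ' : IsOpen (D.symm ⁻¹' Ω) := hΩo.preimage hDc'
  obtain ⟨t, r, htc, -, hr, hcov, hdis⟩ := Besicovitch.exists_disjoint_closedBall_covering_ae
    (volume : Measure E) (fun c => {r | closedBall c r ⊆ D.symm ⁻¹' Ω}) (D.symm ⁻¹' Ω)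
    (fun x hx δ hδ => by
      have e2 : ∀ᶠ r in 𝓝[>] (0 : ℝ), closedBall x r ⊆ D.symm ⁻¹' Ω :=
        (eventually_closedBall_subset (hΩ'.mem_nhds hx)).filter_mono nhdsWithin_le_nhds
      have e3 : ∀ᶠ r in 𝓝[>] (0 : ℝ), r ∈ Ioo 0 δ := Ioo_mem_nhdsGT hδ
      exact (e2.and e3).exists) (fun _ => 1) (fun _ _ => one_pos)
  have : Countable t := htc.to_subtype
  have hr0 : ∀ b : t, 0 < r b := fun b => (hr b b.2).2.1
  set B : t → Set E := fun b => D ⁻¹' ball (b : E) (r b) with hBdef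
  set S : t → E → E := fun b x => (r b)⁻¹ • (x - D.symm b) with hS
  have hSB : ∀ b x, S b x ∈ ell d s ↔ x ∈ B b := fun b x => by
    rw [hell]
    simp only [hS, hBdef, map_smul, map_sub, LinearEquiv.apply_symm_apply, norm_smul, mem_preimage,
      mem_ball, dist_eq_norm, norm_inv, Real.norm_of_nonneg (hr0 b).le]
    rw [inv_mul_lt_iff₀ (hr0 b), mul_one]
  have hT := fun b : t => hST (LinearIsometryEquiv.refl ℝ E) (r b) (D.symm b) (S b) (hr0 b)
    (fun x => rfl)
  have hSc : ∀ b, Continuous (S b) := fun b => by simp only [hS]; fun_prop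
  have hBo : ∀ b, IsOpen (B b) := fun b => isOpen_ball.preimage hDc
  have hBΩ : ∀ b, B b ⊆ Ω := fun b x hx => by
    have := (hr b b.2).1 (ball_subset_closedBall hx)
    simpa using this
  have hUΩ : (⋃ b, B b) ⊆ Ω := iUnion_subset hBΩ
  have hB : Pairwise fun a b => Disjoint (B a) (B b) := fun a b hab =>
    ((hdis a.2 b.2 (fun e => hab (Subtype.ext e))).mono ball_subset_closedBall
      ball_subset_closedBall).preimage D
  have hBm : ∀ b, MeasurableSet (B b) := fun b => (hBo b).measurableSet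
  have hae : ∀ᵐ x, x ∈ Ω → ∃ b, x ∈ B b := by
    have a1 : ∀ᵐ x, x ∉ D.symm ⁻¹' Ω \ ⋃ x ∈ t, closedBall x (r x) :=
      measure_eq_zero_iff_ae_notMem.1 hcov
    have a2 : ∀ᵐ x, ∀ b : t, x ∉ sphere (b : E) (r b) :=
      ae_all_iff.2 fun b => measure_eq_zero_iff_ae_notMem.1 (Measure.addHaar_sphere volume _ _)
    have a3 : ∀ᵐ y, D.symm y ∈ Ω → ∃ b : t, y ∈ ball (b : E) (r b) := by
      filter_upwards [a1, a2] with y h1 h2 hy
      have h5 : y ∈ ⋃ x ∈ t, closedBall x (r x) := by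
        by_contra h; exact h1 ⟨hy, h⟩
      obtain ⟨b, hb, hxb⟩ := mem_iUnion₂.1 h5
      exact ⟨⟨b, hb⟩, lt_of_le_of_ne hxb (h2 ⟨b, hb⟩)⟩
    have a4 := Measure.addHaar_preimage_linearEquiv (volume : Measure E) D
      {y | ¬ (D.symm y ∈ Ω → ∃ b : t, y ∈ ball (b : E) (r b))}
    rw [ae_iff.1 a3, mul_zero] at a4
    rw [ae_iff]
    convert a4 using 2
    ext x
    simp [hBdef]
  obtain ⟨γ, hγ, hp⟩ := hR
  refine ⟨rsGlue B (fun b x => γ (S b x)) (fun _ => γ 0), fun x => ?_, fun p => ?_⟩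
  · by_cases hx : x ∈ ⋃ b, B b
    · obtain ⟨b, hb⟩ := mem_iUnion.1 hx
      rw [rs_glue_mem hB _ _ hb]
      exact hγ _
    · rw [rs_glue_not _ _ hx]
      exact hγ _
  obtain ⟨w, k, hw, hk⟩ := hp p
  have hkb : ∀ᵐ x, ‖rsGlue B (fun b x => k (S b x)) (fun _ => 0) x‖ ≤ (M * ‖p‖₊ : ℝ≥0) := by
    filter_upwards [ae_all_iff.2 fun b => (hT b).2.2.2.1 _ hw.bdd] with x hx
    by_cases hx' : x ∈ ⋃ b, B b
    · obtain ⟨b, hb⟩ := mem_iUnion.1 hx'
      rw [rs_glue_mem hB _ _ hb]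
      exact hx b
    · rw [rs_glue_not _ _ hx', norm_zero]
      positivity
  have hkm : Measurable (rsGlue B (fun b x => k (S b x)) (fun _ => 0)) :=
    rs_glue_meas hB hBm (fun b => hw.meas.comp (hSc b).measurable) measurable_const
  refine ⟨rsGlue B (fun b x => r b * w (S b x)) (fun _ => 0),
    rsGlue B (fun b x => k (S b x)) (fun _ => 0), ⟨?_, fun x hx => ?_, hkm, hkb, fun x hx => ?_,
    ?_⟩, ?_⟩
  · refine lipschitzOnWith_univ.1 (hGL t univ B (fun _ => 0) _ (fun b x => r b * w (S b x)) _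
      convex_univ hBo hB ((LipschitzWith.const 0).weaken zero_le).lipschitzOnWith
      (fun b => ((hT b).2.2.2.2.2 w _ hw.lip).lipschitzOnWith) (fun b x hx => ?_)
      (fun b x hx => rs_glue_mem hB _ _ hx.2) (fun x hx => rs_glue_not _ _ hx.2))
    have h1 := hx.2
    rw [(hBo b).frontier_eq] at h1
    rw [hw.w0 _ (fun h => h1.2 ((hSB b x).1 h)), mul_zero]
  · exact rs_glue_not _ _ fun h => hx (hUΩ h)
  · exact rs_glue_not _ _ fun h => hx (hUΩ h)
  · exact rs_divFree (kb := fun b x => k (S b x)) hB hBm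
      ((measure_mono hUΩ).trans_lt hΩb.measure_lt_top).ne hkm (hkb.mono fun x hx _ => hx)
      (fun x hx => rs_glue_not _ _ hx) (fun b x hx => rs_glue_mem hB _ _ hx)
      (fun b x hx => hw.k0 _ fun h => hx ((hSB b x).1 h)) (fun b => (hT b).2.2.2.2.1 k hw.div)
  · filter_upwards [hae, ae_all_iff.2 fun b => (hT b).2.2.2.1 _ hk] with x h1 h2 hx
    obtain ⟨b, hb⟩ := h1 hx
    have h3 : rsGlue B (fun b x => r b * w (S b x)) (fun _ => 0) =ᶠ[𝓝 x]
        fun x => r b * w (S b x) := by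
      filter_upwards [(hBo b).mem_nhds hb] with y hy using rs_glue_mem hB _ _ hy
    rw [rs_glue_mem hB _ _ hb, rs_glue_mem hB _ _ hb, grad_congr h3, grad_const_mul,
      (hT b).2.2.1, smul_smul, mul_inv_cancel₀ (hr0 b).ne', one_smul]
    exact h2 b ((hSB b x).2 hb)

end Crest.Agent.R83
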