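import Crest.Agent.R83.Basic

/-! Row 83: small integrability and Lipschitz lemmas. -/

set_option autoImplicit false

noncomputable section

namespace Crest.Agent.R83

open MeasureTheory Set Filter Topology Metric
open scoped Gradient RealInnerProductSpace NNReal

lemma h28_lip_max {f g : E → ℝ} (hf : Lip f) (hg : Lip g) : Lip (fun x => max (f x) (g x)) := by
  obtain ⟨K, hK⟩ := hf; obtain ⟨L, hL⟩ := hg; exact ⟨_, hK.max hL⟩

lemma h28_lip_min {f g : E → ℝ} (hf : Lip f) (hg : Lip g) : Lip (fun x => min (f x) (g x)) := by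
  obtain ⟨K, hK⟩ := hf; obtain ⟨L, hL⟩ := hg; exact ⟨_, hK.min hL⟩

lemma h28_lip_X (i : Fin 3) : Lip (fun x : E => x i) := ⟨1, lipschitz_X i⟩

lemma h28_lip_abs {f : E → ℝ} (hf : Lip f) : Lip (fun x => |f x|) := by
  have := h28_lip_max hf (hf.const_mul (-1))
  simpa only [neg_one_mul, ← abs_eq_max_neg] using this

lemma h28_ae_diff {f : E → ℝ} (hf : Lip f) : ∀ᵐ x, DifferentiableAt ℝ f x := by
  obtain ⟨K, hK⟩ := hf
  exact hK.ae_differentiableAt

/-- gradients of locally Lipschitz functions are locally bounded -/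
lemma h28_grad_bdd {f : E → ℝ} (hf : LocallyLipschitz f) (R : ℝ) :
    ∃ C : ℝ, 0 ≤ C ∧ ∀ x : E, ‖x‖ < R → ‖∇ f x‖ ≤ C := by
  obtain ⟨K, hK⟩ := (hf.locallyLipschitzOn (s := closedBall (0 : E) R)
    ).exists_lipschitzOnWith_of_compact (isCompact_closedBall _ _)
  refine ⟨K, K.2, fun x hx => ?_⟩
  rw [norm_grad]
  exact norm_fderiv_le_of_lipschitzOn ℝ
    (mem_of_superset (isOpen_ball.mem_nhds (mem_ball_zero_iff.2 hx)) ball_subset_closedBall) hK

lemma h28_bdd {f : E → ℝ} (hf : Continuous f) (R : ℝ) :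
    ∃ C : ℝ, 0 ≤ C ∧ ∀ x : E, ‖x‖ < R → |f x| ≤ C := by
  obtain ⟨C, hC⟩ := (isCompact_closedBall (0 : E) R).exists_bound_of_continuousOn hf.continuousOn
  exact ⟨|C|, abs_nonneg C, fun x hx =>
    (hC x (mem_closedBall_zero_iff.2 hx.le)).trans (le_abs_self C)⟩

lemma h28_integrableOn {f : E → ℝ} (hm : Measurable f) {C R : ℝ}
    (hb : ∀ᵐ x : E, ‖x‖ < R → |f x| ≤ C) : IntegrableOn f (ball (0 : E) R) := by
  refine Measure.integrableOn_of_bounded (M := C) measure_ball_lt_top.ne
    hm.aestronglyMeasurable ?_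
  rw [ae_restrict_iff' measurableSet_ball]
  exact hb.mono fun x hx h => hx (mem_ball_zero_iff.1 h)

/-- bounded measurable functions with bounded support are integrable -/
lemma h28_integrable {f : E → ℝ} (hm : Measurable f) {C R : ℝ}
    (hb : ∀ᵐ x : E, ‖x‖ < R → |f x| ≤ C) (h0 : ∀ᵐ x : E, R ≤ ‖x‖ → f x = 0) : Integrable f := by
  refine ((integrable_indicator_iff measurableSet_ball).2 (h28_integrableOn hm hb)).congr ?_
  refine h0.mono fun x hx => ?_
  by_cases h : x ∈ ball (0 : E) R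
  · exact indicator_of_mem h _
  · rw [indicator_of_notMem h, hx (by simpa using h)]

lemma h28_compact {f : E → ℝ} {R : ℝ} (h0 : ∀ x : E, R ≤ ‖x‖ → f x = 0) : HasCompactSupport f :=
  HasCompactSupport.intro (isCompact_closedBall (0 : E) R) fun x hx =>
    h0 x (by simpa using (show R < ‖x‖ by simpa using hx).le)

/-- the pairing of a bounded field with bounded support with a Lipschitz gradient is integrable -/
lemma h28_integrable_inner {k : E → E} {φ : E → ℝ} (hm : Measurable k) (hφ : LocallyLipschitz φ)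
    {C R : ℝ} (hb : ∀ᵐ x : E, ‖k x‖ ≤ C) (h0 : ∀ᵐ x : E, R ≤ ‖x‖ → k x = 0) :
    Integrable (fun x => ⟪k x, ∇ φ x⟫) := by
  obtain ⟨L, hL0, hL⟩ := h28_grad_bdd hφ R
  refine h28_integrable (C := C * L) (R := R) (hm.inner (measurable_grad φ))
    (hb.mono fun x hx h => ?_) (h0.mono fun x hx h => by rw [hx h, inner_zero_left])
  exact (abs_real_inner_le_norm _ _).trans
    (mul_le_mul hx (hL x h) (norm_nonneg _) ((norm_nonneg _).trans hx))

end Crest.Agent.R83
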