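import Crest.Agent.R83.NL
import Crest.Agent.R83.H28Aux

/-! Row 83, task FL: Friedrichs inequality. -/

set_option autoImplicit false

noncomputable section

namespace Crest.Agent.R83

open MeasureTheory Set Filter Topology Metric
open scoped Gradient RealInnerProductSpace NNReal

theorem FL_proof (hGL : GLStmt) (hZL : ZLStmt) : FLStmt := by
  intro f hf h0
  obtain ⟨K, hK⟩ := (hf.locallyLipschitzOn (s := closedBall (0 : E) 3)
    ).exists_lipschitzOnWith_of_compact (isCompact_closedBall _ _)
  have hg : LipschitzOnWith K ((ball (0 : E) 3).indicator f) univ := by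
    refine hGL Unit univ (fun _ => ball 0 3) (fun _ => 0) _ (fun _ => f) K convex_univ
      (fun _ => isOpen_ball) Subsingleton.pairwise
      ((LipschitzWith.const (0 : ℝ)).weaken (zero_le)).lipschitzOnWith (fun _ => ?_)
      (fun _ x hx => ?_) (fun _ x hx => indicator_of_mem hx.2 _) (fun x hx => ?_)
    · exact hK.mono (inter_subset_right.trans closure_ball_subset_closedBall)
    · exact h0 x (mem_sphere_zero_iff_norm.1 (frontier_ball_subset_sphere hx.2))
    · exact indicator_of_notMem (fun h => hx.2 (mem_iUnion.2 ⟨(), h⟩)) _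
  have hg' := (lipschitzOnWith_univ.1 hg).locallyLipschitz
  set g := (ball (0 : E) 3).indicator f with hgdef
  have hz : ∀ x, x ∉ ball (0 : E) 3 → X 0 x * (g x * g x) = 0 := fun x hx => by
    rw [hgdef, indicator_of_notMem hx, mul_zero, mul_zero]
  have hl : LocallyLipschitz fun x => X 0 x * (g x * g x) :=
    locLip_mul (lipschitz_X 0).locallyLipschitz (locLip_mul hg' hg')
  have hc : HasCompactSupport fun x => X 0 x * (g x * g x) :=
    h28_compact (R := 3) fun x hx => hz x (by simpa using hx)
  have h1 := nl_ftc (lip_of_locLip hl hc) hc 0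
  rw [← setIntegral_eq_integral_of_ae_compl_eq_zero (s := ball (0 : E) 3) (by
    filter_upwards [hZL.2.1 _ _ hl (LocallyLipschitz.const 0)] with x hx hx'
    rw [hx (hz x hx'), grad_const]
    rfl)] at h1
  obtain ⟨C, hC0, hC⟩ := h28_grad_bdd hf 3
  have i1 : IntegrableOn (fun x => f x ^ 2) (ball (0 : E) 3) :=
    ((hf.continuous.pow 2).continuousOn.integrableOn_compact (isCompact_closedBall 0 3)).mono_set
      ball_subset_closedBall
  have i2 : IntegrableOn (fun x => ‖∇ f x‖ ^ 2) (ball (0 : E) 3) :=
    h28_integrableOn ((measurable_grad f).norm.pow_const 2) (C := C ^ 2)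
      (Eventually.of_forall fun x hx => by
        rw [abs_of_nonneg (sq_nonneg _)]
        exact pow_le_pow_left₀ (norm_nonneg _) (hC x hx) 2)
  have h2 := setIntegral_mono_on_ae (μ := volume) (s := ball (0 : E) 3)
    (f := fun x => 1 / 2 * f x ^ 2 - 18 * ‖∇ f x‖ ^ 2) 
    (by have := (i1.const_mul (1 / 2)).sub (i2.const_mul 18); exact this)
    (nl_int_coord (lip_of_locLip hl hc) hc 0).integrableOn measurableSet_ball (by
      filter_upwards [hZL.2.2 f hf] with x hx hb
      have e : (fun x => X 0 x * (g x * g x)) =ᶠ[𝓝 x] fun x => X 0 x * (f x * f x) := by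
        filter_upwards [isOpen_ball.mem_nhds hb] with y hy
        rw [hgdef, indicator_of_mem hy]
      rw [grad_congr e, grad_mul (hasFDerivAt_X 0 x).differentiableAt (hx.fun_mul hx), grad_mul hx hx,
        grad_X]
      simp only [PiLp.add_apply, PiLp.smul_apply, smul_eq_mul, ee_apply, if_true, X_apply]
      have a1 : x 0 ^ 2 ≤ 9 := by
        have := (abs_coord_le x 0).trans (mem_ball_zero_iff.1 hb).le
        nlinarith [abs_nonneg (x 0), sq_abs (x 0)]
      have a2 : ∇ f x 0 ^ 2 ≤ ‖∇ f x‖ ^ 2 := by
        rw [normsq3]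
        nlinarith [sq_nonneg (∇ f x 1), sq_nonneg (∇ f x 2)]
      nlinarith [sq_nonneg (f x + 2 * x 0 * ∇ f x 0), mul_le_mul_of_nonneg_right a1
        (sq_nonneg (∇ f x 0))])
  rw [h1, integral_sub (i1.const_mul _) (i2.const_mul _), integral_const_mul,
    integral_const_mul] at h2
  linarith

end Crest.Agent.R83
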