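import Crest.Agent.R83.Basic

/-! Row 83, task FT: flattening a `C¹` function near a point. -/

set_option autoImplicit false

noncomputable section

namespace Crest.Agent.R83

open MeasureTheory Set Filter Topology Metric
open scoped Gradient RealInnerProductSpace NNReal

lemma ft_grad_aff (c : ℝ) (p x₀ x : E) : ∇ (fun y => c + ⟪p, y - x₀⟫) x = p := by
  have h : HasFDerivAt (fun y : E => c + ⟪p, y - x₀⟫) (innerSL ℝ p) x := by
    have := ((innerSL ℝ p).hasFDerivAt (x := x)).add_const (c - ⟪p, x₀⟫)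
    refine this.congr_of_eventuallyEq (Eventually.of_forall fun y => ?_)
    simp only [inner_sub_right, innerSL_apply_apply]
    ring
  ext i
  rw [grad_eq_of_hasFDerivAt h, innerSL_apply_apply, inner_ee]

theorem FT_proof : FTStmt := by
  intro f x₀ hf ε hε
  let χ : ContDiffBump (0 : E) := ⟨1 / 2, 3 / 4, by norm_num, by norm_num⟩
  have hχ : ContDiff ℝ 1 χ := χ.contDiff
  obtain ⟨L, hL⟩ := lip_of_locLip hχ.locallyLipschitz χ.hasCompactSupport
  have hL0 : (0 : ℝ) ≤ L := L.2
  have he : 0 < ε / (1 + L) := by positivity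
  have h1 : ∀ᶠ x in 𝓝 x₀, ContDiffAt ℝ 1 f x ∧ ‖∇ f x - ∇ f x₀‖ ≤ ε / (1 + L) := by
    refine (hf.eventually (by simp)).and ?_
    have := (continuousAt_grad hf).eventually (closedBall_mem_nhds _ he)
    simpa only [mem_closedBall, dist_eq_norm] using this
  obtain ⟨δ, hδ, h2⟩ := nhds_basis_closedBall.eventually_iff.1 h1
  filter_upwards [Ioo_mem_nhdsGT hδ] with r ⟨hr, hrδ⟩
  have h3 : ∀ x ∈ closedBall x₀ r, ContDiffAt ℝ 1 f x ∧ ‖∇ f x - ∇ f x₀‖ ≤ ε / (1 + L) :=
    fun x hx => h2 (closedBall_subset_closedBall hrδ.le hx)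
  set l : E → ℝ := fun y => f x₀ + ⟪∇ f x₀, y - x₀⟫ with hl
  have hlc : ContDiff ℝ 1 l :=
    contDiff_const.add (contDiff_const.inner ℝ (contDiff_id.sub contDiff_const))
  set c : E → ℝ := fun y => χ (r⁻¹ • (y - x₀)) with hc
  have hcc : ContDiff ℝ 1 c := hχ.comp ((contDiff_id.sub contDiff_const).const_smul _)
  have hcl : LipschitzWith (L * ‖r⁻¹‖₊) c := hL.comp (LipschitzWith.of_dist_le_mul fun x y => by
    rw [dist_eq_norm, dist_eq_norm, ← smul_sub, norm_smul, sub_sub_sub_cancel_right, coe_nnnorm])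
  have hn : ∀ y : E, ‖r⁻¹ • (y - x₀)‖ = dist y x₀ / r := fun y => by
    rw [norm_smul, dist_eq_norm, Real.norm_of_nonneg (inv_pos.2 hr).le, div_eq_inv_mul]
  have hg : ∀ x ∈ closedBall x₀ r, DifferentiableAt ℝ (fun y => f y - l y) x ∧
      ‖∇ (fun y => f y - l y) x‖ ≤ ε / (1 + L) := fun x hx => by
    have d1 := (h3 x hx).1.differentiableAt one_ne_zero
    have d2 := hlc.differentiable one_ne_zero x
    refine ⟨d1.sub d2, ?_⟩
    rw [grad_sub d1 d2, hl, ft_grad_aff]
    exact (h3 x hx).2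
  have hg2 : ∀ x ∈ closedBall x₀ r, |f x - l x| ≤ ε / (1 + L) * r := fun x hx => by
    have := (convex_closedBall x₀ r).norm_image_sub_le_of_norm_fderiv_le (𝕜 := ℝ)
      (f := fun y => f y - l y) (C := ε / (1 + L)) (fun y hy => (hg y hy).1)
      (fun y hy => by rw [← norm_grad]; exact (hg y hy).2) (mem_closedBall_self hr.le) hx
    simp only [hl, sub_self, inner_zero_right, add_zero, sub_zero, Real.norm_eq_abs] at this
    refine this.trans (mul_le_mul_of_nonneg_left ?_ he.le)
    rwa [← dist_eq_norm]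
  refine ⟨fun x hx => (h3 x hx).1, fun y => l y + (1 - c y) * (f y - l y), fun x hx => ⟨?_, ?_⟩,
    fun x hx => ?_, fun x hx => ?_⟩
  · exact hlc.contDiffAt.add ((contDiffAt_const.sub hcc.contDiffAt).mul
      ((h3 x hx).1.sub hlc.contDiffAt))
  · have d2 := hlc.differentiable one_ne_zero x
    have d3 := hcc.differentiable one_ne_zero x
    have d4 : DifferentiableAt ℝ (fun y => 1 - c y) x := (differentiableAt_const _).sub d3
    rw [grad_add d2 (d4.fun_mul (hg x hx).1), grad_mul d4 (hg x hx).1,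
      grad_sub (differentiableAt_const _) d3, grad_const, zero_sub]
    conv_lhs => rw [show ∇ l x = ∇ f x₀ from ft_grad_aff _ _ _ _]
    rw [add_sub_cancel_left]
    refine (norm_add_le _ _).trans ?_
    rw [norm_smul, norm_smul, norm_neg]
    have a1 : ‖1 - c x‖ ≤ 1 := by
      rw [Real.norm_eq_abs, abs_le]
      have := χ.nonneg (x := r⁻¹ • (x - x₀))
      have := χ.le_one (x := r⁻¹ • (x - x₀))
      constructor <;> simp only [hc] <;> linarith
    have a2 : ‖∇ c x‖ ≤ L * r⁻¹ := by
      have := norm_grad_le hcl x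
      rwa [NNReal.coe_mul, coe_nnnorm, Real.norm_of_nonneg (inv_pos.2 hr).le] at this
    have a3 := mul_le_mul a1 (hg x hx).2 (norm_nonneg _) zero_le_one
    have a4 := mul_le_mul (hg2 x hx) a2 (norm_nonneg _) (by positivity)
    refine (add_le_add a3 a4).trans (le_of_eq ?_)
    field_simp
  · have : c x = 0 := χ.zero_of_le_dist (by
      rw [dist_zero_right, hn, le_div_iff₀ hr]
      have : 3 * r / 4 ≤ dist x x₀ := by simpa using hx
      change 3 / 4 * r ≤ _
      linarith)
    simp [this]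
  · have : c x = 1 := χ.one_of_mem_closedBall (by
      rw [mem_closedBall, dist_zero_right, hn, div_le_iff₀ hr]
      have : dist x x₀ ≤ r / 2 := hx
      change _ ≤ 1 / 2 * r
      linarith)
    simp [this, hl]

end Crest.Agent.R83
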