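import Crest.Agent.R83.H28Aux

/-! Row 83, task GA: the isotropic gadget. -/

set_option autoImplicit false

noncomputable section

namespace Crest.Agent.R83

open MeasureTheory Set Filter Topology Metric
open scoped Gradient RealInnerProductSpace NNReal

lemma ga_real (hRL : RLStmt) (hGB : GBStmt) (Λ : ℝ) : ∃ M : ℝ, 1 ≤ M ∧
    ∀ (ι : Type) [Finite ι] (u : ι → E → ℝ) (j : ι → E → E) (B : Set E), IsOpen B →
      Bornology.IsBounded B → (∀ i, Lip (u i) ∧ Measurable (j i) ∧ ∀ x, x ∉ B → j i x = 0) →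
      (∀ᵐ x, x ∈ B → Good Λ u j x) →
      ∃ (u' : ι → E → ℝ) (j' : ι → E → E) (γ : E → ℝ), Measurable γ ∧
        (∀ x, 1 ≤ M * γ x ∧ γ x ≤ M) ∧
        (∀ i, Lip (u' i) ∧ Measurable (j' i) ∧ DivFree (fun x => j' i x - j i x) ∧
          (∀ x, x ∉ B → u' i x = u i x ∧ j' i x = 0) ∧ ∃ C : ℝ, ∀ᵐ x, ‖j' i x‖ ≤ C) ∧
        ∀ᵐ x, x ∈ B → ∀ i, j' i x = γ x • ∇ (u' i) x := by
  obtain ⟨M, hM, h⟩ := hRL Λ
  refine ⟨M, by exact_mod_cast hM, fun ι _ u j B hB hBb hu hg => ?_⟩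
  obtain ⟨u', j', γ, C, h1, h2, h3, h4⟩ := h ι u j (B ∩ {x | Good Λ u j x})
    (hB.inter (hGB.2.1 ι Λ u j)) (hBb.subset inter_subset_left)
    (fun i => ⟨(hu i).1, (hu i).2.1⟩) (fun x hx => hx.2)
  refine ⟨u', j', γ, h1, h2, fun i => ?_, ?_⟩
  · obtain ⟨k1, k2, k3, k4, k5⟩ := h3 i
    have k6 : ∀ x, x ∉ B → u' i x = u i x ∧ j' i x = 0 := fun x hx => by
      obtain ⟨e1, e2⟩ := k4 x fun h => hx h.1
      exact ⟨e1, e2.trans ((hu i).2.2 x hx)⟩
    refine ⟨k1, k2, k3, k6, |C|, ?_⟩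
    filter_upwards [hg, k5] with x a1 a2
    by_cases hx : x ∈ B
    · exact (a2 ⟨hx, a1 hx⟩).trans (le_abs_self C)
    · rw [(k6 x hx).2, norm_zero]
      exact abs_nonneg C
  · filter_upwards [hg, h4] with x a1 a2 hx
    exact a2 ⟨hx, a1 hx⟩

/-- bounded measurable fields supported in the cell -/
def GaNice (k : E → E) : Prop :=
  Measurable k ∧ (∃ C : ℝ, ∀ᵐ x, ‖k x‖ ≤ C) ∧ ∀ x, x ∉ UU → k x = 0

lemma GaNice.add {k l : E → E} (hk : GaNice k) (hl : GaNice l) : GaNice (fun x => k x + l x) := by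
  obtain ⟨a1, ⟨C, a2⟩, a3⟩ := hk
  obtain ⟨b1, ⟨D, b2⟩, b3⟩ := hl
  refine ⟨a1.add b1, ⟨C + D, ?_⟩, fun x hx => by simp only [a3 x hx, b3 x hx, add_zero]⟩
  filter_upwards [a2, b2] with x h1 h2 using (norm_add_le _ _).trans (add_le_add h1 h2)

lemma GaNice.sub {k l : E → E} (hk : GaNice k) (hl : GaNice l) : GaNice (fun x => k x - l x) := by
  obtain ⟨a1, ⟨C, a2⟩, a3⟩ := hk
  obtain ⟨b1, ⟨D, b2⟩, b3⟩ := hl
  refine ⟨a1.sub b1, ⟨C + D, ?_⟩, fun x hx => by simp only [a3 x hx, b3 x hx, sub_zero]⟩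
  filter_upwards [a2, b2] with x h1 h2 using (norm_sub_le _ _).trans (add_le_add h1 h2)

lemma ga_rho : 0 < rho := by norm_num [rho]

lemma ga_ball (hGE : GEStmt) {x : E} (hx : x ∈ UU) : ‖x‖ < 27 / 10 := hGE.2.2.1 x (le_of_lt hx)

lemma ga_out (hGE : GEStmt) {x : E} (hx : 27 / 10 ≤ ‖x‖) : x ∉ UU := fun h =>
  absurd (ga_ball hGE h) (not_lt.2 hx)

lemma ga_ch_sub (hGE : GEStmt) (i : Bool) : Ch i ⊆ UU := fun x hx =>
  lt_of_le_of_lt (hGE.2.2.2.1 i x (le_of_lt hx)).1 (by norm_num [N1])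

lemma ga_ch_disj (hGE : GEStmt) {x : E} (h0 : x ∈ Ch false) (h1 : x ∈ Ch true) : False := by
  have a0 := abs_le.1 (hGE.2.2.2.1 false x (le_of_lt h0)).2
  have a1 := abs_le.1 (hGE.2.2.2.1 true x (le_of_lt h1)).2
  simp only [cen, cc, rho, cond_false, cond_true] at a0 a1
  linarith [a0.2, a1.1]

lemma ga_cont (hGE : GEStmt) (i : Bool) : Continuous (Sinv i) := by
  obtain ⟨-, -, -, -, -, R, -, -, h, -⟩ := hGE
  rw [show Sinv i = _ from funext (h i)]
  fun_prop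

lemma ga_open (hGE : GEStmt) : IsOpen UU := by
  obtain ⟨K, hK⟩ := hGE.1
  exact isOpen_lt hK.continuous continuous_const

lemma GaNice.integrable (hGE : GEStmt) {k : E → E} (hk : GaNice k) {φ : E → ℝ} (hφ : Lip φ) :
    Integrable (fun x => ⟪k x, ∇ φ x⟫) := by
  obtain ⟨a1, ⟨C, a2⟩, a3⟩ := hk
  exact h28_integrable_inner a1 hφ.locLip a2
    (ae_of_all _ fun x hx => a3 x (ga_out hGE hx))

lemma GaNice.push (hGE : GEStmt) (hST : STStmt) {k : E → E} (hk : GaNice k) (i : Bool) :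
    GaNice (push i k) := by
  obtain ⟨a1, ⟨C, a2⟩, a3⟩ := hk
  have hc := ga_cont hGE i
  have hs := ga_ch_sub hGE i
  obtain ⟨-, -, -, -, -, R, h1, -, h, -⟩ := hGE
  have e : R83.push i k = fun x => (rho⁻¹ ^ 2) • R (k (Sinv i x)) := by
    funext x; rw [h1]; rfl
  rw [e]
  refine ⟨(R.continuous.measurable.comp (a1.comp hc.measurable)).const_smul (rho⁻¹ ^ 2),
    ⟨rho⁻¹ ^ 2 * C, ?_⟩, fun x hx => ?_⟩
  · filter_upwards [(hST R rho _ (Sinv i) ga_rho (h i)).2.2.2.1 _ a2] with x hx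
    rw [norm_smul, R.norm_map, Real.norm_of_nonneg (sq_nonneg _)]
    exact mul_le_mul_of_nonneg_left hx (sq_nonneg _)
  · simp only
    rw [a3 _ fun h => hx (hs h), map_zero, smul_zero]

lemma ga_alg {γ c m n ψ : ℝ} {p q s t : E} (h : (n = 0 ∧ q = 0 ∧ s = 0) ∨
    (m = 1 ∧ n = 0 ∧ p = 0 ∧ s = 0) ∨ (m = 1 ∧ p = 0 ∧ q = 0) ∨ (p = 0 ∧ q = 0 ∧ s = 0)) :
    γ * ⟪m • p + q + (c * (1 - n)) • s, t⟫ =
      ⟪γ • p + γ • q + (c * γ) • s, ((1 - n) * ψ) • p - (m * ψ) • s + (m * (1 - n)) • t⟫ +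
        ψ * (c * γ * ‖s‖ ^ 2) - ψ * (γ * ‖p‖ ^ 2) := by
  rcases h with ⟨rfl, rfl, rfl⟩ | ⟨rfl, rfl, rfl, rfl⟩ | ⟨rfl, rfl, rfl⟩ | ⟨rfl, rfl, rfl⟩ <;>
    simp only [inner3, normsq3, PiLp.add_apply, PiLp.sub_apply, PiLp.smul_apply, PiLp.zero_apply,
      smul_eq_mul] <;> ring

lemma ga_grad_a {m r n : E → ℝ} {x : E} (c : ℝ) (hm : DifferentiableAt ℝ m x)
    (hr : DifferentiableAt ℝ r x) (hn : DifferentiableAt ℝ n x) :
    ∇ (fun y => 1 / 2 * (m y * m y) + r y + c * (n y - 1 / 2 * (n y * n y))) x =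
      m x • ∇ m x + ∇ r x + (c * (1 - n x)) • ∇ n x := by
  rw [grad_add (by fun_prop) (by fun_prop), grad_add (by fun_prop) hr, grad_const_mul,
    grad_const_mul, grad_sub hn (by fun_prop), grad_const_mul, grad_mul hm hm, grad_mul hn hn]
  apply ext3 <;> simp <;> ring

lemma ga_grad_phi {m n ψ : E → ℝ} {x : E} (hm : DifferentiableAt ℝ m x)
    (hn : DifferentiableAt ℝ n x) (hψ : DifferentiableAt ℝ ψ x) :
    ∇ (fun y => m y * (1 - n y) * ψ y) x =
      ((1 - n x) * ψ x) • ∇ m x - (m x * ψ x) • ∇ n x + (m x * (1 - n x)) • ∇ ψ x := by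
  rw [grad_mul (by fun_prop) hψ, grad_mul hm (by fun_prop), grad_sub (by fun_prop) hn]
  apply ext3 <;> simp <;> ring

theorem GA_proof (hPA : PAStmt) (hRL : RLStmt) (hGB : GBStmt) (hGE : GEStmt) (hST : STStmt)
    (hZL : ZLStmt) (hFL : FLStmt) : GAStmt := by
  classical
  obtain ⟨Λ, B, R, μ, JB, r, JR, C, hBo, hRo, hBU, hRU, hBR, hCh, hnull, hμ, hμ0, hμ1, hJBm, hJBb,
    hJB0, hr, hgB, hgR, hweak⟩ := hPA
  obtain ⟨M, hM, hreal⟩ := ga_real hRL hGB Λ
  have hUb : Bornology.IsBounded UU :=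
    (isBounded_ball (x := (0 : E)) (r := 27 / 10)).subset fun x hx =>
      mem_ball_zero_iff.2 (ga_ball hGE hx)
  obtain ⟨m', Jm', γB, hγBm, hγB, hm', hBae⟩ := hreal Unit (fun _ => μ) (fun _ => JB) B hBo
    (hUb.subset hBU) (fun _ => ⟨hμ, hJBm, hJB0⟩) hgB
  obtain ⟨r', J', γR, hγRm, hγR, hr', hRae⟩ := hreal Bool r JR R hRo (hUb.subset hRU)
    (fun i => ⟨(hr i).1, (hr i).2.2.2.2.1, (hr i).2.2.2.2.2.2⟩) hgR
  obtain ⟨hm, hJmm, hJmd, hmB, hJmb⟩ := hm' ()
  set m := m' () with hmdef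
  set Jm := Jm' () with hJmdef
  obtain ⟨Rm, hR1, hR2, hR3, -⟩ := hGE.2.2.2.2.2
  have hS := fun i => hST Rm rho _ (Sinv i) ga_rho (hR3 i)
  have hρ := ga_rho
  have hchB : ∀ i x, x ∈ Ch i → x ∉ B := fun i x hx h => disjoint_left.1 (hCh i).1 h hx
  have hchR : ∀ i x, x ∈ Ch i → x ∉ R := fun i x hx h => disjoint_left.1 (hCh i).2 h hx
  have hm0 : ∀ x, x ∉ UU → m x = 0 := fun x hx => ((hmB x fun h => hx (hBU h)).1).trans (hμ0 x hx)
  have hm1 : ∀ x ∈ UU, x ∉ B → m x = 1 := fun x hx h => ((hmB x h).1).trans (hμ1 x hx h)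
  have hz : ∀ f : E → ℝ, Lip f → ∀ c : ℝ, ∀ᵐ x, f x = c → ∇ f x = 0 := fun f hf c => by
    simpa using hZL.2.1 f (fun _ => c) hf.locLip (Lip.const c).locLip
  have hn : ∀ i, Lip (fun x => m (Sinv i x)) := fun i => by
    obtain ⟨K, hK⟩ := hm
    have := Lip.const_mul rho⁻¹ ⟨K, (hS i).2.2.2.2.2 m K hK⟩
    simpa only [inv_mul_cancel_left₀ hρ.ne'] using this
  -- the conductivity
  set γ : E → ℝ := fun x => if x ∈ B then γB x else if x ∈ R then γR x else
    if Sinv false x ∈ B then γB (Sinv false x) else if Sinv true x ∈ B then γB (Sinv true x)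
    else 1 with hγ
  have hγm : Measurable γ :=
    Measurable.ite hBo.measurableSet hγBm (Measurable.ite hRo.measurableSet hγRm
      (Measurable.ite ((ga_cont hGE false).measurable hBo.measurableSet)
        (hγBm.comp (ga_cont hGE false).measurable)
        (Measurable.ite ((ga_cont hGE true).measurable hBo.measurableSet)
          (hγBm.comp (ga_cont hGE true).measurable) measurable_const)))
  have hγb : ∀ x, 1 ≤ M * γ x ∧ γ x ≤ M := fun x => by
    simp only [hγ]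
    split_ifs
    exacts [hγB _, hγR _, hγB _, hγB _, ⟨by linarith, hM⟩]
  have hγ0 : ∀ x, 0 < γ x := fun x => by
    have := (hγb x).1
    by_contra h
    nlinarith
  have hγS : ∀ k x, Sinv k x ∈ B → γ x = γ (Sinv k x) := fun k x hx => by
    have h1 : x ∈ Ch k := hBU hx
    simp only [hγ, if_pos hx, if_neg (hchB k x h1), if_neg (hchR k x h1)]
    cases k
    · rw [if_pos hx]
    · rw [if_neg fun h => ga_ch_disj hGE (hBU h) h1, if_pos hx]
  obtain ⟨K, hK⟩ := id hm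
  have hK0 : (0 : ℝ) ≤ K := K.2
  set σ : E → ℝ := fun x => if x ∈ B then γ x * ‖∇ m x‖ ^ 2 else 0 with hσ
  have hσm : Measurable σ := Measurable.ite hBo.measurableSet
    (hγm.mul ((measurable_grad m).norm.pow_const 2)) measurable_const
  have hσb : ∀ x, 0 ≤ σ x ∧ σ x ≤ M * (1 + K ^ 2) := fun x => by
    simp only [hσ]
    have h1 := hγ0 x
    split_ifs
    · refine ⟨by positivity, mul_le_mul (hγb x).2 ?_ (by positivity) (by linarith)⟩
      have := pow_le_pow_left₀ (norm_nonneg _) (norm_grad_le hK x) 2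
      linarith
    · exact ⟨le_rfl, by positivity⟩
  have hσ0 : ∀ x, x ∉ UU → σ x = 0 := fun x hx => if_neg fun h => hx (hBU h)
  -- a.e. structure
  have hA : ∀ᵐ x, (x ∉ B → ∇ m x = 0) ∧ Jm x = γ x • ∇ m x ∧ σ x = γ x * ‖∇ m x‖ ^ 2 := by
    filter_upwards [hz m hm 0, hz m hm 1, hBae] with x h0 h1 h2
    have h3 : x ∉ B → ∇ m x = 0 := fun hx => by
      by_cases hU : x ∈ UU
      · exact h1 (hm1 x hU hx)
      · exact h0 (hm0 x hU)
    refine ⟨h3, ?_, ?_⟩
    · by_cases hx : x ∈ B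
      · rw [show γ x = γB x from if_pos hx]
        exact h2 hx ()
      · rw [h3 hx, (hmB x hx).2, smul_zero]
    · by_cases hx : x ∈ B
      · exact if_pos hx
      · rw [h3 hx, show σ x = 0 from if_neg hx]
        simp
  have hU : ∀ᵐ x, x ∈ UU → x ∈ B ∪ R ∪ Ch false ∪ Ch true := by
    rw [ae_iff]
    convert hnull using 2
    ext x
    simp only [mem_setOf_eq, mem_diff, Classical.not_imp]
  have hBq : ∀ i, ∀ᵐ x, (x ∉ R → ∇ (r' i) x = 0) ∧ J' i x = γ x • ∇ (r' i) x := fun i => by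
    obtain ⟨k1, -, -, k4, -⟩ := hr' i
    obtain ⟨-, l2, l3, l4, -⟩ := hr i
    obtain ⟨c0, hc0⟩ := l4 false
    obtain ⟨c1, hc1⟩ := l4 true
    filter_upwards [hz _ k1 0, hz _ k1 c0, hz _ k1 c1, hU, hRae] with x h0 h1 h2 h3 h4
    have h5 : x ∉ R → ∇ (r' i) x = 0 := fun hx => by
      have e := (k4 x hx).1
      by_cases hxU : x ∈ UU
      · rcases h3 hxU with ((h | h) | h) | h
        exacts [h0 (e.trans (l3 x h)), absurd h hx, h1 (e.trans (hc0 x h)), h2 (e.trans (hc1 x h))]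
      · exact h0 (e.trans (l2 x hxU))
    refine ⟨h5, ?_⟩
    by_cases hx : x ∈ R
    · have : γ x = γR x := by
        simp only [hγ, if_neg (disjoint_right.1 hBR hx), if_pos hx]
      rw [this]
      exact h4 hx i
    · rw [h5 hx, (k4 x hx).2, smul_zero]
  have hCq : ∀ i, ∀ᵐ x, (Sinv i x ∉ B → ∇ (fun y => m (Sinv i y)) x = 0) ∧
      push i Jm x = (rho⁻¹ * γ x) • ∇ (fun y => m (Sinv i y)) x ∧
      rho⁻¹ ^ 3 * σ (Sinv i x) = rho⁻¹ * γ x * ‖∇ (fun y => m (Sinv i y)) x‖ ^ 2 := fun i => by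
    filter_upwards [(hS i).2.2.2.1 _ hA] with x ⟨h1, h2, h3⟩
    rw [(hS i).2.2.1 m x]
    refine ⟨fun hx => by rw [h1 hx, map_zero, smul_zero], ?_, ?_⟩
    · unfold push
      rw [← hR2, h2]
      by_cases hx : Sinv i x ∈ B
      · rw [← hγS i x hx, map_smul, smul_smul, smul_smul]
        congr 1
        ring
      · rw [h1 hx]
        simp
    · rw [h3, norm_smul, LinearIsometryEquiv.norm_map, Real.norm_of_nonneg (by positivity)]
      by_cases hx : Sinv i x ∈ B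
      · rw [← hγS i x hx]
        ring
      · rw [h1 hx]
        simp
  refine ⟨B, M * (1 + K ^ 2), γ, fun i y => 1 / 2 * (m y * m y) + r' i y +
    rho⁻¹ * (m (Sinv i y) - 1 / 2 * (m (Sinv i y) * m (Sinv i y))), σ, hBU, fun i => (hCh i).1,
    hγm, fun x => ⟨?_, hγ0 x, ?_⟩, hγS, hσm, hσb, hσ0, ?_, fun i => ?_⟩
  · have := mul_nonneg (mul_nonneg (zero_le_one.trans hM) (sq_nonneg (K : ℝ))) (hγ0 x).le
    nlinarith [(hγb x).1]
  · nlinarith [(hγb x).2, sq_nonneg (K : ℝ)]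
  · have hσi : Integrable σ := h28_integrable hσm (C := M * (1 + K ^ 2)) (R := 27 / 10)
      (ae_of_all _ fun x _ => by rw [abs_of_nonneg (hσb x).1]; exact (hσb x).2)
      (ae_of_all _ fun x hx => hσ0 x (ga_out hGE hx))
    have h1 := hFL m hm.locLip fun x hx => hm0 x (ga_out hGE (by rw [hx]; norm_num))
    have h2 : ∫ x in ball (0 : E) 3, ‖∇ m x‖ ^ 2 ≤ M * ∫ x, σ x := by
      rw [← integral_const_mul]
      refine le_trans (integral_mono_of_nonneg (ae_of_all _ fun x => by positivity)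
        (hσi.const_mul M).integrableOn (ae_restrict_of_ae (hA.mono fun x hx => ?_)))
        (setIntegral_le_integral (hσi.const_mul M) (ae_of_all _ fun x =>
          mul_nonneg (by linarith) (hσb x).1))
      simp only
      rw [hx.2.2, ← mul_assoc]
      exact le_mul_of_one_le_left (by positivity) (hγb x).1
    have h3 : 0 < ∫ x in ball (0 : E) 3, m x ^ 2 := by
      rw [setIntegral_eq_integral_of_forall_compl_eq_zero fun x hx => by
        rw [hm0 x (ga_out hGE (by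
          have : 3 ≤ ‖x‖ := by simpa using hx
          linarith))]
        simp]
      have hx : (!₂[cen false, rho * cc, 0] : E) ∈ Ch false := by
        change Sinv false _ ∈ UU
        rw [hR3, sub_self, map_zero, smul_zero]
        exact hGE.2.2.2.2.1
      refine Continuous.integral_pos_of_hasCompactSupport_nonneg_nonzero (hm.continuous.pow 2)
        (h28_compact (R := 27 / 10) fun x hx => by simp [hm0 x (ga_out hGE hx)])
        (fun x => sq_nonneg _) (x := !₂[cen false, rho * cc, 0]) ?_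
      rw [hm1 _ (ga_ch_sub hGE false hx) (hchB false _ hx)]
      norm_num
    by_contra h4
    nlinarith
  obtain ⟨k1, k2, k3, k4, k5⟩ := hr' i
  obtain ⟨l1, l2, l3, l4, l5, l6, l7⟩ := hr i
  have hn0 : ∀ x, x ∉ Ch i → m (Sinv i x) = 0 := fun x hx => hm0 _ hx
  have ha0 : ∀ x, x ∉ UU → 1 / 2 * (m x * m x) + r' i x +
      rho⁻¹ * (m (Sinv i x) - 1 / 2 * (m (Sinv i x) * m (Sinv i x))) = 0 := fun x hx => by
    rw [hm0 x hx, hn0 x fun h => hx (ga_ch_sub hGE i h), (k4 x fun h => hx (hRU h)).1, l2 x hx]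
    simp
  have hsq : ∀ f : E → ℝ, Lip f → (∀ x, x ∉ UU → f x = 0) → ∀ g : E → ℝ, LocallyLipschitz g →
      Lip (fun x => f x * g x) := fun f hf h0 g hg =>
    lip_of_locLip (locLip_mul hf.locLip hg)
      (h28_compact (R := 27 / 10) fun x hx => by rw [h0 x (ga_out hGE hx), zero_mul])
  refine ⟨(((hsq m hm hm0 m hm.locLip).const_mul _).add k1).add (((hn i).sub
    ((hsq _ (hn i) (fun x hx => hn0 x fun h => hx (ga_ch_sub hGE i h)) _
      (hn i).locLip).const_mul _)).const_mul _), ha0, fun k => ?_, fun ψ hψ => ?_⟩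
  · filter_upwards [hA, hBq i, hCq i, h28_ae_diff hm, h28_ae_diff k1, h28_ae_diff (hn i)]
      with x a1 a2 a3 d1 d2 d3 hx hx'
    rw [ga_grad_a _ d1 d2 d3, a1.1 (hchB k x hx), a2.1 (hchR k x hx), a3.1]
    · simp
    · intro h
      cases i <;> cases k
      exacts [hx' h, ga_ch_disj hGE (hBU h) hx, ga_ch_disj hGE hx (hBU h), hx' h]
  · have hφ : Lip (fun x => m x * (1 - m (Sinv i x)) * ψ x) := by
      simp only [mul_assoc]
      exact hsq m hm hm0 _ (locLip_mul ((Lip.const 1).sub (hn i)).locLip hψ)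
    have hφ0 : ∀ x, x ∉ UU → m x * (1 - m (Sinv i x)) * ψ x = 0 := fun x hx => by
      rw [hm0 x hx, zero_mul, zero_mul]
    have hφc : HasCompactSupport (fun x => m x * (1 - m (Sinv i x)) * ψ x) :=
      h28_compact (R := 27 / 10) fun x hx => hφ0 x (ga_out hGE hx)
    have n1 : GaNice JB := ⟨hJBm, ⟨C, ae_of_all _ hJBb⟩, fun x hx => hJB0 x fun h => hx (hBU h)⟩
    have n2 : GaNice (JR i) := ⟨l5, ⟨C, ae_of_all _ l6⟩, fun x hx => l7 x fun h => hx (hRU h)⟩
    have n3 : GaNice Jm := ⟨hJmm, hJmb, fun x hx => (hmB x fun h => hx (hBU h)).2⟩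
    have n4 : GaNice (J' i) := ⟨k2, k5, fun x hx => (k4 x fun h => hx (hRU h)).2⟩
    have i1 := hweak i _ hφ hφ0 fun x hx hx' => by
      rw [hm1 _ hx hx', sub_self, mul_zero, zero_mul]
    have i2 := hJmd _ hφ hφc
    have i3 := k3 _ hφ hφc
    have i4 : ∫ x, ⟪push i (fun y => Jm y - JB y) x,
        ∇ (fun x => m x * (1 - m (Sinv i x)) * ψ x) x⟫ = 0 := by
      have := (hS i).2.2.2.2.1 _ hJmd _ hφ hφc
      simp only [push, ← hR2, real_inner_smul_left]
      rw [integral_const_mul, this, mul_zero]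
    have j1 := ((n1.add n2).add (n1.push hGE hST i)).integrable hGE hφ
    have j2 := (n3.sub n1).integrable hGE hφ
    have j3 := (n4.sub n2).integrable hGE hφ
    have j4 := ((n3.sub n1).push hGE hST i).integrable hGE hφ
    have j5 := ((n3.add n4).add (n3.push hGE hST i)).integrable hGE hφ
    have i5 : ∫ x, ⟪Jm x + J' i x + push i Jm x,
        ∇ (fun x => m x * (1 - m (Sinv i x)) * ψ x) x⟫ = 0 := by
      have e := integral_add ((j1.add j2).add j3) j4
      have e' := integral_add (j1.add j2) j3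
      simp only [Pi.add_apply] at e e'
      rw [e', integral_add j1 j2, i1, i2, i3, i4] at e
      simp only [add_zero] at e
      rw [← e]
      refine integral_congr_ae (ae_of_all _ fun x => ?_)
      simp only [← inner_add_left]
      congr 1
      simp only [push, ← hR1, map_sub, smul_sub]
      abel
    obtain ⟨D, hD0, hD⟩ := h28_bdd hψ.continuous (27 / 10)
    have hψσ : ∀ f : E → ℝ, Measurable f → ∀ c : ℝ, (∀ x, 0 ≤ f x ∧ f x ≤ c) →
        (∀ x, x ∉ UU → f x = 0) → Integrable (fun x => ψ x * f x) := fun f hf c hc h0 =>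
      h28_integrable (hψ.continuous.measurable.mul hf) (C := D * c) (R := 27 / 10)
        (ae_of_all _ fun x hx => by
          rw [abs_mul, abs_of_nonneg (hc x).1]
          exact mul_le_mul (hD x hx) (hc x).2 (hc x).1 hD0)
        (ae_of_all _ fun x hx => by rw [h0 x (ga_out hGE hx), mul_zero])
    have j6 := hψσ σ hσm _ hσb hσ0
    have j7 := hψσ (fun x => rho⁻¹ ^ 3 * σ (Sinv i x))
      ((hσm.comp (ga_cont hGE i).measurable).const_mul _) (rho⁻¹ ^ 3 * (M * (1 + K ^ 2)))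
      (fun x => ⟨mul_nonneg (by positivity) (hσb _).1,
        mul_le_mul_of_nonneg_left (hσb _).2 (by positivity)⟩)
      (fun x hx => by rw [hσ0 _ fun h => hx (ga_ch_sub hGE i h), mul_zero])
    have e := integral_sub (j5.add j7) j6
    simp only [Pi.add_apply] at e
    rw [integral_add j5 j7, i5, zero_add] at e
    rw [← e]
    refine integral_congr_ae ?_
    filter_upwards [hA, hBq i, hCq i, h28_ae_diff hm, h28_ae_diff k1, h28_ae_diff (hn i),
      hZL.2.2 ψ hψ] with x a1 a2 a3 d1 d2 d3 d4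
    rw [ga_grad_a _ d1 d2 d3, ga_grad_phi d1 d3 d4, a1.2.1, a2.2, a3.2.1, a3.2.2, a1.2.2]
    refine ga_alg ?_
    by_cases hB : x ∈ B
    · have h1 : x ∉ Ch i := fun h => hchB i x h hB
      exact Or.inl ⟨hn0 x h1, a2.1 (disjoint_left.1 hBR hB), a3.1 fun h => h1 (hBU h)⟩
    by_cases hR : x ∈ R
    · have h1 : x ∉ Ch i := fun h => hchR i x h hR
      exact Or.inr (Or.inl ⟨hm1 x (hRU hR) hB, hn0 x h1, a1.1 hB, a3.1 fun h => h1 (hBU h)⟩)
    by_cases hS' : Sinv i x ∈ B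
    · exact Or.inr (Or.inr (Or.inl ⟨hm1 x (ga_ch_sub hGE i (hBU hS')) hB, a1.1 hB, a2.1 hR⟩))
    · exact Or.inr (Or.inr (Or.inr ⟨a1.1 hB, a2.1 hR, a3.1 hS'⟩))

end Crest.Agent.R83
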