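import Crest.Agent.R83.Basic

set_option autoImplicit false

noncomputable section

namespace Crest.Agent.R83

open MeasureTheory Set Filter Topology Metric
open scoped Gradient RealInnerProductSpace NNReal

def gbQ (Λ : ℝ) (p j p' j' : E) : ℝ := Λ * (⟪p, j'⟫ + ⟪p', j⟫) / 2 - ⟪p, p'⟫ - ⟪j, j'⟫

lemma gb_form (Λ a b : ℝ) (p₁ p₂ j₁ j₂ : E) :
    Λ * ⟪a • p₁ + b • p₂, a • j₁ + b • j₂⟫ - (‖a • p₁ + b • p₂‖ ^ 2 + ‖a • j₁ + b • j₂‖ ^ 2) =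
      a ^ 2 * gbQ Λ p₁ j₁ p₁ j₁ + 2 * a * b * gbQ Λ p₁ j₁ p₂ j₂ + b ^ 2 * gbQ Λ p₂ j₂ p₂ j₂ := by
  simp only [gbQ, normsq3, inner3, PiLp.add_apply, PiLp.smul_apply, smul_eq_mul]; ring

lemma gb_iff (Λ : ℝ) (p₁ p₂ j₁ j₂ : E) : Ell Λ p₁ p₂ j₁ j₂ ↔ 0 < Λ ∧ 0 < gbQ Λ p₁ j₁ p₁ j₁ ∧
    gbQ Λ p₁ j₁ p₂ j₂ ^ 2 < gbQ Λ p₁ j₁ p₁ j₁ * gbQ Λ p₂ j₂ p₂ j₂ := by
  set A := gbQ Λ p₁ j₁ p₁ j₁
  set B := gbQ Λ p₁ j₁ p₂ j₂
  set C := gbQ Λ p₂ j₂ p₂ j₂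
  have key : Ell Λ p₁ p₂ j₁ j₂ ↔ 0 < Λ ∧ ∀ a b : ℝ, (a ≠ 0 ∨ b ≠ 0) →
      0 < a ^ 2 * A + 2 * a * b * B + b ^ 2 * C := by
    unfold Ell
    refine and_congr_right fun _ => forall₂_congr fun a b => imp_congr_right fun _ => ?_
    rw [← gb_form, sub_pos]
  rw [key]
  refine and_congr_right fun _ => ⟨fun h => ?_, fun ⟨hA, h⟩ a b hab => ?_⟩
  · have hA : 0 < A := by simpa using h 1 0 (Or.inl one_ne_zero)
    refine ⟨hA, ?_⟩
    have := h (-B) A (Or.inr hA.ne')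
    nlinarith
  · have e : A * (a ^ 2 * A + 2 * a * b * B + b ^ 2 * C) = (a * A + b * B) ^ 2 + b ^ 2 * (A * C - B ^ 2) := by
      ring
    refine (mul_pos_iff_of_pos_left hA).1 ?_
    rw [e]
    by_cases hb : b = 0
    · have ha := hab.resolve_right (not_not.2 hb)
      rw [hb]; have : 0 < (a * A) ^ 2 := by positivity
      simpa using this
    · have : 0 < b ^ 2 * (A * C - B ^ 2) := mul_pos (by positivity) (by linarith)
      positivity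

lemma gb_open (Λ : ℝ) : IsOpen {z : E × E × E × E | Ell Λ z.1 z.2.1 z.2.2.1 z.2.2.2} := by
  simp only [gb_iff]
  have h1 : IsOpen {z : E × E × E × E | 0 < gbQ Λ z.1 z.2.2.1 z.1 z.2.2.1} :=
    isOpen_lt continuous_const (by unfold gbQ; fun_prop)
  have h2 : IsOpen {z : E × E × E × E | gbQ Λ z.1 z.2.2.1 z.2.1 z.2.2.2 ^ 2 <
      gbQ Λ z.1 z.2.2.1 z.1 z.2.2.1 * gbQ Λ z.2.1 z.2.2.2 z.2.1 z.2.2.2} :=
    isOpen_lt (by unfold gbQ; fun_prop) (by unfold gbQ; fun_prop)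
  exact (isOpen_const (p := 0 < Λ)).inter (h1.inter h2)

lemma gb_cJ1 {v₁ v₂ α β : E → ℝ} {x : E} (h1 : ContDiffAt ℝ 1 v₁ x) (h2 : ContDiffAt ℝ 1 v₂ x)
    (h3 : ContDiffAt ℝ 1 α x) (h4 : ContDiffAt ℝ 1 β x) : ContinuousAt (J1 v₁ v₂ α β) x :=
  (continuous_cross.continuousAt.comp₂ (continuousAt_grad h4) (continuousAt_grad h1)).sub
    (continuous_cross.continuousAt.comp₂ (continuousAt_grad h3) (continuousAt_grad h2))

lemma gb_cJ2 {v₁ v₂ β δ : E → ℝ} {x : E} (h1 : ContDiffAt ℝ 1 v₁ x) (h2 : ContDiffAt ℝ 1 v₂ x)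
    (h3 : ContDiffAt ℝ 1 β x) (h4 : ContDiffAt ℝ 1 δ x) : ContinuousAt (J2 v₁ v₂ β δ) x :=
  (continuous_cross.continuousAt.comp₂ (continuousAt_grad h4) (continuousAt_grad h1)).sub
    (continuous_cross.continuousAt.comp₂ (continuousAt_grad h3) (continuousAt_grad h2))

lemma gb_mono {Λ Λ' : ℝ} {p₁ p₂ j₁ j₂ : E} (h : Λ ≤ Λ') (he : Ell Λ p₁ p₂ j₁ j₂) : Ell Λ' p₁ p₂ j₁ j₂ := by
  refine ⟨he.1.trans_le h, fun a b hab => (he.2 a b hab).trans_le ?_⟩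
  have h1 : 0 < Λ * ⟪a • p₁ + b • p₂, a • j₁ + b • j₂⟫ := lt_of_le_of_lt (by positivity) (he.2 a b hab)
  exact mul_le_mul_of_nonneg_right h ((mul_pos_iff_of_pos_left he.1).1 h1).le

theorem GB_proof : GBStmt := by
  refine ⟨gb_open, fun ι _ Λ u j => ?_, fun ι Λ Λ' u j x h hG => ?_,
    fun ι ι' _ Λ u j u' j' x hG h => ?_, fun ι Λ u j x hG => ?_⟩
  · refine isOpen_iff_mem_nhds.2 fun x hx => ?_
    obtain ⟨v₁, v₂, α, β, δ, c1, c2, c3, c4, c5, he, hc⟩ := hx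
    choose c₀ c₁ c₂ hc using hc
    have hE : ∀ᶠ y in 𝓝 x, Ell Λ (∇ v₁ y) (∇ v₂ y) (J1 v₁ v₂ α β y) (J2 v₁ v₂ β δ y) :=
      ((continuousAt_grad c1).prodMk ((continuousAt_grad c2).prodMk ((gb_cJ1 c1 c2 c3 c4).prodMk
        (gb_cJ2 c1 c2 c4 c5)))).eventually ((gb_open Λ).mem_nhds he)
    filter_upwards [c1.eventually (by simp), c2.eventually (by simp), c3.eventually (by simp),
      c4.eventually (by simp), c5.eventually (by simp), hE,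
      eventually_all.2 fun i => (hc i).eventually_nhds] with y d1 d2 d3 d4 d5 d6 d7
    exact ⟨v₁, v₂, α, β, δ, d1, d2, d3, d4, d5, d6, fun i => ⟨_, _, _, d7 i⟩⟩
  · obtain ⟨v₁, v₂, α, β, δ, c1, c2, c3, c4, c5, he, hc⟩ := hG
    exact ⟨v₁, v₂, α, β, δ, c1, c2, c3, c4, c5, gb_mono h he, hc⟩
  · obtain ⟨v₁, v₂, α, β, δ, c1, c2, c3, c4, c5, he, hc⟩ := hG
    choose c₀ c₁ c₂ hc using hc
    refine ⟨v₁, v₂, α, β, δ, c1, c2, c3, c4, c5, he, fun i' => ?_⟩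
    obtain ⟨c, e, h⟩ := h i'
    refine ⟨c + ∑ i, e i * c₀ i, ∑ i, e i * c₁ i, ∑ i, e i * c₂ i, ?_⟩
    filter_upwards [h, eventually_all.2 hc] with y h1 h2
    constructor
    · rw [h1.1, Finset.sum_mul, Finset.sum_mul, add_assoc, add_assoc, ← Finset.sum_add_distrib,
        ← Finset.sum_add_distrib]
      congr 1
      exact Finset.sum_congr rfl fun i _ => by rw [(h2 i).1]; ring
    · rw [h1.2, Finset.sum_smul, Finset.sum_smul, ← Finset.sum_add_distrib]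
      exact Finset.sum_congr rfl fun i _ => by rw [(h2 i).2, smul_add, smul_smul, smul_smul]
  · obtain ⟨v₁, v₂, α, β, δ, c1, c2, c3, c4, c5, he, hc⟩ := hG
    refine ⟨he.1, fun i => ?_⟩
    obtain ⟨c₀, c₁, c₂, h⟩ := hc i
    have hu : u i =ᶠ[𝓝 x] fun y => c₀ + c₁ * v₁ y + c₂ * v₂ y := h.mono fun y hy => hy.1
    have d1 := c1.differentiableAt (by simp)
    have d2 := c2.differentiableAt (by simp)
    refine ⟨((contDiffAt_const.add (contDiffAt_const.mul c1)).add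
      (contDiffAt_const.mul c2)).congr_of_eventuallyEq hu, ?_⟩
    rw [grad_congr hu, grad_add ((d1.const_mul c₁).const_add c₀) (d2.const_mul c₂), grad_const_add,
      grad_const_mul, grad_const_mul, h.self_of_nhds.2]
    by_cases hab : c₁ ≠ 0 ∨ c₂ ≠ 0
    · have h1 := he.2 _ _ hab
      set p := c₁ • ∇ v₁ x + c₂ • ∇ v₂ x
      set k := c₁ • J1 v₁ v₂ α β x + c₂ • J2 v₁ v₂ β δ x
      have h2 := mul_le_mul_of_nonneg_left (real_inner_le_norm p k) he.1.le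
      by_contra hc
      push Not at hc
      nlinarith [norm_nonneg k, norm_nonneg p, mul_le_mul_of_nonneg_right hc.le (norm_nonneg k)]
    · push Not at hab
      simp [hab.1, hab.2]

end Crest.Agent.R83
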