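import Crest.Agent.R83.H28Aux

/-! Row 83, task GE: geometry of the cell. -/

set_option autoImplicit false

noncomputable section

namespace Crest.Agent.R83

open MeasureTheory Set Filter Topology Metric
open scoped Gradient RealInnerProductSpace NNReal

lemma ge_plane (a b c : ℝ) : volume {x : E | a * x 0 + b * x 1 + c * x 2 = 1} = 0 := by
  let L : E →ₗ[ℝ] ℝ := innerₛₗ ℝ (!₂[a, b, c] : E)
  let s : AffineSubspace ℝ E := (AffineSubspace.mk' (1 : ℝ) ⊥).comap L.toAffineMap
  have hs : ∀ x : E, x ∈ s ↔ a * x 0 + b * x 1 + c * x 2 = 1 := fun x => by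
    simp only [s, L, AffineSubspace.mem_comap, AffineSubspace.mem_mk', Submodule.mem_bot,
      LinearMap.coe_toAffineMap, innerₛₗ_apply_apply, vsub_eq_sub, sub_eq_zero, inner3]
    simp
  have h1 : s ≠ ⊤ := fun h => by
    have := (hs 0).1 (h ▸ AffineSubspace.mem_top ℝ E 0)
    simp at this
  rw [← Measure.addHaar_affineSubspace volume s h1]
  congr 1
  ext x
  exact (hs x).symm

lemma ge_le {x : E} {t : ℝ} : NN x ≤ t ↔ x 0 / (27 / 20) + |x 2| ≤ t ∧
    -x 0 / (49 / 20) + |x 2| ≤ t ∧ |x 1| + |x 2| ≤ t := by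
  unfold NN n1
  rw [← le_sub_iff_add_le, max_le_iff, max_le_iff]
  simp only [le_sub_iff_add_le, and_assoc]

theorem GE_proof : GEStmt := by
  refine ⟨?_, ?_, ?_, ?_, ?_, ?_⟩
  · have h := (h28_lip_max (h28_lip_max ((h28_lip_X 0).const_mul (20 / 27))
      ((h28_lip_X 0).const_mul (-(20 / 49)))) (h28_lip_abs (h28_lip_X 1))).add
        (h28_lip_abs (h28_lip_X 2))
    have e : NN = fun x : E => max (max (20 / 27 * x 0) (-(20 / 49) * x 0)) |x 1| + |x 2| := by
      funext x
      unfold NN n1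
      congr 3 <;> ring
    rw [e]
    exact h
  · have h : ∀ c : ℝ, volume ({x : E | 20 / 27 * x 0 + 0 * x 1 + c * x 2 = 1} ∪
        {x : E | -(20 / 49) * x 0 + 0 * x 1 + c * x 2 = 1} ∪
        {x : E | 0 * x 0 + 1 * x 1 + c * x 2 = 1} ∪
        {x : E | 0 * x 0 + -1 * x 1 + c * x 2 = 1}) = 0 := fun c =>
      measure_union_null (measure_union_null (measure_union_null (ge_plane _ _ _)
        (ge_plane _ _ _)) (ge_plane _ _ _)) (ge_plane _ _ _)
    refine measure_mono_null (fun x hx => ?_) (measure_union_null (h 1) (h (-1)))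
    simp only [NN, n1, mem_setOf_eq] at hx
    simp only [mem_union, mem_setOf_eq]
    rcases abs_cases (x 2) with ⟨h2, -⟩ | ⟨h2, -⟩ <;>
    rcases abs_cases (x 1) with ⟨h1, -⟩ | ⟨h1, -⟩ <;>
    rcases max_choice (max (x 0 / (27 / 20)) (-x 0 / (49 / 20))) |x 1| with h3 | h3 <;>
    rcases max_choice (x 0 / (27 / 20)) (-x 0 / (49 / 20)) with h4 | h4 <;>
    first
      | (left; left; left; left; linarith)
      | (left; left; left; right; linarith)
      | (left; left; right; linarith)
      | (left; right; linarith)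
      | (right; left; left; left; linarith)
      | (right; left; left; right; linarith)
      | (right; left; right; linarith)
      | (right; right; linarith)
  · intro x hx
    obtain ⟨h0, h1, h2⟩ := ge_le.1 hx
    refine lt_of_pow_lt_pow_left₀ 2 (by norm_num) ?_
    rw [normsq3, ← sq_abs (x 0), ← sq_abs (x 1), ← sq_abs (x 2)]
    have a1 := abs_nonneg (x 1)
    have a2 := abs_nonneg (x 2)
    have a0 : |x 0| ≤ 49 / 20 * (1 - |x 2|) := by
      rw [abs_le]
      constructor <;> linarith
    have b0 := pow_le_pow_left₀ (abs_nonneg _) a0 2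
    have b1 := pow_le_pow_left₀ a1 (show |x 1| ≤ 1 - |x 2| by linarith) 2
    nlinarith
  · intro i x hx
    obtain ⟨h0, h1, h2⟩ := ge_le.1 hx
    simp only [Sinv, rho, cc, PiLp.toLp_apply, Matrix.cons_val_zero, Matrix.cons_val_one,
      Matrix.cons_val, abs_div, Nat.abs_ofNat] at h0 h1 h2
    have a2 := abs_nonneg (x 2)
    have hc : -(11 / 20) ≤ cen i ∧ cen i ≤ 11 / 20 := by
      cases i <;> norm_num [cen, cc]
    have a0 := le_abs_self (x 0 - cen i)
    have a1 := neg_abs_le (x 0 - cen i)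
    refine ⟨ge_le.2 ⟨?_, ?_, ?_⟩, ?_⟩
    · unfold N1; linarith
    · unfold N1; linarith
    · unfold N1
      rcases abs_cases (x 1) with ⟨h3, -⟩ | ⟨h3, -⟩ <;> linarith
    · unfold rho; linarith
  · simp [UU, NN, n1]
  · have h : ∀ p : E, LinearIsometryEquiv.piLpCongrLeft 2 ℝ ℝ (Equiv.swap (0 : Fin 3) 1) p = sw p :=
      fun p => by
        apply ext3 <;> simp [LinearIsometryEquiv.piLpCongrLeft_apply, Equiv.swap_apply_def]
    refine ⟨_, h, fun p => ?_, fun i x => ?_, fun p q => ?_⟩
    · rw [LinearIsometryEquiv.symm_apply_eq, h]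
      apply ext3 <;> simp
    · rw [h]
      have : rho ≠ 0 := by norm_num [rho]
      apply ext3 <;> simp [Sinv] <;> field_simp
    · apply ext3 <;> simp <;> ring

end Crest.Agent.R83
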