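import Crest.Agent.R83.Basic

set_option autoImplicit false

noncomputable section

namespace Crest.Agent.R83

open MeasureTheory Set Filter Topology Metric
open scoped NNReal

/-- a segment from a point of an open set to a point outside meets the frontier -/
lemma gl_exit {B : Set E} (hB : IsOpen B) {x y : E} (hx : x ∈ B) (hy : y ∉ B) :
    ∃ z ∈ segment ℝ x y, z ∈ frontier B := by
  by_contra h
  push Not at h
  have hpre : IsPreconnected (segment ℝ x y) := (convex_segment x y).isPreconnected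
  have hsub : segment ℝ x y ⊆ B ∪ (closure B)ᶜ := fun z hz => by
    have := h z hz
    rw [hB.frontier_eq] at this
    by_cases hzB : z ∈ B
    · exact Or.inl hzB
    · exact Or.inr fun hc => this ⟨hc, hzB⟩
  have hy' : y ∈ (closure B)ᶜ := (hsub (right_mem_segment ℝ x y)).resolve_left hy
  obtain ⟨z, -, hz1, hz2⟩ := hpre B (closure B)ᶜ hB isClosed_closure.isOpen_compl hsub
    ⟨x, left_mem_segment ℝ x y, hx⟩ ⟨y, right_mem_segment ℝ x y, hy'⟩
  exact hz2 (subset_closure hz1)

theorem GL_proof : GLStmt := by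
  intro ι S B u w v K hS hB hd hu hv hf hw hw'
  have hfr : ∀ i, ∀ z ∈ frontier (B i), z ∉ ⋃ j, B j := fun i z hz hz' => by
    obtain ⟨j, hj⟩ := mem_iUnion.1 hz'
    by_cases hij : i = j
    · subst hij; rw [(hB i).frontier_eq] at hz; exact hz.2 hj
    · obtain ⟨t, ht1, ht2⟩ := mem_closure_iff.1 (frontier_subset_closure hz) _ (hB j) hj
      exact Set.disjoint_left.1 (hd hij) ht2 ht1
  -- one endpoint outside all `B j`
  have step : ∀ x ∈ S, ∀ y ∈ S \ ⋃ j, B j, dist (w x) (w y) ≤ K * dist x y := by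
    intro x hx y hy
    by_cases hxB : x ∈ ⋃ j, B j
    · obtain ⟨i, hi⟩ := mem_iUnion.1 hxB
      obtain ⟨z, hz, hzf⟩ := gl_exit (hB i) hi (fun h => hy.2 (mem_iUnion.2 ⟨i, h⟩))
      have hzS : z ∈ S := hS.segment_subset hx hy.1 hz
      have h1 := (hv i).dist_le_mul x ⟨hx, subset_closure hi⟩ z ⟨hzS, frontier_subset_closure hzf⟩
      have h2 := hu.dist_le_mul z ⟨hzS, hfr i z hzf⟩ y hy
      rw [hf i z ⟨hzS, hzf⟩] at h1
      rw [hw i x ⟨hx, hi⟩, hw' y hy, ← dist_add_dist_of_mem_segment hz, mul_add]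
      linarith [dist_triangle (v i x) (u z) (u y)]
    · rw [hw' x ⟨hx, hxB⟩, hw' y hy]; exact hu.dist_le_mul x ⟨hx, hxB⟩ y hy
  refine LipschitzOnWith.of_dist_le_mul fun x hx y hy => ?_
  by_cases hyB : y ∈ ⋃ j, B j
  · obtain ⟨i, hi⟩ := mem_iUnion.1 hyB
    by_cases hxi : x ∈ B i
    · rw [hw i x ⟨hx, hxi⟩, hw i y ⟨hy, hi⟩]
      exact (hv i).dist_le_mul x ⟨hx, subset_closure hxi⟩ y ⟨hy, subset_closure hi⟩
    · obtain ⟨z, hz, hzf⟩ := gl_exit (hB i) hi hxi
      have hzS : z ∈ S := hS.segment_subset hy hx hz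
      have h1 := step x hx z ⟨hzS, hfr i z hzf⟩
      have h2 := step y hy z ⟨hzS, hfr i z hzf⟩
      have h3 := dist_add_dist_of_mem_segment hz
      rw [dist_comm x y, ← h3, mul_add, dist_comm z x]
      linarith [dist_triangle_right (w x) (w y) (w z)]
  · exact step x hx y ⟨hy, hyB⟩

end Crest.Agent.R83
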