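import Crest.Agent.R83.Basic

/-! Row 83: bounded measurable fields and linearity of `DivFree`. -/

set_option autoImplicit false

noncomputable section

namespace Crest.Agent.R83

open MeasureTheory Set Filter Topology Metric
open scoped Gradient RealInnerProductSpace NNReal

/-- measurable and a.e. bounded -/
def BM (k : E → E) : Prop := Measurable k ∧ ∃ C : ℝ, ∀ᵐ x, ‖k x‖ ≤ C

lemma BM.integrable {k : E → E} (hk : BM k) {φ : E → ℝ} (hφ : Lip φ) (hc : HasCompactSupport φ) :
    Integrable (fun x => ⟪k x, ∇ φ x⟫) := by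
  obtain ⟨hm, C, hC⟩ := hk
  obtain ⟨K, hK⟩ := hφ
  refine (integrableOn_iff_integrable_of_support_subset (s := tsupport φ) ?_).1 ?_
  · intro x hx
    by_contra hx'
    refine hx ?_
    have : φ =ᶠ[𝓝 x] fun _ => 0 := notMem_tsupport_iff_eventuallyEq.1 hx'
    simp only
    rw [grad_congr this, grad_const, inner_zero_right]
  · refine Measure.integrableOn_of_bounded (M := C * K) hc.isCompact.measure_lt_top.ne
      (hm.inner (measurable_grad _)).aestronglyMeasurable (ae_restrict_of_ae (hC.mono fun x hx => ?_))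
    exact (norm_inner_le_norm _ _).trans (mul_le_mul hx (norm_grad_le hK x) (norm_nonneg _)
      ((norm_nonneg _).trans hx))

lemma BM.add {k l : E → E} (hk : BM k) (hl : BM l) : BM (fun x => k x + l x) := by
  obtain ⟨hm, C, hC⟩ := hk
  obtain ⟨hm', C', hC'⟩ := hl
  refine ⟨hm.add hm', C + C', ?_⟩
  filter_upwards [hC, hC'] with x h1 h2
  exact (norm_add_le _ _).trans (add_le_add h1 h2)

lemma BM.smul {k : E → E} (c : ℝ) (hk : BM k) : BM (fun x => c • k x) := by
  obtain ⟨hm, C, hC⟩ := hk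
  refine ⟨hm.const_smul c, ‖c‖ * C, hC.mono fun x h => ?_⟩
  rw [norm_smul]; gcongr

lemma BM.cross_grad {F G : E → ℝ} (hF : Lip F) (hG : Lip G) :
    BM (fun x => cross (∇ F x) (∇ G x)) := by
  obtain ⟨K, hK⟩ := hF
  obtain ⟨L, hL⟩ := hG
  refine ⟨measurable_cross (measurable_grad _) (measurable_grad _), K * L,
    Eventually.of_forall fun x => (norm_cross_le _ _).trans ?_⟩
  exact mul_le_mul (norm_grad_le hK x) (norm_grad_le hL x) (norm_nonneg _) K.2

lemma DivFree.add {k l : E → E} (hk : DivFree k) (hl : DivFree l) (bk : BM k) (bl : BM l) :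
    DivFree (fun x => k x + l x) := by
  intro φ hφ hc
  simp only [inner_add_left]
  rw [integral_add (bk.integrable hφ hc) (bl.integrable hφ hc), hk φ hφ hc, hl φ hφ hc, add_zero]

lemma DivFree.smul {k : E → E} (c : ℝ) (hk : DivFree k) : DivFree (fun x => c • k x) := by
  intro φ hφ hc
  simp only [real_inner_smul_left]
  rw [integral_const_mul, hk φ hφ hc, mul_zero]

lemma DivFree.congr {k l : E → E} (hk : DivFree k) (h : ∀ᵐ x, k x = l x) : DivFree l := by
  intro φ hφ hc
  rw [← hk φ hφ hc]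
  exact integral_congr_ae (h.mono fun x hx => by simp only [hx])

lemma divFree_cross (hNL : NLStmt) {F G : E → ℝ} (hF : Lip F) (hG : Lip G) :
    DivFree (fun x => cross (∇ F x) (∇ G x)) := fun φ hφ hc =>
  hNL F G φ hF.locLip hG.locLip hφ hc

lemma isOpen_ell (d : Fin 3 → ℝ) (s : ℝ) : IsOpen (ell d s) := by
  refine isOpen_lt ?_ continuous_const
  exact continuous_finsetSum _ fun i _ => ((lipschitz_X i).continuous.pow 2).div_const _

lemma isBounded_ell {d : Fin 3 → ℝ} {s : ℝ} (hd : ∀ i, 0 < d i + s) :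
    Bornology.IsBounded (ell d s) := by
  refine (isBounded_closedBall (x := (0 : E))
    (r := (d 0 + s) + (d 1 + s) + (d 2 + s) + 1)).subset fun x hx => ?_
  rw [mem_closedBall, dist_zero_right]
  have h0 := hd 0; have h1 := hd 1; have h2 := hd 2
  have a1 : ‖x‖ ^ 2 / ((d 0 + s) + (d 1 + s) + (d 2 + s)) ≤ ∑ i, x i ^ 2 / (d i + s) := by
    rw [normsq3, Fin.sum_univ_three, add_div, add_div]
    refine add_le_add (add_le_add ?_ ?_) ?_ <;>
      exact div_le_div_of_nonneg_left (sq_nonneg _) (by assumption) (by linarith)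
  have a2 : ∑ i, x i ^ 2 / (d i + s) < 1 := hx
  have a3 := a1.trans a2.le
  rw [div_le_one (by positivity)] at a3
  nlinarith [norm_nonneg x]

lemma ae_ell_ne (hZL : ZLStmt) (d : Fin 3 → ℝ) (s : ℝ) :
    ∀ᵐ x : E, ∑ i, x i ^ 2 / (d i + s) ≠ 1 := by
  have h := hZL.1 (fun x : E => ∑ i, x i ^ 2 / (d i + s) - 1)
    ((continuous_finsetSum _ fun i _ => ((lipschitz_X i).continuous.pow 2).div_const _).sub
      continuous_const)
  rw [ae_iff]
  refine measure_mono_null (fun x hx => ?_) h
  have hx1 : ∑ i, x i ^ 2 / (d i + s) = 1 := by simpa using hx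
  refine ⟨by simp only; rw [hx1, sub_self], fun h0 => ?_⟩
  have hd := (HasFDerivAt.fun_sum (u := Finset.univ) fun i _ =>
    (((hasFDerivAt_X i x).pow 2).mul_const (d i + s)⁻¹)).sub_const 1
  have e := hd.fderiv
  simp only [X_apply, ← div_eq_mul_inv] at e
  rw [e] at h0
  have h2 := congrArg (fun L : E →L[ℝ] ℝ => L x) h0
  simp only [Fin.sum_univ_three] at hx1
  simp [Fin.sum_univ_three] at h2
  have : (d 0 + s)⁻¹ * (2 * x 0 * x 0) + (d 1 + s)⁻¹ * (2 * x 1 * x 1) +
      (d 2 + s)⁻¹ * (2 * x 2 * x 2) = 2 := by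
    linear_combination 2 * hx1
  linarith

end Crest.Agent.R83
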