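import Crest.Agent.R83.Basic

/-! Row 83: a small gradient calculus (`HG f q g`: `f` is differentiable at `q` with gradient `g`). -/

set_option autoImplicit false

noncomputable section

namespace Crest.Agent.R83

open MeasureTheory Set Filter Topology Metric
open scoped Gradient RealInnerProductSpace NNReal

/-- `f` is differentiable at `q` with gradient `g`. -/
def HG (f : E → ℝ) (q g : E) : Prop := DifferentiableAt ℝ f q ∧ ∇ f q = g

namespace HG

variable {f f' : E → ℝ} {q g g' : E}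

lemma of_diff (h : DifferentiableAt ℝ f q) : HG f q (∇ f q) := ⟨h, rfl⟩

lemma add (h : HG f q g) (h' : HG f' q g') : HG (fun y => f y + f' y) q (g + g') :=
  ⟨h.1.add h'.1, by rw [grad_add h.1 h'.1, h.2, h'.2]⟩

lemma sub (h : HG f q g) (h' : HG f' q g') : HG (fun y => f y - f' y) q (g - g') :=
  ⟨h.1.sub h'.1, by rw [grad_sub h.1 h'.1, h.2, h'.2]⟩

lemma neg (h : HG f q g) : HG (fun y => -f y) q (-g) := ⟨h.1.neg, by rw [grad_neg, h.2]⟩

lemma mul (h : HG f q g) (h' : HG f' q g') : HG (fun y => f y * f' y) q (f q • g' + f' q • g) :=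
  ⟨h.1.mul h'.1, by rw [grad_mul h.1 h'.1, h.2, h'.2]⟩

lemma const (c : ℝ) (q : E) : HG (fun _ => c) q 0 := ⟨differentiableAt_const c, grad_const c q⟩

lemma const_mul (c : ℝ) (h : HG f q g) : HG (fun y => c * f y) q (c • g) :=
  ⟨h.1.const_mul c, by rw [grad_const_mul, h.2]⟩

lemma div_const (c : ℝ) (h : HG f q g) : HG (fun y => f y / c) q (c⁻¹ • g) := by
  have := h.const_mul c⁻¹
  simpa only [div_eq_inv_mul] using this

lemma comp {h : ℝ → ℝ} {h' : ℝ} (hh : HasDerivAt h h' (f q)) (hf : HG f q g) :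
    HG (fun y => h (f y)) q (h' • g) :=
  ⟨hh.differentiableAt.comp q hf.1, by rw [grad_comp hh hf.1, hf.2]⟩

lemma X (i : Fin 3) (q : E) : HG (fun y : E => y i) q (ee i) :=
  ⟨(hasFDerivAt_X i q).differentiableAt, grad_X i q⟩

lemma coord {h : ℝ → ℝ} {h' : ℝ} (i : Fin 3) (hh : HasDerivAt h h' (q i)) :
    HG (fun y => h (y i)) q (h' • ee i) := comp (f := fun y : E => y i) hh (X i q)

lemma inv (h : HG f q g) (h0 : f q ≠ 0) : HG (fun y => (f y)⁻¹) q (-(f q ^ 2)⁻¹ • g) :=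
  comp (hasDerivAt_inv h0) h

lemma congr (h : HG f q g) (e : f' =ᶠ[𝓝 q] f) : HG f' q g :=
  ⟨h.1.congr_of_eventuallyEq e, by rw [grad_congr e, h.2]⟩

end HG

lemma cd_coord {n : WithTop ℕ∞} {h : ℝ → ℝ} (i : Fin 3) {q : E} (hh : ContDiffAt ℝ n h (q i)) :
    ContDiffAt ℝ n (fun y : E => h (y i)) q :=
  ContDiffAt.comp (f := X i) q hh (contDiff_X i).contDiffAt

lemma cd_X {n : WithTop ℕ∞} (i : Fin 3) (q : E) : ContDiffAt ℝ n (fun y : E => y i) q :=
  (contDiff_X i).contDiffAt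

lemma continuous_coord (i : Fin 3) : Continuous (fun y : E => y i) := (lipschitz_X i).continuous

/-- A function that is `C¹` at all points of a compact set agrees there with a Lipschitz function. -/
lemma exists_lip_ext {f : E → ℝ} {S : Set E} (hS : IsCompact S) (hf : ∀ x ∈ S, ContDiffAt ℝ 1 f x) :
    ∃ g : E → ℝ, Lip g ∧ ∀ x ∈ S, g x = f x := by
  have h : LocallyLipschitzOn S f := fun x hx => by
    obtain ⟨K, t, ht, hK⟩ := (hf x hx).exists_lipschitzOnWith
    exact ⟨K, t, mem_nhdsWithin_of_mem_nhds ht, hK⟩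
  obtain ⟨K, hK⟩ := h.exists_lipschitzOnWith_of_compact hS
  obtain ⟨g, hg, e⟩ := hK.extend_real
  exact ⟨g, ⟨K, hg⟩, fun x hx => (e hx).symm⟩

lemma isCompact_box3 (a b : Fin 3 → ℝ) : IsCompact {q : E | ∀ i, a i ≤ q i ∧ q i ≤ b i} := by
  have h : {q : E | ∀ i, a i ≤ q i ∧ q i ≤ b i} = (WithLp.toLp 2 : (Fin 3 → ℝ) → E) '' Icc a b := by
    ext q
    constructor
    · intro hq
      exact ⟨q.ofLp, ⟨fun i => (hq i).1, fun i => (hq i).2⟩, rfl⟩
    · rintro ⟨p, hp, rfl⟩ i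
      exact ⟨hp.1 i, hp.2 i⟩
  rw [h]
  exact isCompact_Icc.image (PiLp.continuous_toLp 2 _)

lemma isCompact_Box (t₀ T : ℝ) : IsCompact (Box t₀ T) := by
  convert isCompact_box3 ![0, 0, t₀] ![Real.pi, Real.pi, T] using 1
  ext q
  simp only [Box, mem_ofPred_eq, Fin.forall_fin_succ]
  simp
  tauto

end Crest.Agent.R83
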