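import Crest.Agent.R83.HG

/-! Row 83: Lipschitz near a point (`LA`), vector-valued maps in coordinates. -/

set_option autoImplicit false

noncomputable section

namespace Crest.Agent.R83

open MeasureTheory Set Filter Topology Metric
open scoped Gradient RealInnerProductSpace NNReal

/-- Lipschitz in a neighbourhood of `x`. -/
def LA {α β : Type*} [PseudoEMetricSpace α] [PseudoEMetricSpace β] (f : α → β) (x : α) : Prop :=
  ∃ K : ℝ≥0, ∃ t ∈ 𝓝 x, LipschitzOnWith K f t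

namespace LA

lemma of_lip {α β : Type*} [PseudoEMetricSpace α] [PseudoEMetricSpace β] {f : α → β} {K : ℝ≥0}
    (h : LipschitzWith K f) (x : α) : LA f x := ⟨K, univ, univ_mem, h.lipschitzOnWith⟩

lemma of_cd {α β : Type*} [NormedAddCommGroup α] [NormedSpace ℝ α] [NormedAddCommGroup β]
    [NormedSpace ℝ β] {f : α → β} {x : α} (h : ContDiffAt ℝ 1 f x) : LA f x :=
  h.exists_lipschitzOnWith

lemma continuousAt {α β : Type*} [PseudoEMetricSpace α] [PseudoEMetricSpace β] {f : α → β} {x : α}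
    (h : LA f x) : ContinuousAt f x := by
  obtain ⟨K, t, ht, hK⟩ := h
  exact hK.continuousOn.continuousAt ht

lemma comp {α β γ : Type*} [PseudoEMetricSpace α] [PseudoEMetricSpace β] [PseudoEMetricSpace γ]
    {g : β → γ} {f : α → β} {x : α} (hg : LA g (f x)) (hf : LA f x) : LA (fun y => g (f y)) x := by
  have hc := hf.continuousAt
  obtain ⟨K, t, ht, hK⟩ := hf
  obtain ⟨L, u, hu, hL⟩ := hg
  exact ⟨L * K, t ∩ f ⁻¹' u, inter_mem ht (hc hu),
    hL.comp (hK.mono inter_subset_left) (fun _ h => h.2)⟩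

lemma prod {α β γ : Type*} [PseudoEMetricSpace α] [PseudoEMetricSpace β] [PseudoEMetricSpace γ]
    {f : α → β} {g : α → γ} {x : α} (hf : LA f x) (hg : LA g x) : LA (fun y => (f y, g y)) x := by
  obtain ⟨K, t, ht, hK⟩ := hf
  obtain ⟨L, u, hu, hL⟩ := hg
  exact ⟨_, t ∩ u, inter_mem ht hu,
    (hK.mono inter_subset_left).prodMk (hL.mono inter_subset_right)⟩

variable {α : Type*} [PseudoEMetricSpace α] {f g : α → ℝ} {x : α}

lemma const (c : ℝ) (x : α) : LA (fun _ : α => c) x := of_lip (LipschitzWith.const c) x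

lemma add (hf : LA f x) (hg : LA g x) : LA (fun y => f y + g y) x :=
  comp (g := fun z : ℝ × ℝ => z.1 + z.2) (of_cd (contDiff_fst.add contDiff_snd).contDiffAt)
    (hf.prod hg)

lemma sub (hf : LA f x) (hg : LA g x) : LA (fun y => f y - g y) x :=
  comp (g := fun z : ℝ × ℝ => z.1 - z.2) (of_cd (contDiff_fst.sub contDiff_snd).contDiffAt)
    (hf.prod hg)

lemma mul (hf : LA f x) (hg : LA g x) : LA (fun y => f y * g y) x :=
  comp (g := fun z : ℝ × ℝ => z.1 * z.2) (of_cd (contDiff_fst.mul contDiff_snd).contDiffAt)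
    (hf.prod hg)

lemma div (hf : LA f x) (hg : LA g x) (h0 : g x ≠ 0) : LA (fun y => f y / g y) x :=
  comp (g := fun z : ℝ × ℝ => z.1 / z.2) (of_cd (contDiffAt_fst.div contDiffAt_snd h0))
    (hf.prod hg)

lemma max (hf : LA f x) (hg : LA g x) : LA (fun y => max (f y) (g y)) x :=
  comp (g := fun z : ℝ × ℝ => Max.max z.1 z.2) (of_lip lipschitzWith_max _) (hf.prod hg)

lemma abs (hf : LA f x) : LA (fun y => |f y|) x :=
  comp (g := fun z : ℝ => |z|) (of_lip lipschitzWith_one_norm _) hf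

lemma neg (hf : LA f x) : LA (fun y => -f y) x :=
  comp (g := fun z : ℝ => -z) (of_cd contDiff_neg.contDiffAt) hf

lemma X (i : Fin 3) (q : E) : LA (fun y : E => y i) q := of_lip (lipschitz_X i) q

end LA

lemma exists_lip_ext' {f : E → ℝ} {S : Set E} (hS : IsCompact S) (hf : ∀ x ∈ S, LA f x) :
    ∃ g : E → ℝ, Lip g ∧ ∀ x ∈ S, g x = f x := by
  have h : LocallyLipschitzOn S f := fun x hx => by
    obtain ⟨K, t, ht, hK⟩ := hf x hx
    exact ⟨K, t, mem_nhdsWithin_of_mem_nhds ht, hK⟩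
  obtain ⟨K, hK⟩ := h.exists_lipschitzOnWith_of_compact hS
  obtain ⟨g, hg, e⟩ := hK.extend_real
  exact ⟨g, ⟨K, hg⟩, fun x hx => (e hx).symm⟩

/-- vector with given coordinates -/
def vec (f0 f1 f2 : E → ℝ) (q : E) : E := f0 q • ee 0 + f1 q • ee 1 + f2 q • ee 2

@[simp] lemma vec_0 (f0 f1 f2 : E → ℝ) (q : E) : vec f0 f1 f2 q 0 = f0 q := by simp [vec, ee_apply]
@[simp] lemma vec_1 (f0 f1 f2 : E → ℝ) (q : E) : vec f0 f1 f2 q 1 = f1 q := by simp [vec, ee_apply]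
@[simp] lemma vec_2 (f0 f1 f2 : E → ℝ) (q : E) : vec f0 f1 f2 q 2 = f2 q := by simp [vec, ee_apply]

lemma lip_vec {f0 f1 f2 : E → ℝ} (h0 : Lip f0) (h1 : Lip f1) (h2 : Lip f2) :
    ∃ K : ℝ≥0, LipschitzWith K (vec f0 f1 f2) := by
  have key : ∀ {f : E → ℝ}, Lip f → ∀ i, ∃ K : ℝ≥0, LipschitzWith K (fun q => f q • ee i) := by
    rintro f ⟨K, hK⟩ i
    exact ⟨_, (ContinuousLinearMap.toSpanSingleton ℝ (ee i)).lipschitz.comp hK⟩
  obtain ⟨K0, k0⟩ := key h0 0
  obtain ⟨K1, k1⟩ := key h1 1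
  obtain ⟨K2, k2⟩ := key h2 2
  exact ⟨_, (k0.add k1).add k2⟩

lemma cd_vec {n : WithTop ℕ∞} {f0 f1 f2 : E → ℝ} {q : E} (h0 : ContDiffAt ℝ n f0 q)
    (h1 : ContDiffAt ℝ n f1 q) (h2 : ContDiffAt ℝ n f2 q) : ContDiffAt ℝ n (vec f0 f1 f2) q :=
  ((h0.smul contDiffAt_const).add (h1.smul contDiffAt_const)).add (h2.smul contDiffAt_const)

lemma det_vec (hCF : CFStmt) {f0 f1 f2 : E → ℝ} {q g0 g1 g2 : E} (h0 : HG f0 q g0)
    (h1 : HG f1 q g1) (h2 : HG f2 q g2) : (fderiv ℝ (vec f0 f1 f2) q).det =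
      g0 0 * g1 1 * g2 2 - g0 0 * g1 2 * g2 1 - g0 1 * g1 0 * g2 2 + g0 1 * g1 2 * g2 0
        + g0 2 * g1 0 * g2 1 - g0 2 * g1 1 * g2 0 := by
  have h := (((h0.1.hasFDerivAt.smul_const (ee 0)).add (h1.1.hasFDerivAt.smul_const (ee 1))).add
    (h2.1.hasFDerivAt.smul_const (ee 2))).fderiv
  have h' : fderiv ℝ (vec f0 f1 f2) q = _ := h
  rw [hCF.2.1, h', ← h0.2, ← h1.2, ← h2.2]
  simp [grad_apply, ee_apply]

/-- a level set of a continuous function is null where the gradient does not vanish -/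
lemma ae_ne_of_grad (hZ : ZLStmt) {f : E → ℝ} (hf : Continuous f) :
    ∀ᵐ x, ∇ f x ≠ 0 → f x ≠ 0 := by
  have := hZ.1 f hf
  rw [← compl_mem_ae_iff] at this
  filter_upwards [this] with x hx h1 h2
  refine hx ⟨h2, fun h3 => h1 ?_⟩
  simp [gradient, h3]

/-- an affine hyperplane is null -/
lemma ae_ne_affine (hZ : ZLStmt) (a0 a1 a2 b : ℝ) (h : a0 ≠ 0 ∨ a1 ≠ 0 ∨ a2 ≠ 0) :
    ∀ᵐ x : E, a0 * x 0 + a1 * x 1 + a2 * x 2 ≠ b := by
  have hc : Continuous (fun x : E => a0 * x 0 + a1 * x 1 + a2 * x 2 - b) := by fun_prop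
  filter_upwards [ae_ne_of_grad hZ hc] with x hx
  refine sub_ne_zero.1 (hx (fun h0 => ?_))
  rw [(((((HG.X 0 x).const_mul a0).add ((HG.X 1 x).const_mul a1)).add
    ((HG.X 2 x).const_mul a2)).sub (HG.const b x)).2] at h0
  have e0 := congrArg (fun v : E => v 0) h0
  have e1 := congrArg (fun v : E => v 1) h0
  have e2 := congrArg (fun v : E => v 2) h0
  simp [ee_apply] at e0 e1 e2
  tauto

end Crest.Agent.R83
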