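import Crest.Agent.R83.Basic

/-! Row 83, task LF (flat potentials). -/

set_option autoImplicit false

noncomputable section

namespace Crest.Agent.R83

open MeasureTheory Set Filter Topology Metric
open scoped Gradient RealInnerProductSpace NNReal

/-- Differentiation under the integral sign over `[0,1]`. -/
lemma lf_param {g : E → ℝ → ℝ} {g' : E → ℝ → (E →L[ℝ] ℝ)}
    (hd : ∀ y t, HasFDerivAt (fun z => g z t) (g' y t) y) (hg : Continuous g.uncurry)
    (hg' : Continuous g'.uncurry) (y : E) :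
    HasFDerivAt (fun z => ∫ t in (0 : ℝ)..1, g z t) (∫ t in (0 : ℝ)..1, g' y t) y := by
  obtain ⟨C, hC⟩ := ((isCompact_closedBall y 1).prod (isCompact_Icc (a := (0 : ℝ)) (b := 1))
    ).exists_bound_of_continuousOn hg'.continuousOn
  have c1 : ∀ z, Continuous (g z) := fun z => hg.comp (Continuous.prodMk_right z)
  have c2 : Continuous (g' y) := hg'.comp (Continuous.prodMk_right y)
  refine intervalIntegral.hasFDerivAt_integral_of_dominated_of_fderiv_le (bound := fun _ => C)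
    (closedBall_mem_nhds y one_pos) (Eventually.of_forall fun z => (c1 z).aestronglyMeasurable)
    ((c1 y).intervalIntegrable _ _) c2.aestronglyMeasurable
    (Eventually.of_forall fun t ht z hz => hC (z, t) ⟨hz, ?_⟩) intervalIntegrable_const
    (Eventually.of_forall fun t _ z _ => hd z t)
  rw [uIoc_of_le zero_le_one] at ht
  exact ⟨ht.1.le, ht.2⟩

/-- The segment from the hyperplane `y i = s` to `y`. -/
def lfPath (i : Fin 3) (s : ℝ) (y : E) (t : ℝ) : E := y + ((t - 1) * (y i - s)) • ee i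

/-- Primitive in the direction `i`. -/
def lfI (i : Fin 3) (s : ℝ) (f : E → ℝ) (y : E) : ℝ :=
  ∫ t in (0 : ℝ)..1, (y i - s) * f (lfPath i s y t)

/-- Derivative of the integrand. -/
def lfD (i : Fin 3) (s : ℝ) (f : E → ℝ) (y : E) (t : ℝ) : E →L[ℝ] ℝ :=
  (y i - s) • (fderiv ℝ f (lfPath i s y t)).comp (ContinuousLinearMap.id ℝ E +
      ((t - 1) • (EuclideanSpace.proj i : E →L[ℝ] ℝ)).smulRight (ee i)) +
    f (lfPath i s y t) • (EuclideanSpace.proj i : E →L[ℝ] ℝ)

lemma lf_path_cont (i : Fin 3) (s : ℝ) : Continuous (fun p : E × ℝ => lfPath i s p.1 p.2) := by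
  unfold lfPath; fun_prop

lemma lf_path_one (i : Fin 3) (s : ℝ) (y : E) : lfPath i s y 1 = y := by simp [lfPath]

lemma lf_D_cont (i : Fin 3) (s : ℝ) {f : E → ℝ} (hf : ContDiff ℝ 1 f) :
    Continuous (lfD i s f).uncurry := by
  have h1 : Continuous fun p : E × ℝ => fderiv ℝ f (lfPath i s p.1 p.2) :=
    (hf.continuous_fderiv one_ne_zero).comp (lf_path_cont i s)
  have h2 : Continuous fun p : E × ℝ => f (lfPath i s p.1 p.2) :=
    hf.continuous.comp (lf_path_cont i s)
  have h3 : Continuous fun p : E × ℝ => (ContinuousLinearMap.id ℝ E +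
      ((p.2 - 1) • (EuclideanSpace.proj i : E →L[ℝ] ℝ)).smulRight (ee i)) := by
    have : ∀ p : E × ℝ, ((p.2 - 1) • (EuclideanSpace.proj i : E →L[ℝ] ℝ)).smulRight (ee i) =
        (p.2 - 1) • (EuclideanSpace.proj i : E →L[ℝ] ℝ).smulRight (ee i) := by
      intro p; ext v k; simp [mul_assoc]
    simp_rw [this]
    fun_prop
  unfold lfD Function.uncurry
  exact (((by fun_prop : Continuous fun p : E × ℝ => p.1 i - s)).smul (h1.clm_comp h3)).add
    (h2.smul continuous_const)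

lemma lf_hasFDerivAt (i : Fin 3) (s : ℝ) {f : E → ℝ} (hf : ContDiff ℝ 1 f) (y : E) :
    HasFDerivAt (lfI i s f) (∫ t in (0 : ℝ)..1, lfD i s f y t) y := by
  refine lf_param (g := fun y t => (y i - s) * f (lfPath i s y t)) (fun y t => ?_) ?_
    (lf_D_cont i s hf) y
  · have h1 : HasFDerivAt (fun z : E => z i - s) (EuclideanSpace.proj i : E →L[ℝ] ℝ) y :=
      (hasFDerivAt_X i y).sub_const s
    have h2 : HasFDerivAt (fun z : E => lfPath i s z t) (ContinuousLinearMap.id ℝ E +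
        ((t - 1) • (EuclideanSpace.proj i : E →L[ℝ] ℝ)).smulRight (ee i)) y :=
      (hasFDerivAt_id y).add ((h1.const_mul (t - 1)).smul_const (ee i))
    exact h1.mul (((hf.differentiable one_ne_zero) _).hasFDerivAt.comp y h2)
  · exact (by fun_prop : Continuous fun p : E × ℝ => p.1 i - s).mul
      (hf.continuous.comp (lf_path_cont i s))

lemma lf_contDiff (i : Fin 3) (s : ℝ) {f : E → ℝ} (hf : ContDiff ℝ 1 f) :
    ContDiff ℝ 1 (lfI i s f) :=
  contDiff_one_iff_hasFDerivAt.2 ⟨_,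
    intervalIntegral.continuous_parametric_intervalIntegral_of_continuous' (lf_D_cont i s hf) 0 1,
    lf_hasFDerivAt i s hf⟩

lemma lf_grad (i : Fin 3) (s : ℝ) {f : E → ℝ} (hf : ContDiff ℝ 1 f) (y : E) (k : Fin 3) :
    ∇ (lfI i s f) y k = ∫ t in (0 : ℝ)..1, lfD i s f y t (ee k) := by
  rw [grad_eq_of_hasFDerivAt (lf_hasFDerivAt i s hf y),
    ContinuousLinearMap.intervalIntegral_apply]
  exact ((lf_D_cont i s hf).comp (Continuous.prodMk_right y)).intervalIntegrable _ _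

lemma lf_grad_ne (i : Fin 3) (s : ℝ) {f : E → ℝ} (hf : ContDiff ℝ 1 f) (y : E) {k : Fin 3}
    (hk : i ≠ k) : ∇ (lfI i s f) y k =
      ∫ t in (0 : ℝ)..1, (y i - s) * fderiv ℝ f (lfPath i s y t) (ee k) := by
  rw [lf_grad i s hf]
  congr 1
  ext t
  simp [lfD, ee_apply, hk]

lemma lf_deriv (i : Fin 3) (s : ℝ) {f : E → ℝ} (hf : ContDiff ℝ 1 f) (y : E) (t : ℝ) :
    HasDerivAt (fun t => f (lfPath i s y t))
      ((y i - s) * fderiv ℝ f (lfPath i s y t) (ee i)) t := by
  have h1 : HasDerivAt (fun t => lfPath i s y t) ((y i - s) • ee i) t := by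
    have := ((((hasDerivAt_id t).sub_const 1).mul_const (y i - s)).smul_const (ee i)).const_add y
    simpa [lfPath] using this
  have := ((hf.differentiable one_ne_zero) _).hasFDerivAt.comp_hasDerivAt t h1
  rw [map_smul, smul_eq_mul] at this
  exact this

lemma lf_cont (i : Fin 3) (s : ℝ) {f : E → ℝ} (hf : ContDiff ℝ 1 f) (y : E) (k : Fin 3) :
    Continuous fun t => (y i - s) * fderiv ℝ f (lfPath i s y t) (ee k) :=
  continuous_const.mul ((((hf.continuous_fderiv one_ne_zero).comp (lf_path_cont i s)).comp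
    (Continuous.prodMk_right y)).clm_apply continuous_const)

lemma lf_ftc (i : Fin 3) (s : ℝ) {f : E → ℝ} (hf : ContDiff ℝ 1 f) (y : E) :
    ∫ t in (0 : ℝ)..1, (y i - s) * fderiv ℝ f (lfPath i s y t) (ee i) =
      f y - f (lfPath i s y 0) := by
  rw [intervalIntegral.integral_eq_sub_of_hasDerivAt (fun t _ => lf_deriv i s hf y t)
    ((lf_cont i s hf y i).intervalIntegrable _ _), lf_path_one]

lemma lf_grad_self (i : Fin 3) (s : ℝ) {f : E → ℝ} (hf : ContDiff ℝ 1 f) (y : E) :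
    ∇ (lfI i s f) y i = f y := by
  rw [lf_grad i s hf]
  have h1 : ∀ t, lfD i s f y t (ee i) =
      1 * f (lfPath i s y t) + t * ((y i - s) * fderiv ℝ f (lfPath i s y t) (ee i)) := by
    intro t
    simp [lfD, ee_apply]
    ring
  simp_rw [h1]
  have c : Continuous fun t => f (lfPath i s y t) :=
    (hf.continuous.comp (lf_path_cont i s)).comp (Continuous.prodMk_right y)
  rw [intervalIntegral.integral_eq_sub_of_hasDerivAt (f := fun t => t * f (lfPath i s y t))
    (f' := fun t => 1 * f (lfPath i s y t) +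
      t * ((y i - s) * fderiv ℝ f (lfPath i s y t) (ee i)))
    (fun t _ => (hasDerivAt_id' t).mul (lf_deriv i s hf y t))
    (((continuous_const.mul c).add (continuous_id.mul (lf_cont i s hf y i))).intervalIntegrable _ _),
    lf_path_one]
  simp

lemma lf_path_mem (i : Fin 3) (y₀ y : E) {r t : ℝ} (hy : y ∈ ball y₀ r) (h0 : 0 ≤ t) (h1 : t ≤ 1) :
    lfPath i (y₀ i) y t ∈ ball y₀ r := by
  rw [mem_ball, dist_eq_norm] at hy ⊢
  refine lt_of_le_of_lt ?_ hy
  rw [← pow_le_pow_iff_left₀ (norm_nonneg _) (norm_nonneg _) two_ne_zero, normsq3, normsq3]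
  have key : ∀ a : ℝ, (a + (t - 1) * a) ^ 2 ≤ a ^ 2 := fun a => by
    have : (a + (t - 1) * a) ^ 2 = t ^ 2 * a ^ 2 := by ring
    rw [this]
    exact mul_le_of_le_one_left (sq_nonneg a) (pow_le_one₀ h0 h1)
  have k2 := key (y i - y₀ i)
  fin_cases i <;> simp [lfPath, ee_apply] at k2 ⊢ <;> nlinarith

/-- A germ of class `C¹` is the germ of a global `C¹` map. -/
lemma lf_glob {j : E → E} {y₀ : E} (h : ContDiffAt ℝ 1 j y₀) :
    ∃ j' : E → E, ContDiff ℝ 1 j' ∧ j' =ᶠ[𝓝 y₀] j := by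
  obtain ⟨r, hr, H⟩ := Metric.eventually_nhds_iff_ball.1 (h.eventually (by simp))
  let χ : ContDiffBump y₀ := ⟨r / 4, r / 2, by positivity, by linarith⟩
  refine ⟨fun y => χ y • j y, contDiff_iff_contDiffAt.2 fun y => ?_, ?_⟩
  · by_cases hy : y ∈ ball y₀ r
    · exact χ.contDiff.contDiffAt.smul (H y hy)
    · have h1 : ∀ᶠ z in 𝓝 y, χ z • j z = 0 := by
        have : r / 2 < dist y y₀ := by rw [mem_ball, not_lt] at hy; linarith
        filter_upwards [(continuous_id.dist continuous_const).continuousAt.eventually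
          (eventually_gt_nhds this)] with z hz
        rw [χ.zero_of_le_dist (x := z) hz.le, zero_smul]
      exact contDiffAt_const.congr_of_eventuallyEq h1
  · filter_upwards [χ.eventuallyEq_one] with y hy
    simp [hy]

lemma lf_coord {j : E → E} (hj : ContDiff ℝ 1 j) (k : Fin 3) : ContDiff ℝ 1 (fun y => j y k) :=
  (contDiff_X k).comp hj

lemma lf_fderiv_coord {j : E → E} (hj : ContDiff ℝ 1 j) (k : Fin 3) (y v : E) :
    fderiv ℝ (fun y => j y k) y v = fderiv ℝ j y v k := by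
  have := ((hasFDerivAt_X k (j y)).comp y ((hj.differentiable one_ne_zero) y).hasFDerivAt).fderiv
  change fderiv ℝ (X k ∘ j) y v = _
  rw [this]; rfl

lemma lf_path0_contDiff (i : Fin 3) (s : ℝ) : ContDiff ℝ 1 (fun y => lfPath i s y 0) :=
  contDiff_id.add ((contDiff_const.mul ((contDiff_X i).sub contDiff_const)).smul contDiff_const)

lemma lf_fderiv_path0 (i : Fin 3) (s : ℝ) {f : E → ℝ} (hf : ContDiff ℝ 1 f) (y : E) :
    fderiv ℝ (fun y => f (lfPath i s y 0)) y (ee i) = 0 := by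
  have hd : DifferentiableAt ℝ (fun y => f (lfPath i s y 0)) y :=
    ((hf.comp (lf_path0_contDiff i s)).differentiable one_ne_zero) y
  have h1 := hd.hasFDerivAt.hasLineDerivAt (ee i)
  have h2 : HasLineDerivAt ℝ (fun y => f (lfPath i s y 0)) 0 y (ee i) := by
    unfold HasLineDerivAt
    have : (fun t : ℝ => f (lfPath i s (y + t • ee i) 0)) = fun _ => f (lfPath i s y 0) := by
      ext t
      congr 1
      unfold lfPath
      simp only [PiLp.add_apply, PiLp.smul_apply, ee_apply, if_true, smul_eq_mul]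
      module
    rw [this]
    exact hasDerivAt_const _ _
  exact h1.unique h2

/-- The main computation for one row. -/
lemma lf_row {a b c : E → ℝ} (ha : ContDiff ℝ 1 a) (hb : ContDiff ℝ 1 b) (hc : ContDiff ℝ 1 c)
    (k l : Fin 3) (hk : (2 : Fin 3) ≠ k) (hl : (2 : Fin 3) ≠ l) (s s' : ℝ) (y : E)
    (hdiv : ∀ t, 0 ≤ t → t ≤ 1 → fderiv ℝ a (lfPath 2 s y t) (ee k) +
      fderiv ℝ b (lfPath 2 s y t) (ee l) + fderiv ℝ c (lfPath 2 s y t) (ee 2) = 0) :
    ∇ (fun y => lfI 2 s a y - lfI k s' (fun z => c (lfPath 2 s z 0)) y) y 2 = a y ∧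
    ∇ (fun y => lfI 2 s a y - lfI k s' (fun z => c (lfPath 2 s z 0)) y) y k +
      ∇ (lfI 2 s b) y l = -c y := by
  have hc' : ContDiff ℝ 1 (fun z => c (lfPath 2 s z 0)) := hc.comp (lf_path0_contDiff 2 s)
  rw [grad_sub ((lf_contDiff 2 s ha).differentiable one_ne_zero y)
    ((lf_contDiff k s' hc').differentiable one_ne_zero y)]
  simp only [PiLp.sub_apply]
  constructor
  · rw [lf_grad_self 2 s ha, lf_grad_ne k s' hc' y hk.symm]
    simp [lf_fderiv_path0 2 s hc]
  · rw [lf_grad_self k s' hc', lf_grad_ne 2 s ha y hk, lf_grad_ne 2 s hb y hl]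
    have h1 := lf_ftc 2 s hc y
    have h2 : ∫ t in (0 : ℝ)..1, ((y 2 - s) * fderiv ℝ a (lfPath 2 s y t) (ee k) +
        (y 2 - s) * fderiv ℝ b (lfPath 2 s y t) (ee l) +
        (y 2 - s) * fderiv ℝ c (lfPath 2 s y t) (ee 2)) = ∫ _ in (0 : ℝ)..1, (0 : ℝ) := by
      refine intervalIntegral.integral_congr fun t ht => ?_
      rw [uIcc_of_le zero_le_one] at ht
      simp only
      rw [← mul_add, ← mul_add, hdiv t ht.1 ht.2, mul_zero]
    rw [intervalIntegral.integral_add (((lf_cont 2 s ha y k).intervalIntegrable _ _).add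
        ((lf_cont 2 s hb y l).intervalIntegrable _ _))
        ((lf_cont 2 s hc y 2).intervalIntegrable _ _),
      intervalIntegral.integral_add ((lf_cont 2 s ha y k).intervalIntegrable _ _)
        ((lf_cont 2 s hb y l).intervalIntegrable _ _)] at h2
    simp only [intervalIntegral.integral_zero] at h2
    linarith

theorem LF_proof : LFStmt := by
  intro j₁ j₂ y₀ h₁ h₂ hev
  obtain ⟨k₁, c₁, e₁⟩ := lf_glob h₁
  obtain ⟨k₂, c₂, e₂⟩ := lf_glob h₂
  have hev' : ∀ᶠ y in 𝓝 y₀, k₁ y = j₁ y ∧ k₂ y = j₂ y ∧ dv k₁ y = 0 ∧ dv k₂ y = 0 ∧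
      k₁ y 1 = k₂ y 0 := by
    filter_upwards [hev, e₁.eventually_nhds, e₂.eventually_nhds] with y hy f₁ f₂
    have f₁' : k₁ =ᶠ[𝓝 y] j₁ := f₁
    have f₂' : k₂ =ᶠ[𝓝 y] j₂ := f₂
    refine ⟨f₁'.self_of_nhds, f₂'.self_of_nhds, ?_, ?_, ?_⟩
    · unfold dv; rw [f₁'.fderiv_eq]; exact hy.1
    · unfold dv; rw [f₂'.fderiv_eq]; exact hy.2.1
    · rw [f₁'.self_of_nhds, f₂'.self_of_nhds]; exact hy.2.2
  obtain ⟨r, hr, H⟩ := Metric.eventually_nhds_iff_ball.1 hev'
  refine ⟨fun y => lfI 2 (y₀ 2) (fun z => k₁ z 0) y -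
      lfI 0 (y₀ 0) (fun z => k₁ (lfPath 2 (y₀ 2) z 0) 2) y, lfI 2 (y₀ 2) (fun z => k₁ z 1),
    fun y => lfI 2 (y₀ 2) (fun z => k₂ z 1) y -
      lfI 1 (y₀ 1) (fun z => k₂ (lfPath 2 (y₀ 2) z 0) 2) y,
    ((lf_contDiff _ _ (lf_coord c₁ 0)).sub
      (lf_contDiff _ _ ((lf_coord c₁ 2).comp (lf_path0_contDiff _ _)))).contDiffAt,
    (lf_contDiff _ _ (lf_coord c₁ 1)).contDiffAt,
    ((lf_contDiff _ _ (lf_coord c₂ 1)).sub
      (lf_contDiff _ _ ((lf_coord c₂ 2).comp (lf_path0_contDiff _ _)))).contDiffAt, ?_⟩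
  filter_upwards [ball_mem_nhds y₀ hr] with y hy
  have r1 := lf_row (lf_coord c₁ 0) (lf_coord c₁ 1) (lf_coord c₁ 2) 0 1 (by decide) (by decide)
    (y₀ 2) (y₀ 0) y (fun t h0 h1 => by
      have := (H _ (lf_path_mem 2 y₀ y hy h0 h1)).2.2.1
      simpa only [lf_fderiv_coord c₁, dv, Fin.sum_univ_three] using this)
  have r2 := lf_row (lf_coord c₂ 1) (lf_coord c₁ 1) (lf_coord c₂ 2) 1 0 (by decide) (by decide)
    (y₀ 2) (y₀ 1) y (fun t h0 h1 => by
      have hm := lf_path_mem 2 y₀ y hy h0 h1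
      have h3 := (H _ hm).2.2.2.1
      have h4 : (fun z => k₁ z 1) =ᶠ[𝓝 (lfPath 2 (y₀ 2) y t)] fun z => k₂ z 0 := by
        filter_upwards [isOpen_ball.mem_nhds hm] with z hz
        exact (H z hz).2.2.2.2
      rw [h4.fderiv_eq]
      simp only [lf_fderiv_coord c₂, dv, Fin.sum_univ_three] at h3 ⊢
      linarith)
  have r3 := lf_grad_self 2 (y₀ 2) (lf_coord c₁ 1) y
  obtain ⟨g1, g2, -, -, g3⟩ := H y hy
  rw [← g1, ← g2]
  constructor
  · apply ext3 <;> simp only [J1, grad_X, PiLp.sub_apply, cross_0, cross_1, cross_2, ee_apply] <;>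
      simp <;> linarith [r1.1, r1.2]
  · apply ext3 <;> simp only [J2, grad_X, PiLp.sub_apply, cross_0, cross_1, cross_2, ee_apply] <;>
      simp <;> linarith [r2.1, r2.2]

end Crest.Agent.R83
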