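import Crest.Agent.R83.Basic

/-! Row 83, task LP (local potentials). -/

set_option autoImplicit false

noncomputable section

namespace Crest.Agent.R83

open MeasureTheory Set Filter Topology Metric
open scoped Gradient RealInnerProductSpace NNReal

lemma lp_grad_cd {f : E → ℝ} {z : E} (hf : ContDiffAt ℝ 2 f z) (k : Fin 3) :
    ContDiffAt ℝ 1 (fun y => ∇ f y k) z := by
  simp only [grad_apply]
  exact (hf.fderiv_right (m := 1) (by norm_num)).clm_apply contDiffAt_const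

lemma lp_second {f : E → ℝ} {z : E} (hf : ContDiffAt ℝ 2 f z) (i k : Fin 3) :
    fderiv ℝ (fun y => ∇ f y k) z (ee i) = fderiv ℝ (fun y => ∇ f y i) z (ee k) := by
  have hd : DifferentiableAt ℝ (fderiv ℝ f) z :=
    (hf.fderiv_right (m := 1) (by norm_num)).differentiableAt one_ne_zero
  have key : ∀ (k : Fin 3) (v : E), fderiv ℝ (fun y => ∇ f y k) z v =
      fderiv ℝ (fderiv ℝ f) z v (ee k) := fun k v => by
    simp only [grad_apply]
    rw [fderiv_clm_apply hd (differentiableAt_const _)]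
    simp
  rw [key, key]
  exact hf.isSymmSndFDerivAt (by simp) _ _

lemma lp_cross_cd {F G : E → ℝ} {z : E} (hF : ContDiffAt ℝ 2 F z) (hG : ContDiffAt ℝ 2 G z) :
    ContDiffAt ℝ 1 (fun y => cross (∇ F y) (∇ G y)) z := by
  have a := lp_grad_cd hF
  have b := lp_grad_cd hG
  refine contDiffAt_euclidean.2 fun i => ?_
  fin_cases i
  · exact ((a 1).mul (b 2)).sub ((a 2).mul (b 1))
  · exact ((a 2).mul (b 0)).sub ((a 0).mul (b 2))
  · exact ((a 0).mul (b 1)).sub ((a 1).mul (b 0))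

lemma lp_fderiv_coord {j : E → E} {y : E} (hj : DifferentiableAt ℝ j y) (k : Fin 3) (v : E) :
    fderiv ℝ j y v k = fderiv ℝ (fun y => j y k) y v := by
  have := ((hasFDerivAt_X k (j y)).comp y hj.hasFDerivAt).fderiv
  change _ = fderiv ℝ (X k ∘ j) y v
  rw [this]; rfl

lemma lp_dv_cross {F G : E → ℝ} {z : E} (hF : ContDiffAt ℝ 2 F z) (hG : ContDiffAt ℝ 2 G z) :
    dv (fun y => cross (∇ F y) (∇ G y)) z = 0 := by
  have a := fun k => ((lp_grad_cd hF k).differentiableAt one_ne_zero).hasFDerivAt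
  have b := fun k => ((lp_grad_cd hG k).differentiableAt one_ne_zero).hasFDerivAt
  have key : ∀ (i k : Fin 3) (v : E),
      fderiv ℝ (fun y => ∇ F y i * ∇ G y k - ∇ F y k * ∇ G y i) z v =
      ∇ F z i * fderiv ℝ (fun y => ∇ G y k) z v + ∇ G z k * fderiv ℝ (fun y => ∇ F y i) z v -
      (∇ F z k * fderiv ℝ (fun y => ∇ G y i) z v + ∇ G z i * fderiv ℝ (fun y => ∇ F y k) z v) :=
    fun i k v => by
      have := (((a i).mul (b k)).sub ((a k).mul (b i))).fderiv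
      change fderiv ℝ (fun y => ∇ F y i * ∇ G y k - ∇ F y k * ∇ G y i) z = _ at this
      rw [this]
      rfl
  simp only [dv, Fin.sum_univ_three,
    lp_fderiv_coord ((lp_cross_cd hF hG).differentiableAt one_ne_zero), cross_0, cross_1, cross_2,
    key]
  rw [lp_second hF 0 1, lp_second hF 0 2, lp_second hF 1 2, lp_second hG 0 1, lp_second hG 0 2,
    lp_second hG 1 2]
  ring

lemma lp_flux_cd {n : ℕ} {F G : Fin n → E → ℝ} {z : E} (hF : ∀ k, ContDiffAt ℝ 2 (F k) z)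
    (hG : ∀ k, ContDiffAt ℝ 2 (G k) z) : ContDiffAt ℝ 1 (flux F G) z :=
  ContDiffAt.sum fun k _ => lp_cross_cd (hF k) (hG k)

lemma lp_dv_flux {n : ℕ} {F G : Fin n → E → ℝ} {z : E} (hF : ∀ k, ContDiffAt ℝ 2 (F k) z)
    (hG : ∀ k, ContDiffAt ℝ 2 (G k) z) : dv (flux F G) z = 0 := by
  have h : fderiv ℝ (flux F G) z = ∑ k, fderiv ℝ (fun y => cross (∇ (F k) y) (∇ (G k) y)) z :=
    fderiv_fun_sum fun k _ => (lp_cross_cd (hF k) (hG k)).differentiableAt one_ne_zero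
  have h2 := fun k => lp_dv_cross (hF k) (hG k)
  unfold dv at h2 ⊢
  rw [h]
  simp only [_root_.sum_apply, WithLp.ofLp_sum, Finset.sum_apply]
  rw [Finset.sum_comm]
  exact Finset.sum_eq_zero fun k _ => h2 k

/-- A local `C²` inverse of the chart. -/
lemma lp_chart (hCF : CFStmt) {u₁ u₂ : E → ℝ} {x : E} (h₁ : ContDiffAt ℝ 2 u₁ x)
    (h₂ : ContDiffAt ℝ 2 u₂ x) (hn : cross (∇ u₁ x) (∇ u₂ x) ≠ 0) :
    ∃ Φ Ψ : E → E, ContDiffAt ℝ 2 Φ x ∧ ContDiffAt ℝ 2 Ψ (Φ x) ∧ (∀ y, Φ y 0 = u₁ y ∧ Φ y 1 = u₂ y) ∧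
      (∀ᶠ y in 𝓝 x, Ψ (Φ y) = y) ∧ ∀ᶠ z in 𝓝 (Φ x), Φ (Ψ z) = z := by
  set n := cross (∇ u₁ x) (∇ u₂ x) with hn'
  let Φ : E → E := fun y => !₂[u₁ y, u₂ y, ⟪n, y⟫]
  have h₃ : ContDiffAt ℝ 2 (fun y : E => ⟪n, y⟫) x := (innerSL ℝ n).contDiff.contDiffAt
  have hΦ : ContDiffAt ℝ 2 Φ x := contDiffAt_euclidean.2 fun i => by
    fin_cases i
    · exact h₁
    · exact h₂
    · exact h₃
  have hd := hΦ.differentiableAt two_ne_zero
  have e0 : ∀ i, fderiv ℝ Φ x (ee i) 0 = ∇ u₁ x i := fun i => by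
    rw [lp_fderiv_coord hd, grad_apply]; rfl
  have e1 : ∀ i, fderiv ℝ Φ x (ee i) 1 = ∇ u₂ x i := fun i => by
    rw [lp_fderiv_coord hd, grad_apply]; rfl
  have e2 : ∀ i, fderiv ℝ Φ x (ee i) 2 = n i := fun i => by
    rw [lp_fderiv_coord hd, ← inner_ee]
    exact congrArg (fun L : E →L[ℝ] ℝ => L (ee i)) (innerSL ℝ n).fderiv
  have hdet : (fderiv ℝ Φ x).det ≠ 0 := by
    have : (fderiv ℝ Φ x).det = ‖n‖ ^ 2 := by
      rw [hCF.2.1, normsq3]
      simp only [e0, e1, e2, hn', cross_0, cross_1, cross_2]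
      ring
    rw [this]
    exact pow_ne_zero 2 (norm_ne_zero_iff.2 hn)
  have hf' : HasFDerivAt Φ ((fderiv ℝ Φ x).toContinuousLinearEquivOfDetNeZero hdet : E →L[ℝ] E) x := by
    rw [ContinuousLinearMap.coe_toContinuousLinearEquivOfDetNeZero]
    exact hd.hasFDerivAt
  exact ⟨Φ, hΦ.localInverse hf' two_ne_zero, hΦ, hΦ.to_localInverse hf' two_ne_zero,
    fun y => ⟨rfl, rfl⟩, (hΦ.hasStrictFDerivAt' hf' two_ne_zero).eventually_left_inverse,
    (hΦ.hasStrictFDerivAt' hf' two_ne_zero).eventually_right_inverse⟩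

lemma lp_indep {Λ : ℝ} {p q j k : E} (h : Ell Λ p q j k) : cross p q ≠ 0 := by
  intro h0
  have hne : ∀ a b : ℝ, (a ≠ 0 ∨ b ≠ 0) → a • p + b • q ≠ 0 := fun a b hab h1 => by
    have := h.2 a b hab
    rw [h1, inner_zero_left, mul_zero] at this
    exact absurd this (not_lt.2 (by positivity))
  have hp : p ≠ 0 := by simpa using hne 1 0 (Or.inl one_ne_zero)
  refine hne (-⟪p, q⟫) (‖p‖ ^ 2) (Or.inr (pow_ne_zero 2 (norm_ne_zero_iff.2 hp))) ?_
  have : -⟪p, q⟫ • p + ‖p‖ ^ 2 • q = cross (cross p q) p := by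
    apply ext3 <;> simp only [normsq3, inner3, cross_0, cross_1, cross_2, PiLp.add_apply,
      PiLp.smul_apply, smul_eq_mul] <;> ring
  rw [this, h0, cross_zero_left]

theorem LP_proof (hLF : LFStmt) (hCF : CFStmt) : LPStmt := by
  intro n Λ u₁ u₂ F₁ G₁ F₂ G₂ x h₁ h₂ hFG hsym hE
  obtain ⟨Φ, Ψ, hΦ, hΨ, hΦu, hl, hr⟩ := lp_chart hCF h₁ h₂ (lp_indep hE)
  have hx : Ψ (Φ x) = x := hl.self_of_nhds
  have tΨ : Tendsto Ψ (𝓝 (Φ x)) (𝓝 x) := by
    have := hΨ.continuousAt.tendsto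
    rwa [hx] at this
  have tΦ : Tendsto Φ (𝓝 x) (𝓝 (Φ x)) := hΦ.continuousAt.tendsto
  have cd : ∀ {f : E → ℝ}, ContDiffAt ℝ 2 f x → ContDiffAt ℝ 2 (fun z => f (Ψ z)) (Φ x) :=
    fun {f} hf => ContDiffAt.comp (g := f) (Φ x) (hx.symm ▸ hf) hΨ
  have ev : ∀ {f : E → ℝ} {z : E}, ContDiffAt ℝ 2 f z → ∀ᶠ y in 𝓝 z, ContDiffAt ℝ 2 f y :=
    fun hf => hf.eventually (by simp)
  have evk : ∀ {F : Fin n → E → ℝ} {z : E}, (∀ k, ContDiffAt ℝ 2 (F k) z) →
      ∀ᶠ y in 𝓝 z, ∀ k, ContDiffAt ℝ 2 (F k) y := fun hf => eventually_all.2 fun k => ev (hf k)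
  have a1 := fun k => cd (hFG k).1
  have a2 := fun k => cd (hFG k).2.1
  have a3 := fun k => cd (hFG k).2.2.1
  have a4 := fun k => cd (hFG k).2.2.2
  obtain ⟨α, β, δ, c1, c2, c3, hJ⟩ := hLF (flux (fun k z => F₁ k (Ψ z)) (fun k z => G₁ k (Ψ z)))
    (flux (fun k z => F₂ k (Ψ z)) (fun k z => G₂ k (Ψ z))) (Φ x) (lp_flux_cd a1 a2)
    (lp_flux_cd a3 a4) (by
      filter_upwards [evk a1, evk a2, evk a3, evk a4, tΨ.eventually hsym, hΨ.eventually (by simp),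
        hr.eventually_nhds, tΨ.eventually (ev h₁), tΨ.eventually (ev h₂),
        tΨ.eventually (evk fun k => (hFG k).1), tΨ.eventually (evk fun k => (hFG k).2.1),
        tΨ.eventually (evk fun k => (hFG k).2.2.1), tΨ.eventually (evk fun k => (hFG k).2.2.2)]
        with z b1 b2 b3 b4 b5 b6 b7 b8 b9 d1 d2 d3 d4
      refine ⟨lp_dv_flux b1 b2, lp_dv_flux b3 b4, ?_⟩
      obtain ⟨cof, k1, k2, -⟩ := hCF.1 (fderiv ℝ Ψ z)
      have ch : ∀ {f : E → ℝ}, ContDiffAt ℝ 2 f (Ψ z) →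
          ∇ (fun y => f (Ψ y)) z = (fderiv ℝ Ψ z).adjoint (∇ f (Ψ z)) := fun {f} hf =>
        hCF.2.2 f Ψ z (b6.differentiableAt two_ne_zero) (hf.differentiableAt two_ne_zero)
      have f1 : flux (fun k z => F₁ k (Ψ z)) (fun k z => G₁ k (Ψ z)) z = cof (flux F₁ G₁ (Ψ z)) := by
        simp only [flux, map_sum, ← k1, ch (d1 _), ch (d2 _)]
      have f2 : flux (fun k z => F₂ k (Ψ z)) (fun k z => G₂ k (Ψ z)) z = cof (flux F₂ G₂ (Ψ z)) := by
        simp only [flux, map_sum, ← k1, ch (d3 _), ch (d4 _)]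
      have g1 : (fderiv ℝ Ψ z).adjoint (∇ u₁ (Ψ z)) = ee 0 := by
        rw [← ch b8, ← grad_X 0 z]
        exact grad_congr (b7.mono fun y hy => by
          show u₁ (Ψ y) = X 0 y
          rw [← (hΦu _).1, hy]; rfl)
      have g2 : (fderiv ℝ Ψ z).adjoint (∇ u₂ (Ψ z)) = ee 1 := by
        rw [← ch b9, ← grad_X 1 z]
        exact grad_congr (b7.mono fun y hy => by
          show u₂ (Ψ y) = X 1 y
          rw [← (hΦu _).2, hy]; rfl)
      rw [f1, f2, ← inner_ee, ← inner_ee, real_inner_comm, real_inner_comm (ee 0), ← g1, ← g2, k2,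
        k2, b5])
  have hΦ1 : ContDiffAt ℝ 1 Φ x := hΦ.of_le (by norm_num)
  have main : ∀ᶠ y in 𝓝 x,
      flux F₁ G₁ y = J1 u₁ u₂ (fun y => α (Φ y)) (fun y => β (Φ y)) y ∧
      flux F₂ G₂ y = J2 u₁ u₂ (fun y => β (Φ y)) (fun y => δ (Φ y)) y := by
    filter_upwards [tΦ.eventually hJ, hΦ.eventually (by simp), hl.eventually_nhds,
      tΦ.eventually (c1.eventually (by simp)), tΦ.eventually (c2.eventually (by simp)),
      tΦ.eventually (c3.eventually (by simp)), tΦ.eventually (evk a1), tΦ.eventually (evk a2),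
      tΦ.eventually (evk a3), tΦ.eventually (evk a4)] with y b1 b2 b3 b4 b5 b6 d1 d2 d3 d4
    obtain ⟨cof, k1, -, -⟩ := hCF.1 (fderiv ℝ Φ y)
    have ch : ∀ {f : E → ℝ}, DifferentiableAt ℝ f (Φ y) →
        ∇ (fun y => f (Φ y)) y = (fderiv ℝ Φ y).adjoint (∇ f (Φ y)) := fun {f} hf =>
      hCF.2.2 f Φ y (b2.differentiableAt two_ne_zero) hf
    have ch2 : ∀ {f : E → ℝ}, ContDiffAt ℝ 2 (fun z => f (Ψ z)) (Φ y) →
        ∇ f y = (fderiv ℝ Φ y).adjoint (∇ (fun z => f (Ψ z)) (Φ y)) := fun {f} hf => by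
      rw [← ch (hf.differentiableAt two_ne_zero)]
      exact grad_congr (b3.mono fun w hw => by simp only [hw])
    have g1 : ∇ u₁ y = (fderiv ℝ Φ y).adjoint (∇ (X 0) (Φ y)) := by
      rw [← ch (hasFDerivAt_X 0 _).differentiableAt]
      exact grad_congr (Eventually.of_forall fun w => (hΦu w).1.symm)
    have g2 : ∇ u₂ y = (fderiv ℝ Φ y).adjoint (∇ (X 1) (Φ y)) := by
      rw [← ch (hasFDerivAt_X 1 _).differentiableAt]
      exact grad_congr (Eventually.of_forall fun w => (hΦu w).2.symm)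
    have f1 : flux F₁ G₁ y = cof (flux (fun k z => F₁ k (Ψ z)) (fun k z => G₁ k (Ψ z)) (Φ y)) := by
      simp only [flux, map_sum, ← k1, ← ch2 (d1 _), ← ch2 (d2 _)]
    have f2 : flux F₂ G₂ y = cof (flux (fun k z => F₂ k (Ψ z)) (fun k z => G₂ k (Ψ z)) (Φ y)) := by
      simp only [flux, map_sum, ← k1, ← ch2 (d3 _), ← ch2 (d4 _)]
    rw [f1, f2, b1.1, b1.2]
    simp only [J1, J2, map_sub, ← k1, g1, g2, ch (b4.differentiableAt one_ne_zero),
      ch (b5.differentiableAt one_ne_zero), ch (b6.differentiableAt one_ne_zero), and_self]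
  refine ⟨u₁, u₂, fun y => α (Φ y), fun y => β (Φ y), fun y => δ (Φ y), h₁.of_le (by norm_num),
    h₂.of_le (by norm_num), c1.comp x hΦ1, c2.comp x hΦ1, c3.comp x hΦ1, ?_, fun i => ?_⟩
  · rw [← main.self_of_nhds.1, ← main.self_of_nhds.2]
    exact hE
  · fin_cases i
    · exact ⟨0, 1, 0, main.mono fun y hy => by simp [hy.1]⟩
    · exact ⟨0, 0, 1, main.mono fun y hy => by simp [hy.2]⟩

end Crest.Agent.R83
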