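import Crest.Agent.R83.MD2

set_option autoImplicit false

noncomputable section

namespace Crest.Agent.R83

open MeasureTheory Set Filter Topology Metric
open scoped Gradient RealInnerProductSpace NNReal

lemma md_tent_nonneg (ξ : ℝ) : 0 ≤ tent ξ := add_nonneg (le_max_right _ _) (le_max_right _ _)

lemma md_DD_SS {q : E} (h : q ∈ DD) : q ∈ SS := ⟨(md_tent_nonneg _).trans h.2.2.1, h.1, h.2.1⟩

lemma md_SS_refl {q : E} (h : q ∈ SS) : mdR q ∈ SS := by simpa [SS] using h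

lemma md_DD_Z0 {q : E} (h : q ∈ DD) (hr : ‖zc (-cc) q‖ ≤ cc) : q ∈ Z0 := by
  refine ⟨md_DD_SS h, ?_, hr⟩
  have := h.2.2.1
  unfold tent at this
  linarith [le_max_left (rho - |q 0 + cc|) 0, le_max_right (rho - |q 0 - cc|) 0]

lemma md_DD_Z1 {q : E} (h : q ∈ DD) (hr : ‖zc cc q‖ ≤ cc) : mdR q ∈ Z0 := by
  refine ⟨md_SS_refl (md_DD_SS h), ?_, by rwa [md_norm_refl]⟩
  have := h.2.2.1
  unfold tent at this
  have e : |mdR q 0 + cc| = |q 0 - cc| := by rw [mdR_0, ← abs_neg]; congr 1; ring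
  rw [e, mdR_2]
  linarith [le_max_left (rho - |q 0 - cc|) 0, le_max_right (rho - |q 0 + cc|) 0]

lemma md_circ_Z0 {q : E} (h : q ∈ SS) (hr : ‖zc (-cc) q‖ = cc) : q ∈ Z0 := by
  refine ⟨h, ?_, hr.le⟩
  have := md_norm_le (-cc) q h.1
  rw [hr, sub_neg_eq_add] at this
  have : rho ≤ cc := by norm_num [rho, cc]
  linarith

lemma md_Box_mono {t T : ℝ} {p : E} (h : p ∈ Box t T) : p ∈ Box t (T + 1) :=
  ⟨h.1, h.2.1, h.2.2.1, h.2.2.2.1, h.2.2.2.2.1, by linarith [h.2.2.2.2.2]⟩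

lemma md_cases (q : E) (h : q ∈ SS) :
    ‖zc (-cc) q‖ < cc ∨ ‖zc cc q‖ < cc ∨ 3 * cc < ‖zc (-cc) q‖ ∨ q ∈ mdMid := by
  by_contra hc
  push Not at hc
  exact hc.2.2.2 ⟨h, hc.1, hc.2.1, hc.2.2.1⟩

lemma md_ev_SS {q : E} (h0 : 0 < q 2) (h1 : 0 < q 1) (h2 : q 1 < Real.pi) : ∀ᶠ y in 𝓝 q, y ∈ SS := by
  have c2 : Continuous (fun y : E => y 2) := by fun_prop
  have c1 : Continuous (fun y : E => y 1) := by fun_prop
  filter_upwards [c2.continuousAt.eventually (lt_mem_nhds h0), c1.continuousAt.eventually (lt_mem_nhds h1),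
    c1.continuousAt.eventually (gt_mem_nhds h2)] with y a b c
  exact ⟨a.le, b.le, c.le⟩

/-- a.e. point of a zone avoids a null set after the chart -/
lemma md_avoid (hNP : NPStmt) {σ d K : ℝ} {pp : E → E} {Z : Set E} (hd : 0 < d) (h : QC σ d K pp Z)
    {p : E → Prop} (hp : ∀ᵐ y, p y) : ∀ᵐ q, q ∈ Z → p (pp q) := by
  filter_upwards [h, hNP.1 pp {y | ¬ p y} hp] with q h1 h2 hq
  obtain ⟨a, b, -⟩ := h1 hq
  by_contra hc
  refine h2 a (fun h0 => ?_) hc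
  rw [h0, mul_zero] at b; linarith

lemma md_cont_top : Continuous top := by unfold top n1; fun_prop

theorem MD_proof (hGL : GLStmt) (hNP : NPStmt) (hGB : GBStmt) (hCF : CFStmt) (hPB : PBStmt)
    (hPM : PMStmt) (hTH : THStmt) (hMG : MGStmt) (hZ0 : ZP0Stmt) (hZi : ZPIStmt) : MDStmt := by
  have hc := md_cc_pos
  have hl2 : 0 < Real.log 2 := Real.log_pos (by norm_num)
  have hl3 : 0 < Real.log (3 / 2) := Real.log_pos (by norm_num)
  obtain ⟨T₀, v, F₁, F₂, g, hT₀, lv, l1, l2, lg, hs, he, hwx, hwy, hgood⟩ := hPM _ hl2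
  obtain ⟨p₀, K₀, d₀, hd₀, lip0, qc0, z0⟩ := hZ0 _ _ hT₀
  obtain ⟨T₁, v', F₁', F₂', g', hT₁, lv', l1', l2', lg', hs', he', hwx', hwy', hgood'⟩ := hPM _ hl3
  obtain ⟨pI, Ki, di, hdi, lipi, qci, zi, zcirc, ztop⟩ := hZi (Real.log (3 / 2)) (T₁ + 1) (by linarith)
  have lip1 : LipschitzWith (K₀ * 1) (fun q => p₀ (mdR q)) := lip0.comp md_lip_mdR
  have qc1 : QC (-1 * 1) (1 * d₀) (1 * K₀) (p₀ ∘ mdR) {q | mdR q ∈ Z0} :=
    hNP.2 _ _ _ _ _ _ _ _ _ _ one_pos hd₀ (md_QC_mdR hCF _) qc0 fun q hq => hq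
  obtain ⟨Λ₀, pb0⟩ := hPB 300 d₀ K₀ hd₀
  obtain ⟨Λ₁, pb1⟩ := hPB 300 (1 * d₀) (1 * K₀) (by linarith)
  obtain ⟨Λi, pbi⟩ := hPB 300 di Ki hdi
  set cs := T₁ + 1 with hcs
  set cm := cs + Real.log (2 * cc) with hcm
  have lX : ∀ i, Lip (X i) := fun i => ⟨1, lipschitz_X i⟩
  have lneg : ∀ {f : E → ℝ}, Lip f → Lip (fun y => -f y) := fun ⟨K, h⟩ => ⟨K, h.neg⟩
  have mz : ∀ q ∈ mdMid, zc (-cc) q ≠ 0 ∧ zc cc q ≠ 0 := fun q hq =>
    ⟨norm_pos_iff.1 (hc.trans_le hq.2.1), norm_pos_iff.1 (hc.trans_le hq.2.2.1)⟩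
  have ml : ∀ c, (∀ q ∈ mdMid, zc c q ≠ 0) →
      ∀ q ∈ mdMid, ContDiffAt ℝ 1 (fun y => cm + -Real.log ‖zc c y‖) q := fun c h q hq =>
    contDiffAt_const.add (((hTH c q hq.1.1 (h q hq)).2.2.2.2.2.2.2.1.of_le (by norm_num)).log
      (norm_ne_zero_iff.2 (h q hq))).neg
  have mt : ∀ c, (∀ q ∈ mdMid, zc c q ≠ 0) → ∀ q ∈ mdMid, ContDiffAt ℝ 1 (th c) q := fun c h q hq =>
    (hTH c q hq.1.1 (h q hq)).2.2.2.2.2.2.1.of_le (by norm_num)
  have m0 : ∀ (c : ℝ), ∀ q ∈ mdMid, ContDiffAt ℝ 1 (fun _ : E => c) q := fun _ _ _ => contDiffAt_const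
  -- interface values
  have i0 : ∀ q ∈ SS, ‖zc (-cc) q‖ = cc → p₀ q 0 = th (-cc) q ∧ p₀ q 2 = Real.log 2 ∧
      v (p₀ q) = Real.log (2 * cc) - Real.log ‖zc cc q‖ ∧ Real.pi + F₁ (p₀ q) = th cc q ∧
      F₂ (p₀ q) = 0 ∧ g (p₀ q) = 0 := fun q hq hr => by
    obtain ⟨b, -, -, h, -⟩ := z0 q (md_circ_Z0 hq hr)
    obtain ⟨h1, h2⟩ := h hr
    obtain ⟨s1, s2, s3, s4⟩ := hs _ (md_Box_mono b) h2
    obtain ⟨r1, r2⟩ := md_inner hTH q _ hq.1 hr h1 h2
    exact ⟨h1, h2, s1.trans r1, by rw [s2, r2], s3, s4⟩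
  have i1 : ∀ q ∈ SS, ‖zc cc q‖ = cc → Real.pi + -p₀ (mdR q) 0 = th cc q ∧ p₀ (mdR q) 2 = Real.log 2 ∧
      v (p₀ (mdR q)) = Real.log (2 * cc) - Real.log ‖zc (-cc) q‖ ∧ -F₁ (p₀ (mdR q)) = th (-cc) q ∧
      F₂ (p₀ (mdR q)) = 0 ∧ g (p₀ (mdR q)) = 0 := fun q hq hr => by
    obtain ⟨h1, h2, h3, h4, h5, h6⟩ := i0 (mdR q) (md_SS_refl hq) (by rwa [md_norm_refl])
    have hz1 : zc cc q ≠ 0 := by rw [← norm_ne_zero_iff, hr]; exact hc.ne'
    have hz0 : zc (-cc) q ≠ 0 := by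
      intro h
      have a := md_abs_le_norm (-cc) q
      have b := abs_le.1 (md_abs_le_norm cc q)
      rw [h, norm_zero] at a
      have := abs_nonpos_iff.1 a
      linarith
    have r1 := md_th_refl hTH cc q hq.1 hz1
    have r2 := md_th_refl hTH (-cc) q hq.1 hz0
    rw [neg_neg] at r2
    rw [md_norm_refl'] at h3
    exact ⟨by linarith, h2, h3, by linarith, h5, h6⟩
  have ii : ∀ q ∈ SS, ‖zc (-cc) q‖ = 3 * cc → pI q 0 = th (-cc) q ∧ pI q 2 = Real.log (3 / 2) ∧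
      -Real.log (3 / 2) + v' (pI q) = Real.log (2 * cc) - Real.log ‖zc cc q‖ ∧
      th (-cc) q - F₁' (pI q) = th cc q ∧ F₂' (pI q) = 0 ∧ g' (pI q) = 0 := fun q hq hr => by
    obtain ⟨b, -, -, h, -⟩ := zi q (zcirc q hq hr)
    obtain ⟨h1, h2⟩ := h hr
    obtain ⟨s1, s2, s3, s4⟩ := hs' _ b h2
    obtain ⟨r1, r2⟩ := md_outer hTH q _ hq.1 hr h1 h2
    exact ⟨h1, h2, by rw [s1, r1], by rw [s2, r2], s3, s4⟩
  have L2 : Real.log (2 * cc) = Real.log 2 + Real.log cc := Real.log_mul (by norm_num) hc.ne'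
  have L3 : Real.log (3 * cc) = Real.log (3 / 2) + Real.log (2 * cc) := by
    rw [← Real.log_mul (by norm_num) (by positivity)]; congr 1; ring
  obtain ⟨a₀, la₀, a00, a01, a0i, a0m⟩ := md_glue hGL (f₀ := fun y => cs + p₀ y 2)
    (f₁ := fun y => cs + v (p₀ (mdR y))) (fi := fun y => cs + -pI y 2)
    ((Lip.const _).add ((lX 2).comp lip0)) ((Lip.const _).add (lv.comp lip1))
    ((Lip.const _).add (lneg ((lX 2).comp lipi))) (ml _ fun q h => (mz q h).1)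
    (fun q hq hr => by rw [(i0 q hq hr).2.1, hr]; linarith)
    (fun q hq hr => by rw [(i1 q hq hr).2.2.1]; linarith)
    (fun q hq hr => by rw [(ii q hq hr).2.1, hr]; linarith)
  obtain ⟨a₁, la₁, a10, a11, a1i, a1m⟩ := md_glue hGL (f₀ := fun y => cs + v (p₀ y))
    (f₁ := fun y => cs + p₀ (mdR y) 2) (fi := fun y => cs + -pI y 2 + v' (pI y))
    ((Lip.const _).add (lv.comp lip0)) ((Lip.const _).add ((lX 2).comp lip1))
    (((Lip.const _).add (lneg ((lX 2).comp lipi))).add (lv'.comp lipi)) (ml _ fun q h => (mz q h).2)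
    (fun q hq hr => by rw [(i0 q hq hr).2.2.1]; linarith)
    (fun q hq hr => by rw [(i1 q hq hr).2.1, hr]; linarith)
    (fun q hq hr => by rw [(ii q hq hr).2.1]; linarith [(ii q hq hr).2.2.1])
  obtain ⟨A₀, lA₀, A00, A01, A0i, A0m⟩ := md_glue hGL (f₀ := fun y => p₀ y 0)
    (f₁ := fun y => -F₁ (p₀ (mdR y))) (fi := fun y => pI y 0)
    ((lX 0).comp lip0) (lneg (l1.comp lip1)) ((lX 0).comp lipi) (mt _ fun q h => (mz q h).1)
    (fun q hq hr => (i0 q hq hr).1) (fun q hq hr => (i1 q hq hr).2.2.2.1) (fun q hq hr => (ii q hq hr).1)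
  obtain ⟨A₁, lA₁, A10, A11, A1i, A1m⟩ := md_glue hGL (f₀ := fun y => Real.pi + F₁ (p₀ y))
    (f₁ := fun y => Real.pi + -p₀ (mdR y) 0) (fi := fun y => pI y 0 - F₁' (pI y))
    ((Lip.const _).add (l1.comp lip0)) ((Lip.const _).add (lneg ((lX 0).comp lip1)))
    (((lX 0).comp lipi).sub (l1'.comp lipi)) (mt _ fun q h => (mz q h).2)
    (fun q hq hr => (i0 q hq hr).2.2.2.1) (fun q hq hr => (i1 q hq hr).1)
    (fun q hq hr => by rw [(ii q hq hr).1]; exact (ii q hq hr).2.2.2.1)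
  obtain ⟨P₀, lP₀, P00, P01, P0i, P0m⟩ := md_glue hGL (f₀ := fun _ => 0)
    (f₁ := fun y => F₂ (p₀ (mdR y))) (fi := fun _ => 0) (Lip.const _) (l2.comp lip1) (Lip.const _) (m0 0)
    (fun _ _ _ => rfl) (fun q hq hr => (i1 q hq hr).2.2.2.2.1) (fun _ _ _ => rfl)
  obtain ⟨Q₀, lQ₀, Q00, Q01, Q0i, Q0m⟩ := md_glue hGL (f₀ := fun _ => 0)
    (f₁ := fun y => -g (p₀ (mdR y))) (fi := fun _ => 0) (Lip.const _) (lneg (lg.comp lip1)) (Lip.const _)
    (m0 0) (fun _ _ _ => rfl) (fun q hq hr => by rw [(i1 q hq hr).2.2.2.2.2, neg_zero]) (fun _ _ _ => rfl)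
  obtain ⟨P₁, lP₁, P10, P11, P1i, P1m⟩ := md_glue hGL (f₀ := fun y => F₂ (p₀ y))
    (f₁ := fun _ => 0) (fi := fun y => -F₂' (pI y)) (l2.comp lip0) (Lip.const _) (lneg (l2'.comp lipi))
    (m0 0) (fun q hq hr => (i0 q hq hr).2.2.2.2.1) (fun _ _ _ => rfl)
    (fun q hq hr => by rw [(ii q hq hr).2.2.2.2.1, neg_zero])
  obtain ⟨Q₁, lQ₁, Q10, Q11, Q1i, Q1m⟩ := md_glue hGL (f₀ := fun y => g (p₀ y))
    (f₁ := fun _ => 0) (fi := fun y => g' (pI y)) (lg.comp lip0) (Lip.const _) (lg'.comp lipi)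
    (m0 0) (fun q hq hr => (i0 q hq hr).2.2.2.2.2) (fun _ _ _ => rfl)
    (fun q hq hr => (ii q hq hr).2.2.2.2.2)
  obtain ⟨τ, lτ, t0, t1, ti, tm⟩ := md_glue hGL (f₀ := fun _ => cs - Real.log (3 / 2))
    (f₁ := fun _ => cs - Real.log (3 / 2)) (fi := fun y => cs + -pI y 2) (Lip.const _) (Lip.const _)
    ((Lip.const _).add (lneg ((lX 2).comp lipi))) (m0 (cs - Real.log (3 / 2)))
    (fun _ _ _ => rfl) (fun _ _ _ => rfl) (fun q hq hr => by rw [(ii q hq hr).2.1]; ring)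
  have DZi : ∀ q ∈ DD, 3 * cc < ‖zc (-cc) q‖ → q ∈ Zi := fun q h hr => ⟨md_DD_SS h, hr.le, h.2.2.2⟩
  have tbig : ∀ q ∈ DD, ¬ 3 * cc < ‖zc (-cc) q‖ → 1 < τ q := fun q h hr => by
    have hS := md_DD_SS h
    rcases md_cases q hS with h1 | h1 | h1 | h1
    · rw [t0 q hS h1]; linarith
    · rw [t1 q hS h1]; linarith
    · exact absurd h1 hr
    · rw [tm q h1]; linarith
  refine ⟨max (max Λ₀ Λ₁) (max Λi 3), 2, mda a₀ a₁, mdF A₀ A₁ P₀ Q₀ P₁ Q₁, mdG a₀ a₁ A₀ A₁, τ,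
    fun i => ?_, lτ, ?_, ?_, ?_, ?_, ?_, ?_, ?_⟩
  · cases i
    · refine ⟨la₀, rfl, fun k => ?_⟩
      fin_cases k
      exacts [⟨lA₀, lX 1⟩, ⟨lP₀, lA₁⟩, ⟨lQ₀, la₁⟩]
    · refine ⟨la₁, rfl, fun k => ?_⟩
      fin_cases k
      exacts [⟨lA₁, lX 1⟩, ⟨lP₁, lA₀⟩, ⟨lQ₁, la₀⟩]
  · -- `DGood` a.e.
    have mono : ∀ {Λ Λ' : ℝ} {q : E}, Λ ≤ Λ' →
        DGood Λ 1 (mda a₀ a₁) (mdF A₀ A₁ P₀ Q₀ P₁ Q₁) (mdG a₀ a₁ A₀ A₁) q →
        DGood Λ' 1 (mda a₀ a₁) (mdF A₀ A₁ P₀ Q₀ P₁ Q₁) (mdG a₀ a₁ A₀ A₁) q := fun h h' =>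
      ⟨hGB.2.2.1 _ _ _ _ _ _ h h'.1, h'.2⟩
    filter_upwards [ae_coord_ne 2 0, ae_coord_ne 1 0, ae_coord_ne 1 Real.pi, qc0, qc1, qci,
      md_avoid hNP hd₀ qc0 (hgood.and ((ae_coord_ne 2 (Real.log 2)).and (ae_coord_ne 2 T₀))),
      md_avoid hNP (by linarith) qc1 (hgood.and ((ae_coord_ne 2 (Real.log 2)).and (ae_coord_ne 2 T₀))),
      md_avoid hNP hdi qci (hgood'.and ((ae_coord_ne 2 (Real.log (3 / 2))).and (ae_coord_ne 2 cs)))]
      with q n2 n1 n1' q0 q1 qi g0 g1 gi hq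
    have hS := md_DD_SS hq
    have h2 : 0 < q 2 := lt_of_le_of_ne hS.1 n2.symm
    have evS := md_ev_SS h2 (lt_of_le_of_ne hS.2.1 n1.symm) (lt_of_le_of_ne hS.2.2 n1')
    have cab : ∀ c : ℝ, Continuous (fun y : E => |y 0 + c| + y 2) := fun c => by fun_prop
    rcases md_cases q hS with h1 | h1 | h1 | h1
    · have hZ := md_DD_Z0 hq h1.le
      obtain ⟨c1, c2, c3⟩ := q0 hZ
      obtain ⟨G1, -, G3⟩ := g0 hZ
      have ev1 := (md_cont_zc (-cc)).continuousAt.eventually (gt_mem_nhds h1)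
      have hlt : rho < |q 0 + cc| + q 2 :=
        lt_of_le_of_ne hZ.2.1 fun h => G3 ((z0 q hZ).2.2.2.2 h.symm).2
      have ev2 := (cab cc).continuousAt.eventually (lt_mem_nhds hlt)
      have key := pb0 (Fin 2) 3 1 1 _ _ _ p₀ q (Or.inl rfl) c1 c2 c3 (G1 (md_Box_mono (z0 q hZ).1))
      rw [mul_one] at key
      refine mono ((le_max_left _ _).trans (le_max_left _ _)) (md_zone0 hGB (c := cs) key ?_ ?_ ?_ ?_ ?_ ?_ ?_ ?_ ?_)
      · filter_upwards [evS, ev1, ev2] with y a b c using (z0 y ⟨a, c.le, b.le⟩).2.1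
      all_goals filter_upwards [evS, ev1] with y a b
      exacts [a00 y a b, a10 y a b, A00 y a b, A10 y a b, P00 y a b, Q00 y a b, P10 y a b, Q10 y a b]
    · have hZ := md_DD_Z1 hq h1.le
      obtain ⟨c1, c2, c3⟩ := q1 hZ
      obtain ⟨G1, -, G3⟩ := g1 hZ
      have ev1 := (md_cont_zc cc).continuousAt.eventually (gt_mem_nhds h1)
      have hlt : rho < |mdR q 0 + cc| + mdR q 2 :=
        lt_of_le_of_ne hZ.2.1 fun h => G3 ((z0 _ hZ).2.2.2.2 h.symm).2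
      have ev2 := ((cab cc).comp md_lip_mdR.continuous).continuousAt.eventually (lt_mem_nhds hlt)
      have key := pb1 (Fin 2) 3 1 (-1 * 1) _ _ _ (p₀ ∘ mdR) q (Or.inr (by norm_num)) c1 c2 c3
        (G1 (md_Box_mono (z0 _ hZ).1))
      rw [mul_one, mul_one] at key
      refine mono ((le_max_right _ _).trans (le_max_left _ _))
        (md_zone1 hGB (c := cs) key ?_ ?_ ?_ ?_ ?_ ?_ ?_ ?_ ?_)
      · filter_upwards [evS, ev1, ev2] with y a b c
        have := (z0 (mdR y) ⟨md_SS_refl a, c.le, by rw [md_norm_refl]; exact b.le⟩).2.1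
        simpa using this
      all_goals filter_upwards [evS, ev1] with y a b
      exacts [a01 y a b, a11 y a b, A01 y a b, A11 y a b, P01 y a b, Q01 y a b, P11 y a b, Q11 y a b]
    · have hZ := DZi q hq h1
      obtain ⟨c1, c2, c3⟩ := qi hZ
      obtain ⟨G1, -, G3⟩ := gi hZ
      have ev1 := (md_cont_zc (-cc)).continuousAt.eventually (lt_mem_nhds h1)
      have hlt : 0 < top (q 0) - q 2 :=
        sub_pos.2 (lt_of_le_of_ne hZ.2.2 fun h => G3 ((zi q hZ).2.2.2.2 h).2)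
      have ctop : Continuous (fun y : E => top (y 0) - y 2) :=
        (md_cont_top.comp (by fun_prop)).sub (by fun_prop)
      have ev2 := ctop.continuousAt.eventually (lt_mem_nhds hlt)
      have key := pbi (Fin 2) 3 1 (-1) _ _ _ pI q (Or.inr rfl) c1 c2 c3 (G1 (zi q hZ).1)
      rw [mul_one] at key
      refine mono ((le_max_left _ _).trans (le_max_right _ _))
        (md_zonei hGB (c := cs) key ?_ ?_ ?_ ?_ ?_ ?_ ?_ ?_ ?_)
      · filter_upwards [evS, ev1, ev2] with y a b c using (zi y ⟨a, b.le, by linarith⟩).2.1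
      all_goals filter_upwards [evS, ev1] with y a b
      exacts [a0i y a b, a1i y a b, A0i y a b, A1i y a b, P0i y a b, Q0i y a b, P1i y a b, Q1i y a b]
    · have s0 : cc < ‖zc (-cc) q‖ := lt_of_le_of_ne h1.2.1 fun h =>
        (g0 (md_circ_Z0 hS h.symm)).2.1 (i0 q hS h.symm).2.1
      have s1 : cc < ‖zc cc q‖ := lt_of_le_of_ne h1.2.2.1 fun h =>
        (g1 (md_circ_Z0 (md_SS_refl hS) (by rw [md_norm_refl]; exact h.symm))).2.1 (i1 q hS h.symm).2.1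
      have s2 : ‖zc (-cc) q‖ < 3 * cc := lt_of_le_of_ne h1.2.2.2 fun h =>
        (gi (zcirc q hS h)).2.1 (ii q hS h).2.1
      have evM : ∀ᶠ y in 𝓝 q, y ∈ mdMid := by
        filter_upwards [evS, (md_cont_zc (-cc)).continuousAt.eventually (lt_mem_nhds s0),
          (md_cont_zc cc).continuousAt.eventually (lt_mem_nhds s1),
          (md_cont_zc (-cc)).continuousAt.eventually (gt_mem_nhds s2)] with y a b c d
        exact ⟨a, b.le, c.le, d.le⟩
      refine mono ((le_max_right _ _).trans (le_max_right _ _))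
        (md_zonem hGB hMG (c := cm) h2 ?_ ?_ ?_ ?_ ?_ ?_ ?_ ?_)
      all_goals filter_upwards [evM] with y a
      exacts [a0m y a, a1m y a, A0m y a, A1m y a, P0m y a, Q0m y a, P1m y a, Q1m y a]
  · -- walls
    intro q hq hw
    have hS := md_DD_SS hq
    have key : (q 2 = 0 → (A₀ q = 0 ∨ A₀ q = Real.pi) ∧ (A₁ q = 0 ∨ A₁ q = Real.pi) ∧ Q₀ q = 0 ∧ Q₁ q = 0) ∧
        (q 1 = 0 ∨ q 1 = Real.pi → P₀ q = 0 ∧ Q₀ q = 0 ∧ P₁ q = 0 ∧ Q₁ q = 0) := by
      rcases md_cases q hS with h1 | h1 | h1 | h1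
      · obtain ⟨b, y1, w, -⟩ := z0 q (md_DD_Z0 hq h1.le)
        rw [A00 q hS h1, A10 q hS h1, Q00 q hS h1, Q10 q hS h1, P00 q hS h1, P10 q hS h1]
        refine ⟨fun h => ?_, fun h => ?_⟩
        · obtain ⟨x1, x2⟩ := hwx _ (md_Box_mono b) (w h)
          exact ⟨w h, Or.inr (by rw [x1, add_zero]), rfl, x2⟩
        · obtain ⟨x1, x2⟩ := hwy _ (md_Box_mono b) (by rwa [y1])
          exact ⟨rfl, rfl, x1, x2⟩
      · obtain ⟨b, y1, w, -⟩ := z0 _ (md_DD_Z1 hq h1.le)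
        rw [A01 q hS h1, A11 q hS h1, Q01 q hS h1, Q11 q hS h1, P01 q hS h1, P11 q hS h1]
        refine ⟨fun h => ?_, fun h => ?_⟩
        · have w' := w (by simpa using h)
          obtain ⟨x1, x2⟩ := hwx _ (md_Box_mono b) w'
          refine ⟨Or.inl (by rw [x1, neg_zero]), ?_, by rw [x2, neg_zero], rfl⟩
          rcases w' with w' | w' <;> rw [w'] <;> simp
        · obtain ⟨x1, x2⟩ := hwy _ (md_Box_mono b) (by rw [y1]; simpa using h)
          exact ⟨x1, by rw [x2, neg_zero], rfl, rfl⟩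
      · obtain ⟨b, y1, w, -⟩ := zi q (DZi q hq h1)
        rw [A0i q hS h1, A1i q hS h1, Q0i q hS h1, Q1i q hS h1, P0i q hS h1, P1i q hS h1]
        refine ⟨fun h => ?_, fun h => ?_⟩
        · obtain ⟨x1, x2⟩ := hwx' _ b (w h)
          exact ⟨w h, by rw [x1, sub_zero]; exact w h, rfl, x2⟩
        · obtain ⟨x1, x2⟩ := hwy' _ b (by rwa [y1])
          exact ⟨rfl, rfl, by rw [x1, neg_zero], x2⟩
      · rw [A0m q h1, A1m q h1, Q0m q h1, Q1m q h1, P0m q h1, P1m q h1]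
        exact ⟨fun h => ⟨(hTH _ q hS.1 (mz q h1).1).2.2.2.2.2.1 h, (hTH _ q hS.1 (mz q h1).2).2.2.2.2.2.1 h,
          rfl, rfl⟩, fun _ => ⟨rfl, rfl, rfl, rfl⟩⟩
    intro i k
    rcases hw with h | h
    · obtain ⟨k1, k2, k3, k4⟩ := key.1 h
      cases i <;> fin_cases k
      exacts [Or.inl k1, Or.inr k2, Or.inl (Or.inl k3), Or.inl k2, Or.inr k1, Or.inl (Or.inl k4)]
    · obtain ⟨k1, k2, k3, k4⟩ := key.2 h
      cases i <;> fin_cases k
      exacts [Or.inr h, Or.inl (Or.inl k1), Or.inl (Or.inl k2), Or.inr h, Or.inl (Or.inl k3),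
        Or.inl (Or.inl k4)]
  · -- inner ends
    have hrc : rho < cc := by norm_num [rho, cc]
    intro i; cases i
    · refine ⟨cs + T₀, cs, Real.pi, Or.inr rfl, fun q hq h => ?_⟩
      have hS := md_DD_SS hq
      have h' : |q 0 + cc| + q 2 = rho := by simpa [cen] using h
      have h1 : ‖zc (-cc) q‖ < cc := by
        have := md_norm_le (-cc) q hS.1; rw [sub_neg_eq_add] at this; linarith
      obtain ⟨b, -, -, -, e⟩ := z0 q (md_DD_Z0 hq h1.le)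
      obtain ⟨e1, e2⟩ := e h'
      obtain ⟨x1, x2, x3, x4⟩ := he _ (md_Box_mono b) e2.ge
      refine ⟨?_, ?_, ?_, ?_, tbig q hq (by linarith), fun i' k => ?_⟩
      · exact (a00 q hS h1).trans (by rw [e2])
      · exact (a10 q hS h1).trans (by rw [x1, add_zero])
      · exact (A00 q hS h1).trans (by rw [e1]; simp [cen])
      · exact (A10 q hS h1).trans (by rw [x2, add_zero])
      · cases i' <;> fin_cases k
        exacts [P00 q hS h1, Q00 q hS h1, (P10 q hS h1).trans x3, (Q10 q hS h1).trans x4]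
    · refine ⟨cs + T₀, cs, 0, Or.inl rfl, fun q hq h => ?_⟩
      have hS := md_DD_SS hq
      have h' : |q 0 - cc| + q 2 = rho := by simpa [cen] using h
      have h1 : ‖zc cc q‖ < cc := by
        have := md_norm_le cc q hS.1; linarith
      obtain ⟨b, -, -, -, e⟩ := z0 _ (md_DD_Z1 hq h1.le)
      have e' : |mdR q 0 + cc| = |q 0 - cc| := by rw [mdR_0, ← abs_neg]; congr 1; ring
      obtain ⟨e1, e2⟩ := e (by rw [e', mdR_2, h'])
      obtain ⟨x1, x2, x3, x4⟩ := he _ (md_Box_mono b) e2.ge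
      have hn : ¬ 3 * cc < ‖zc (-cc) q‖ := by
        have := md_norm_le (-cc) q hS.1
        have h3 : |q 0 - -cc| ≤ |q 0 - cc| + 2 * cc := by
          have := abs_le.1 (le_refl |q 0 - cc|)
          exact abs_le.2 ⟨by linarith, by linarith⟩
        linarith
      refine ⟨?_, ?_, ?_, ?_, tbig q hq hn, fun i' k => ?_⟩
      · exact (a11 q hS h1).trans (by rw [e2])
      · exact (a01 q hS h1).trans (by rw [x1, add_zero])
      · exact (A11 q hS h1).trans (by rw [e1]; simp [cen]; ring)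
      · exact (A01 q hS h1).trans (by rw [x2, neg_zero])
      · cases i' <;> fin_cases k
        exacts [(P01 q hS h1).trans x3, (Q01 q hS h1).trans (by rw [x4, neg_zero]), P11 q hS h1, Q11 q hS h1]
  · intro q hq
    by_cases h1 : 3 * cc < ‖zc (-cc) q‖
    · rw [ti q (md_DD_SS hq) h1]
      have := (zi q (DZi q hq h1)).1.2.2.2.2.2
      linarith
    · linarith [tbig q hq h1]
  · have := md_avoid hNP hdi qci (ae_coord_ne 2 T₁)
    rw [ae_iff] at this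
    refine measure_mono_null (fun q hq => ?_) this
    obtain ⟨hq, ht⟩ := hq
    have h1 : 3 * cc < ‖zc (-cc) q‖ := by
      by_contra h; linarith [tbig q hq h]
    rw [ti q (md_DD_SS hq) h1] at ht
    intro h
    exact h (DZi q hq h1) (by linarith)
  · intro q hq ht
    have hS := md_DD_SS hq
    have h1 : 3 * cc < ‖zc (-cc) q‖ := by
      by_contra h; linarith [tbig q hq h]
    have ht' := ht
    rw [ti q hS h1] at ht'
    obtain ⟨x1, x2, x3, x4⟩ := he' _ (zi q (DZi q hq h1)).1 (by linarith)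
    intro i; cases i
    · refine ⟨(a0i q hS h1).trans (ti q hS h1).symm, rfl, fun k => ?_⟩
      fin_cases k
      exacts [P0i q hS h1, Q0i q hS h1]
    · refine ⟨(a1i q hS h1).trans (by rw [x1, add_zero, ti q hS h1]),
        (A1i q hS h1).trans (by rw [x2, sub_zero]; exact (A0i q hS h1).symm), fun k => ?_⟩
      fin_cases k
      exacts [(P1i q hS h1).trans (by rw [x3, neg_zero]), (Q1i q hS h1).trans x4]
  · intro q hq h
    have hS := md_DD_SS hq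
    have h1 := ztop q hS h
    obtain ⟨e1, e2⟩ := (zi q (DZi q hq h1)).2.2.2.2 h
    exact ⟨by rw [ti q hS h1, e2]; ring, (A0i q hS h1).trans e1⟩

end Crest.Agent.R83
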