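import Crest.Agent.R83.Basic

set_option autoImplicit false

noncomputable section

namespace Crest.Agent.R83

open MeasureTheory Set Filter Topology Metric
open scoped Gradient RealInnerProductSpace NNReal

def mdR (q : E) : E := !₂[-q 0, q 1, q 2]
@[simp] lemma mdR_0 (p : E) : mdR p 0 = -p 0 := by simp [mdR]
@[simp] lemma mdR_1 (p : E) : mdR p 1 = p 1 := by simp [mdR]
@[simp] lemma mdR_2 (p : E) : mdR p 2 = p 2 := by simp [mdR]

def mdRL : E →L[ℝ] E :=
  LinearMap.toContinuousLinearMap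
    { toFun := mdR
      map_add' := fun p q => by apply ext3 <;> simp; ring
      map_smul' := fun c p => by apply ext3 <;> simp }

@[simp] lemma mdRL_apply (p : E) : mdRL p = mdR p := rfl

lemma md_norm_mdR (p : E) : ‖mdR p‖ = ‖p‖ := by
  have h : ‖mdR p‖ ^ 2 = ‖p‖ ^ 2 := by rw [normsq3, normsq3]; simp
  exact (pow_left_inj₀ (norm_nonneg _) (norm_nonneg _) two_ne_zero).1 h

lemma md_lip_mdR : LipschitzWith 1 mdR :=
  LipschitzWith.of_dist_le_mul fun p q => by
    have : mdR p - mdR q = mdR (p - q) := (map_sub mdRL p q).symm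
    simp [dist_eq_norm, this, md_norm_mdR]

lemma md_QC_mdR (hCF : CFStmt) (Ω : Set E) : QC (-1) 1 1 mdR Ω := by
  refine Eventually.of_forall fun x _ => ⟨mdRL.contDiff.contDiffAt, ?_, ?_⟩
  · have : fderiv ℝ mdR x = mdRL := mdRL.fderiv
    rw [this, hCF.2.1]; simp [ee_apply]
  · have : fderiv ℝ mdR x = mdRL := mdRL.fderiv
    rw [this]
    exact ContinuousLinearMap.opNorm_le_bound _ zero_le_one fun p => by simp [md_norm_mdR]

lemma md_norm_zc_sq (c : ℝ) (q : E) : ‖zc c q‖ ^ 2 = (q 0 - c) ^ 2 + q 2 ^ 2 := by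
  rw [Complex.sq_norm, Complex.normSq_apply]; simp [zc]; ring

lemma md_cont_zc (c : ℝ) : Continuous (fun q : E => ‖zc c q‖) := by
  unfold zc; fun_prop

lemma md_norm_refl (c : ℝ) (q : E) : ‖zc (-c) (mdR q)‖ = ‖zc c q‖ := by
  have h : ‖zc (-c) (mdR q)‖ ^ 2 = ‖zc c q‖ ^ 2 := by
    rw [md_norm_zc_sq, md_norm_zc_sq]; simp; ring
  exact (pow_left_inj₀ (norm_nonneg _) (norm_nonneg _) two_ne_zero).1 h

lemma md_norm_refl' (c : ℝ) (q : E) : ‖zc c (mdR q)‖ = ‖zc (-c) q‖ := by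
  have := md_norm_refl (-c) q; rwa [neg_neg] at this

lemma md_th_refl (hTH : THStmt) (c : ℝ) (q : E) (h2 : 0 ≤ q 2) (hz : zc c q ≠ 0) :
    th (-c) (mdR q) = Real.pi - th c q := by
  have hz' : zc (-c) (mdR q) ≠ 0 := by
    rw [← norm_ne_zero_iff, md_norm_refl]; exact norm_ne_zero_iff.2 hz
  obtain ⟨-, a1, a2, a3, -⟩ := hTH c q h2 hz
  obtain ⟨-, b1, b2, b3, -⟩ := hTH (-c) (mdR q) (by simpa using h2) hz'
  rw [md_norm_refl] at b3
  have hr : 0 < ‖zc c q‖ := norm_pos_iff.2 hz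
  apply Real.injOn_cos ⟨b1, b2⟩ ⟨by linarith, by linarith⟩
  rw [Real.cos_pi_sub]
  apply mul_left_cancel₀ hr.ne'
  simp only [mdR_0] at b3
  linarith

lemma md_abs_le_norm (c : ℝ) (q : E) : |q 0 - c| ≤ ‖zc c q‖ := by
  have := md_norm_zc_sq c q
  exact abs_le_of_sq_le_sq (by nlinarith [sq_nonneg (q 2), sq_abs (q 0 - c)]) (norm_nonneg _)
    |>.trans' (le_of_eq (abs_abs _).symm) |>.trans (le_of_eq rfl)

lemma md_norm_le (c : ℝ) (q : E) (h2 : 0 ≤ q 2) : ‖zc c q‖ ≤ |q 0 - c| + q 2 := by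
  have := md_norm_zc_sq c q
  exact (pow_le_pow_iff_left₀ (norm_nonneg _) (by positivity) two_ne_zero).1
    (by nlinarith [sq_abs (q 0 - c), mul_nonneg (abs_nonneg (q 0 - c)) h2])

/-- polar form of `zc` -/
lemma md_polar (hTH : THStmt) (c : ℝ) (q : E) (h2 : 0 ≤ q 2) (hz : zc c q ≠ 0) :
    zc c q = (‖zc c q‖ : ℂ) * Complex.exp (th c q * Complex.I) := by
  rw [(hTH c q h2 hz).1]; exact (Complex.norm_mul_exp_arg_mul_I _).symm

lemma md_cc_pos : 0 < cc := by norm_num [cc]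

/-- inner interface -/
lemma md_inner (hTH : THStmt) (q p : E) (h2 : 0 ≤ q 2) (hr : ‖zc (-cc) q‖ = cc)
    (hp0 : p 0 = th (-cc) q) (hp2 : p 2 = Real.log 2) :
    v0 p = Real.log (2 * cc) - Real.log ‖zc cc q‖ ∧ Real.pi + A0 p = th cc q := by
  have hc := md_cc_pos
  have hz0 : zc (-cc) q ≠ 0 := by rw [← norm_ne_zero_iff, hr]; exact hc.ne'
  have hab := md_abs_le_norm (-cc) q
  rw [hr] at hab
  have hq0 : q 0 - cc < 0 := by have := (abs_le.1 hab).2; linarith
  have hz1 : zc cc q ≠ 0 := by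
    intro h; have := md_abs_le_norm cc q; rw [h, norm_zero] at this
    have := abs_nonpos_iff.1 this; linarith
  have hr1 : 0 < ‖zc cc q‖ := norm_pos_iff.2 hz1
  have hw : wq p = zc (-cc) q / (2 * cc) := by
    rw [md_polar hTH _ q h2 hz0, hr, wq, hp0, hp2, Complex.exp_add, Complex.exp_neg,
      ← Complex.ofReal_exp, Real.exp_log two_pos]
    have : (cc : ℂ) ≠ 0 := by exact_mod_cast hc.ne'
    push_cast; field_simp
  have h1 : 1 - wq p = ((‖zc cc q‖ / (2 * cc) : ℝ) : ℂ) *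
      (Complex.cos ((th cc q - Real.pi : ℝ) : ℂ) + Complex.sin ((th cc q - Real.pi : ℝ) : ℂ) * Complex.I) := by
    rw [← Complex.exp_mul_I]
    have hcc : (cc : ℂ) ≠ 0 := by exact_mod_cast hc.ne'
    have e1 : Complex.exp (((th cc q - Real.pi : ℝ) : ℂ) * Complex.I) =
        -Complex.exp (th cc q * Complex.I) := by
      push_cast; rw [sub_mul, Complex.exp_sub, Complex.exp_pi_mul_I]; field_simp
    have e2 : 1 - wq p = -zc cc q / (2 * cc) := by
      rw [hw]; field_simp; simp [zc]; ring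
    rw [e1, e2]
    conv_lhs => rw [md_polar hTH cc q h2 hz1]
    push_cast; field_simp
  obtain ⟨-, a1, a2, a3, -⟩ := hTH cc q h2 hz1
  have hpos : 0 < th cc q := by
    rcases a1.lt_or_eq with h | h
    · exact h
    · rw [← h, Real.cos_zero] at a3; linarith
  constructor
  · rw [v0, h1, norm_mul, ← Complex.exp_mul_I, Complex.norm_exp_ofReal_mul_I, mul_one,
      Complex.norm_real, Real.norm_of_nonneg (by positivity), Real.log_div hr1.ne' (by positivity)]
    ring
  · rw [A0, h1, Complex.arg_mul_cos_add_sin_mul_I (by positivity)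
      ⟨by linarith, by linarith [Real.pi_pos]⟩]
    ring

/-- outer interface -/
lemma md_outer (hTH : THStmt) (q p : E) (h2 : 0 ≤ q 2) (hr : ‖zc (-cc) q‖ = 3 * cc)
    (hp0 : p 0 = th (-cc) q) (hp2 : p 2 = Real.log (3 / 2)) :
    -Real.log (3 / 2) + v0 p = Real.log (2 * cc) - Real.log ‖zc cc q‖ ∧
      th (-cc) q - A0 p = th cc q := by
  have hc := md_cc_pos
  have hcc : (cc : ℂ) ≠ 0 := by exact_mod_cast hc.ne'
  have hz0 : zc (-cc) q ≠ 0 := by rw [← norm_ne_zero_iff, hr]; positivity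
  have hz1 : zc cc q ≠ 0 := by
    intro h
    have e1 := md_norm_zc_sq cc q
    have e2 := md_norm_zc_sq (-cc) q
    rw [h, norm_zero] at e1
    rw [hr] at e2
    have : q 0 - cc = 0 := by nlinarith [sq_nonneg (q 0 - cc), sq_nonneg (q 2)]
    have h3 : q 2 ^ 2 = 0 := by nlinarith [sq_nonneg (q 0 - cc), sq_nonneg (q 2)]
    have h4 : q 0 = cc := by linarith
    rw [h3, h4] at e2; nlinarith
  have hr1 : 0 < ‖zc cc q‖ := norm_pos_iff.2 hz1
  have hw : wq p = (2 / 3 : ℂ) * Complex.exp (th (-cc) q * Complex.I) := by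
    rw [wq, hp0, hp2, Complex.exp_add, Complex.exp_neg,
      ← Complex.ofReal_exp, Real.exp_log (by norm_num)]
    push_cast; field_simp
  obtain ⟨-, a1, a2, a3, a4, -⟩ := hTH cc q h2 hz1
  obtain ⟨-, b1, b2, b3, b4, -⟩ := hTH (-cc) q h2 hz0
  rw [hr] at b3 b4
  set θ₀ := th (-cc) q
  set θ₁ := th cc q
  set r := ‖zc cc q‖
  have hs := Real.sin_sq_add_cos_sq θ₀
  have hre : 1 - 2 / 3 * Real.cos θ₀ = r / (3 * cc) * Real.cos (θ₀ - θ₁) := by
    rw [Real.cos_sub]; field_simp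
    have e1 : r * Real.cos θ₁ = 3 * cc * Real.cos θ₀ - 2 * cc := by linarith
    have e2 : r * Real.sin θ₁ = 3 * cc * Real.sin θ₀ := by linarith
    have : r * (Real.cos θ₀ * Real.cos θ₁ + Real.sin θ₀ * Real.sin θ₁) =
        Real.cos θ₀ * (r * Real.cos θ₁) + Real.sin θ₀ * (r * Real.sin θ₁) := by ring
    rw [this, e1, e2]; linear_combination (-3 * cc) * hs
  have him : -(2 / 3 * Real.sin θ₀) = r / (3 * cc) * Real.sin (θ₀ - θ₁) := by
    rw [Real.sin_sub]; field_simp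
    have e1 : r * Real.cos θ₁ = 3 * cc * Real.cos θ₀ - 2 * cc := by linarith
    have e2 : r * Real.sin θ₁ = 3 * cc * Real.sin θ₀ := by linarith
    have : r * (Real.sin θ₀ * Real.cos θ₁ - Real.cos θ₀ * Real.sin θ₁) =
        Real.sin θ₀ * (r * Real.cos θ₁) - Real.cos θ₀ * (r * Real.sin θ₁) := by ring
    rw [this, e1, e2]; ring
  have h1 : 1 - wq p = ((r / (3 * cc) : ℝ) : ℂ) *
      (Complex.cos ((θ₀ - θ₁ : ℝ) : ℂ) + Complex.sin ((θ₀ - θ₁ : ℝ) : ℂ) * Complex.I) := by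
    rw [hw, Complex.exp_mul_I, ← Complex.ofReal_cos, ← Complex.ofReal_sin, ← Complex.ofReal_cos,
      ← Complex.ofReal_sin]
    apply Complex.ext
    · simp only [Complex.sub_re, Complex.one_re, Complex.mul_re, Complex.add_re, Complex.ofReal_re,
        Complex.ofReal_im, Complex.I_re, Complex.I_im, Complex.add_im, Complex.mul_im]
      norm_num; linarith
    · simp only [Complex.sub_im, Complex.one_im, Complex.mul_re, Complex.add_re, Complex.ofReal_re,
        Complex.ofReal_im, Complex.I_re, Complex.I_im, Complex.add_im, Complex.mul_im]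
      norm_num; linarith
  have hgt : -Real.pi < θ₀ - θ₁ := by
    rcases (show -Real.pi ≤ θ₀ - θ₁ by linarith).lt_or_eq with h | h
    · exact h
    · rw [← h, Real.cos_neg, Real.cos_pi] at hre
      have := Real.cos_le_one θ₀
      have : 0 < r / (3 * cc) := by positivity
      linarith
  constructor
  · rw [v0, h1, norm_mul, ← Complex.exp_mul_I, Complex.norm_exp_ofReal_mul_I, mul_one,
      Complex.norm_real, Real.norm_of_nonneg (by positivity), Real.log_div hr1.ne' (by positivity),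
      Real.log_div (by norm_num) (by norm_num), Real.log_mul (by norm_num) hc.ne',
      Real.log_mul (by norm_num) hc.ne']
    ring
  · rw [A0, h1, Complex.arg_mul_cos_add_sin_mul_I (by positivity) ⟨hgt, by linarith⟩]
    ring

def mdMid : Set E := {q | q ∈ SS ∧ cc ≤ ‖zc (-cc) q‖ ∧ cc ≤ ‖zc cc q‖ ∧ ‖zc (-cc) q‖ ≤ 3 * cc}

lemma md_SS_closed : IsClosed SS := by
  have : SS = {q : E | 0 ≤ q 2} ∩ ({q : E | 0 ≤ q 1} ∩ {q : E | q 1 ≤ Real.pi}) := rfl
  rw [this]
  exact (isClosed_le continuous_const (by fun_prop)).inter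
    ((isClosed_le continuous_const (by fun_prop)).inter (isClosed_le (by fun_prop) continuous_const))

lemma md_SS_convex : Convex ℝ SS := by
  intro x hx y hy a b ha hb hab
  obtain ⟨x1, x2, x3⟩ := hx
  obtain ⟨y1, y2, y3⟩ := hy
  refine ⟨?_, ?_, ?_⟩ <;> simp only [PiLp.add_apply, PiLp.smul_apply, smul_eq_mul]
  · positivity
  · positivity
  · nlinarith [mul_le_mul_of_nonneg_left x3 ha, mul_le_mul_of_nonneg_left y3 hb]

lemma md_Mid_compact : IsCompact mdMid := by
  apply Metric.isCompact_of_isClosed_isBounded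
  · have : mdMid = SS ∩ ({q | cc ≤ ‖zc (-cc) q‖} ∩ ({q | cc ≤ ‖zc cc q‖} ∩
        {q | ‖zc (-cc) q‖ ≤ 3 * cc})) := rfl
    rw [this]
    exact md_SS_closed.inter ((isClosed_le continuous_const (md_cont_zc _)).inter
      ((isClosed_le continuous_const (md_cont_zc _)).inter (isClosed_le (md_cont_zc _) continuous_const)))
  · refine (isBounded_closedBall (x := (0 : E)) (r := 10)).subset fun q hq => ?_
    obtain ⟨⟨h1, h2, h3⟩, -, -, h4⟩ := hq
    rw [mem_closedBall, dist_zero_right]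
    have e := md_norm_zc_sq (-cc) q
    have e2 : ‖zc (-cc) q‖ ^ 2 ≤ (3 * cc) ^ 2 := by gcongr
    have hpi := Real.pi_le_four
    have e3 := normsq3 q
    rw [cc] at *
    apply (pow_le_pow_iff_left₀ (norm_nonneg _) (by norm_num) two_ne_zero).1
    have h5 : q 1 ^ 2 ≤ 16 := by nlinarith
    nlinarith [sq_nonneg (q 0 + 11 / 10), sq_nonneg (q 2)]

lemma md_lipOn_Mid {f : E → ℝ} (h : ∀ q ∈ mdMid, ContDiffAt ℝ 1 f q) :
    ∃ K, LipschitzOnWith K f mdMid := by
  apply LocallyLipschitzOn.exists_lipschitzOnWith_of_compact md_Mid_compact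
  intro q hq
  obtain ⟨K, t, ht, hK⟩ := (h q hq).exists_lipschitzOnWith
  exact ⟨K, t, mem_nhdsWithin_of_mem_nhds ht, hK⟩

/-- gluing over the three port zones -/
lemma md_glue (hGL : GLStmt) {f₀ f₁ fi fm : E → ℝ} (h₀ : Lip f₀) (h₁ : Lip f₁) (hi : Lip fi)
    (hm : ∀ q ∈ mdMid, ContDiffAt ℝ 1 fm q)
    (e₀ : ∀ q ∈ SS, ‖zc (-cc) q‖ = cc → f₀ q = fm q) (e₁ : ∀ q ∈ SS, ‖zc cc q‖ = cc → f₁ q = fm q)
    (ei : ∀ q ∈ SS, ‖zc (-cc) q‖ = 3 * cc → fi q = fm q) :
    ∃ w : E → ℝ, Lip w ∧ (∀ q ∈ SS, ‖zc (-cc) q‖ < cc → w q = f₀ q) ∧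
      (∀ q ∈ SS, ‖zc cc q‖ < cc → w q = f₁ q) ∧ (∀ q ∈ SS, 3 * cc < ‖zc (-cc) q‖ → w q = fi q) ∧
      ∀ q ∈ mdMid, w q = fm q := by
  classical
  have hc := md_cc_pos
  obtain ⟨K₀, h₀⟩ := h₀
  obtain ⟨K₁, h₁⟩ := h₁
  obtain ⟨Ki, hi⟩ := hi
  obtain ⟨Km, hm⟩ := md_lipOn_Mid hm
  set K : ℝ≥0 := K₀ + K₁ + Ki + Km
  let B : Fin 3 → Set E := ![{q | ‖zc (-cc) q‖ < cc}, {q | ‖zc cc q‖ < cc}, {q | 3 * cc < ‖zc (-cc) q‖}]
  let w : E → ℝ := fun q => if ‖zc (-cc) q‖ < cc then f₀ q else if ‖zc cc q‖ < cc then f₁ q else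
    if 3 * cc < ‖zc (-cc) q‖ then fi q else fm q
  have d01 : ∀ q : E, ‖zc (-cc) q‖ < cc → ¬ ‖zc cc q‖ < cc := fun q a b => by
    have := abs_le.1 (md_abs_le_norm (-cc) q); have := abs_le.1 (md_abs_le_norm cc q); linarith
  have d1i : ∀ q : E, 3 * cc < ‖zc (-cc) q‖ → ¬ ‖zc cc q‖ < cc := fun q a b => by
    have e : zc (-cc) q = zc cc q + ((2 * cc : ℝ) : ℂ) := by simp [zc]; ring
    have := norm_add_le (zc cc q) ((2 * cc : ℝ) : ℂ)
    rw [← e, Complex.norm_real, Real.norm_of_nonneg (by positivity)] at this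
    linarith
  have w0 : ∀ q : E, ‖zc (-cc) q‖ < cc → w q = f₀ q := fun q a => by simp [w, a]
  have w1 : ∀ q : E, ‖zc cc q‖ < cc → w q = f₁ q := fun q a => by
    have : ¬ ‖zc (-cc) q‖ < cc := fun b => d01 q b a
    simp [w, a, this]
  have wi : ∀ q : E, 3 * cc < ‖zc (-cc) q‖ → w q = fi q := fun q a => by
    have h1 : ¬ ‖zc (-cc) q‖ < cc := by linarith
    simp [w, a, h1, d1i q a]
  have wm : ∀ q ∈ mdMid, w q = fm q := fun q hq => by
    obtain ⟨-, a, b, c⟩ := hq
    simp [w, not_lt.2 a, not_lt.2 b, not_lt.2 c]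
  have hMid : SS \ ⋃ i, B i ⊆ mdMid := fun q hq => by
    have h := hq.2
    simp only [mem_iUnion, not_exists] at h
    exact ⟨hq.1, not_lt.1 (h 0), not_lt.1 (h 1), not_lt.1 (h 2)⟩
  have key : LipschitzOnWith K w SS := by
    refine hGL (Fin 3) SS B fm w ![f₀, f₁, fi] K md_SS_convex ?_ ?_ ?_ ?_ ?_ ?_ ?_
    · intro i; fin_cases i
      · exact isOpen_lt (md_cont_zc _) continuous_const
      · exact isOpen_lt (md_cont_zc _) continuous_const
      · exact isOpen_lt continuous_const (md_cont_zc _)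
    · intro i j hij
      rw [Set.disjoint_left]
      fin_cases i <;> fin_cases j <;> simp only [B] <;> intro q a b <;> simp at a b hij
      · exact d01 q a b
      · linarith
      · exact d01 q b a
      · exact d1i q b a
      · linarith
      · exact d1i q a b
    · exact (hm.mono hMid).weaken (by simp [K])
    · intro i; fin_cases i
      · exact (h₀.weaken (by simp [K, add_assoc])).lipschitzOnWith
      · exact (h₁.weaken (by simp only [K]; exact le_add_right (le_add_right le_add_self))).lipschitzOnWith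
      · exact (hi.weaken (by simp only [K]; exact le_add_right le_add_self)).lipschitzOnWith
    · intro i x hx; fin_cases i
      · exact e₀ x hx.1 (frontier_lt_subset_eq (md_cont_zc _) continuous_const hx.2)
      · exact e₁ x hx.1 (frontier_lt_subset_eq (md_cont_zc _) continuous_const hx.2)
      · exact ei x hx.1 (frontier_lt_subset_eq continuous_const (md_cont_zc _) hx.2).symm
    · intro i x hx; fin_cases i
      · exact w0 x hx.2
      · exact w1 x hx.2
      · exact wi x hx.2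
    · exact fun x hx => wm x (hMid hx)
  obtain ⟨w', hw', he⟩ := key.extend_real
  exact ⟨w', ⟨K, hw'⟩, fun q a b => (he a).symm.trans (w0 q b), fun q a b => (he a).symm.trans (w1 q b),
    fun q a b => (he a).symm.trans (wi q b), fun q a => (he a.1).symm.trans (wm q a)⟩

end Crest.Agent.R83
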