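import Crest.Agent.R83.MD1

set_option autoImplicit false

noncomputable section

namespace Crest.Agent.R83

open MeasureTheory Set Filter Topology Metric
open scoped Gradient RealInnerProductSpace NNReal

def mda (a₀ a₁ : E → ℝ) : Bool → E → ℝ := fun i => bif i then a₁ else a₀
def mdF (A₀ A₁ P₀ Q₀ P₁ Q₁ : E → ℝ) : Bool → Fin 3 → E → ℝ :=
  fun i => bif i then ![A₁, P₁, Q₁] else ![A₀, P₀, Q₀]
def mdG (a₀ a₁ A₀ A₁ : E → ℝ) : Bool → Fin 3 → E → ℝ :=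
  fun i => bif i then ![X 1, A₀, a₀] else ![X 1, A₁, a₁]

lemma md_ev_diff {f : E → ℝ} {q : E} (h : ContDiffAt ℝ 1 f q) : ∀ᶠ y in 𝓝 q, DifferentiableAt ℝ f y :=
  (h.eventually (by simp)).mono fun _ hy => hy.differentiableAt (by simp)

lemma md_target (hGB : GBStmt) {ι : Type} [Fintype ι] {Λ : ℝ} {u : ι → E → ℝ} {j : ι → E → E} {q : E}
    (h : Good Λ u j q) {a₀ a₁ A₀ A₁ P₀ Q₀ P₁ Q₁ : E → ℝ}
    (c1 : ContDiffAt ℝ 1 a₀ q) (c2 : ContDiffAt ℝ 1 a₁ q) (c3 : ContDiffAt ℝ 1 A₀ q)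
    (c4 : ContDiffAt ℝ 1 A₁ q) (c5 : ContDiffAt ℝ 1 P₀ q) (c6 : ContDiffAt ℝ 1 Q₀ q)
    (c7 : ContDiffAt ℝ 1 P₁ q) (c8 : ContDiffAt ℝ 1 Q₁ q)
    (h₀ : ∃ (c : ℝ) (e : ι → ℝ), ∀ᶠ y in 𝓝 q, a₀ y = c + ∑ i, e i * u i y ∧
      cross (∇ A₀ y) (ee 1) + cross (∇ P₀ y) (∇ A₁ y) + cross (∇ Q₀ y) (∇ a₁ y) = ∑ i, e i • j i y)
    (h₁ : ∃ (c : ℝ) (e : ι → ℝ), ∀ᶠ y in 𝓝 q, a₁ y = c + ∑ i, e i * u i y ∧
      cross (∇ A₁ y) (ee 1) + cross (∇ P₁ y) (∇ A₀ y) + cross (∇ Q₁ y) (∇ a₀ y) = ∑ i, e i • j i y) :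
    DGood Λ 1 (mda a₀ a₁) (mdF A₀ A₁ P₀ Q₀ P₁ Q₁) (mdG a₀ a₁ A₀ A₁) q := by
  have cX : ContDiffAt ℝ 1 (X 1) q := (contDiff_X 1).contDiffAt
  refine ⟨hGB.2.2.2.1 ι Bool Λ u j _ _ q h fun i => ?_, fun i k => ?_⟩
  · cases i
    · obtain ⟨c, e, he⟩ := h₀
      refine ⟨c, e, he.mono fun y hy => ⟨hy.1, ?_⟩⟩
      rw [← hy.2]; simp [flux, mdF, mdG, Fin.sum_univ_three]
    · obtain ⟨c, e, he⟩ := h₁
      refine ⟨c, e, he.mono fun y hy => ⟨hy.1, ?_⟩⟩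
      rw [← hy.2]; simp [flux, mdF, mdG, Fin.sum_univ_three]
  · cases i <;> fin_cases k <;> simp [mdF, mdG] <;> constructor <;> assumption

lemma md_core (hGB : GBStmt) {Λ s : ℝ} {v F₁ F₂ g : E → ℝ} {pp : E → E} {q : E}
    (h : DGood Λ s (fun i y => pmU v i (pp y)) (fun i k y => pmF F₁ F₂ g i k (pp y))
      (fun i k y => pmG i k (pp y)) q) (hy : ∀ᶠ y in 𝓝 q, pp y 1 = y 1) :
    ContDiffAt ℝ 1 (fun y => pp y 0) q ∧ ContDiffAt ℝ 1 (fun y => pp y 2) q ∧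
    ContDiffAt ℝ 1 (fun y => v (pp y)) q ∧ ContDiffAt ℝ 1 (fun y => F₁ (pp y)) q ∧
    ContDiffAt ℝ 1 (fun y => F₂ (pp y)) q ∧ ContDiffAt ℝ 1 (fun y => g (pp y)) q ∧
    Good Λ ![fun y => pp y 2, fun y => v (pp y)]
      ![fun y => s • cross (∇ (fun y => pp y 0) y) (ee 1),
        fun y => s • (cross (∇ (fun y => F₁ (pp y)) y) (ee 1) +
          cross (∇ (fun y => F₂ (pp y)) y) (∇ (fun y => pp y 0) y) +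
          cross (∇ (fun y => g (pp y)) y) (∇ (fun y => pp y 2) y))] q := by
  have hg : ∀ᶠ y in 𝓝 q, ∇ (fun y => pp y 1) y = ee 1 :=
    (grad_congr_ev (g := X 1) hy).mono fun y h => by rw [h, grad_X]
  refine ⟨(h.2 0 0).1, (h.2 1 2).2, ((hGB.2.2.2.2 _ _ _ _ _ h.1).2 1).1, (h.2 1 0).1, (h.2 1 1).1,
    (h.2 1 2).1, hGB.2.2.2.1 _ (Fin 2) _ _ _ _ _ _ h.1 fun i => ?_⟩
  fin_cases i
  · refine ⟨0, ![1, 0], hg.mono fun y hy => ⟨by simp [pmU], ?_⟩⟩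
    simp [flux, pmF, pmG, Fin.sum_univ_three, hy]
  · refine ⟨0, ![0, 1], hg.mono fun y hy => ⟨by simp [pmU], ?_⟩⟩
    simp [flux, pmF, pmG, Fin.sum_univ_three, hy]

lemma md_cd0 {f : E → ℝ} {q : E} (h : ∀ᶠ y in 𝓝 q, f y = 0) : ContDiffAt ℝ 1 f q :=
  (contDiffAt_const (c := (0 : ℝ))).congr_of_eventuallyEq h

lemma md_g0 {f : E → ℝ} {q : E} (h : ∀ᶠ y in 𝓝 q, f y = 0) : ∀ᶠ y in 𝓝 q, ∇ f y = 0 :=
  (grad_congr_ev (g := fun _ => 0) h).mono fun y hy => by rw [hy, grad_const]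

lemma md_zone0 (hGB : GBStmt) {Λ c : ℝ} {v F₁ F₂ g : E → ℝ} {pp : E → E} {q : E}
    (h : DGood Λ 1 (fun i y => pmU v i (pp y)) (fun i k y => pmF F₁ F₂ g i k (pp y))
      (fun i k y => pmG i k (pp y)) q) (hy : ∀ᶠ y in 𝓝 q, pp y 1 = y 1)
    {a₀ a₁ A₀ A₁ P₀ Q₀ P₁ Q₁ : E → ℝ}
    (e1 : ∀ᶠ y in 𝓝 q, a₀ y = c + pp y 2) (e2 : ∀ᶠ y in 𝓝 q, a₁ y = c + v (pp y))
    (e3 : ∀ᶠ y in 𝓝 q, A₀ y = pp y 0) (e4 : ∀ᶠ y in 𝓝 q, A₁ y = Real.pi + F₁ (pp y))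
    (e5 : ∀ᶠ y in 𝓝 q, P₀ y = 0) (e6 : ∀ᶠ y in 𝓝 q, Q₀ y = 0)
    (e7 : ∀ᶠ y in 𝓝 q, P₁ y = F₂ (pp y)) (e8 : ∀ᶠ y in 𝓝 q, Q₁ y = g (pp y)) :
    DGood Λ 1 (mda a₀ a₁) (mdF A₀ A₁ P₀ Q₀ P₁ Q₁) (mdG a₀ a₁ A₀ A₁) q := by
  obtain ⟨cx, ct, cv, c1, c2, cg, hG⟩ := md_core hGB h hy
  refine md_target hGB hG ((contDiffAt_const.add ct).congr_of_eventuallyEq e1)
    ((contDiffAt_const.add cv).congr_of_eventuallyEq e2) (cx.congr_of_eventuallyEq e3)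
    ((contDiffAt_const.add c1).congr_of_eventuallyEq e4) (md_cd0 e5) (md_cd0 e6)
    (c2.congr_of_eventuallyEq e7) (cg.congr_of_eventuallyEq e8) ⟨c, ![1, 0], ?_⟩ ⟨c, ![0, 1], ?_⟩
  · filter_upwards [e1, grad_congr_ev e3, md_g0 e5, md_g0 e6] with y h1 h3 h5 h6
    refine ⟨by simp [h1], ?_⟩
    simp [h3, h5, h6]
  · filter_upwards [e2, grad_congr_ev e1, grad_congr_ev e3, grad_congr_ev e4, grad_congr_ev e7,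
      grad_congr_ev e8] with y h2 h1 h3 h4 h7 h8
    refine ⟨by simp [h2], ?_⟩
    rw [grad_const_add] at h1 h4
    simp [h1, h3, h4, h7, h8]

lemma md_zone1 (hGB : GBStmt) {Λ c : ℝ} {v F₁ F₂ g : E → ℝ} {pp : E → E} {q : E}
    (h : DGood Λ (-1) (fun i y => pmU v i (pp y)) (fun i k y => pmF F₁ F₂ g i k (pp y))
      (fun i k y => pmG i k (pp y)) q) (hy : ∀ᶠ y in 𝓝 q, pp y 1 = y 1)
    {a₀ a₁ A₀ A₁ P₀ Q₀ P₁ Q₁ : E → ℝ}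
    (e1 : ∀ᶠ y in 𝓝 q, a₀ y = c + v (pp y)) (e2 : ∀ᶠ y in 𝓝 q, a₁ y = c + pp y 2)
    (e3 : ∀ᶠ y in 𝓝 q, A₀ y = -F₁ (pp y)) (e4 : ∀ᶠ y in 𝓝 q, A₁ y = Real.pi + -pp y 0)
    (e5 : ∀ᶠ y in 𝓝 q, P₀ y = F₂ (pp y)) (e6 : ∀ᶠ y in 𝓝 q, Q₀ y = -g (pp y))
    (e7 : ∀ᶠ y in 𝓝 q, P₁ y = 0) (e8 : ∀ᶠ y in 𝓝 q, Q₁ y = 0) :
    DGood Λ 1 (mda a₀ a₁) (mdF A₀ A₁ P₀ Q₀ P₁ Q₁) (mdG a₀ a₁ A₀ A₁) q := by
  obtain ⟨cx, ct, cv, c1, c2, cg, hG⟩ := md_core hGB h hy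
  refine md_target hGB hG ((contDiffAt_const.add cv).congr_of_eventuallyEq e1)
    ((contDiffAt_const.add ct).congr_of_eventuallyEq e2) (c1.neg.congr_of_eventuallyEq e3)
    ((contDiffAt_const.add cx.neg).congr_of_eventuallyEq e4) (c2.congr_of_eventuallyEq e5)
    (cg.neg.congr_of_eventuallyEq e6) (md_cd0 e7) (md_cd0 e8) ⟨c, ![0, 1], ?_⟩ ⟨c, ![1, 0], ?_⟩
  · filter_upwards [e1, grad_congr_ev e2, grad_congr_ev e3, grad_congr_ev e4, grad_congr_ev e5,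
      grad_congr_ev e6] with y h1 h2 h3 h4 h5 h6
    refine ⟨by simp [h1], ?_⟩
    rw [grad_const_add] at h2 h4
    rw [grad_neg] at h3 h4 h6
    rw [h2, h3, h4, h5, h6]
    simp [cross_neg_left, cross_neg_right]
  · filter_upwards [e2, grad_congr_ev e4, md_g0 e7, md_g0 e8] with y h2 h4 h7 h8
    refine ⟨by simp [h2], ?_⟩
    rw [grad_const_add, grad_neg] at h4
    simp [h4, h7, h8, cross_neg_left]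

lemma md_zonei (hGB : GBStmt) {Λ c : ℝ} {v F₁ F₂ g : E → ℝ} {pp : E → E} {q : E}
    (h : DGood Λ (-1) (fun i y => pmU v i (pp y)) (fun i k y => pmF F₁ F₂ g i k (pp y))
      (fun i k y => pmG i k (pp y)) q) (hy : ∀ᶠ y in 𝓝 q, pp y 1 = y 1)
    {a₀ a₁ A₀ A₁ P₀ Q₀ P₁ Q₁ : E → ℝ}
    (e1 : ∀ᶠ y in 𝓝 q, a₀ y = c + -pp y 2) (e2 : ∀ᶠ y in 𝓝 q, a₁ y = c + -pp y 2 + v (pp y))
    (e3 : ∀ᶠ y in 𝓝 q, A₀ y = pp y 0) (e4 : ∀ᶠ y in 𝓝 q, A₁ y = pp y 0 - F₁ (pp y))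
    (e5 : ∀ᶠ y in 𝓝 q, P₀ y = 0) (e6 : ∀ᶠ y in 𝓝 q, Q₀ y = 0)
    (e7 : ∀ᶠ y in 𝓝 q, P₁ y = -F₂ (pp y)) (e8 : ∀ᶠ y in 𝓝 q, Q₁ y = g (pp y)) :
    DGood Λ 1 (mda a₀ a₁) (mdF A₀ A₁ P₀ Q₀ P₁ Q₁) (mdG a₀ a₁ A₀ A₁) q := by
  obtain ⟨cx, ct, cv, c1, c2, cg, hG⟩ := md_core hGB h hy
  refine md_target hGB hG ((contDiffAt_const.add ct.neg).congr_of_eventuallyEq e1)
    (((contDiffAt_const.add ct.neg).add cv).congr_of_eventuallyEq e2) (cx.congr_of_eventuallyEq e3)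
    ((cx.sub c1).congr_of_eventuallyEq e4) (md_cd0 e5) (md_cd0 e6)
    (c2.neg.congr_of_eventuallyEq e7) (cg.congr_of_eventuallyEq e8) ⟨c, ![-1, 0], ?_⟩ ⟨c, ![-1, 1], ?_⟩
  · filter_upwards [e1, grad_congr_ev e3, md_g0 e5, md_g0 e6] with y h1 h3 h5 h6
    refine ⟨by simp [h1], ?_⟩
    simp [h3, h5, h6]
  · filter_upwards [e2, grad_congr_ev e1, grad_congr_ev e3, grad_congr_ev e4, grad_congr_ev e7,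
      grad_congr_ev e8, md_ev_diff cx, md_ev_diff c1] with y h2 h1 h3 h4 h7 h8 d1 d2
    refine ⟨by simp [h2]; ring, ?_⟩
    rw [grad_const_add, grad_neg] at h1
    rw [grad_sub d1 d2] at h4
    rw [grad_neg] at h7
    rw [h1, h3, h4, h7, h8]
    simp [cross_neg_left, cross_neg_right, cross_sub_left]; abel

lemma md_zonem (hGB : GBStmt) (hMG : MGStmt) {c : ℝ} {q : E} (hq : 0 < q 2)
    {a₀ a₁ A₀ A₁ P₀ Q₀ P₁ Q₁ : E → ℝ}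
    (e1 : ∀ᶠ y in 𝓝 q, a₀ y = c + -Real.log ‖zc (-cc) y‖)
    (e2 : ∀ᶠ y in 𝓝 q, a₁ y = c + -Real.log ‖zc cc y‖)
    (e3 : ∀ᶠ y in 𝓝 q, A₀ y = th (-cc) y) (e4 : ∀ᶠ y in 𝓝 q, A₁ y = th cc y)
    (e5 : ∀ᶠ y in 𝓝 q, P₀ y = 0) (e6 : ∀ᶠ y in 𝓝 q, Q₀ y = 0)
    (e7 : ∀ᶠ y in 𝓝 q, P₁ y = 0) (e8 : ∀ᶠ y in 𝓝 q, Q₁ y = 0) :
    DGood 3 1 (mda a₀ a₁) (mdF A₀ A₁ P₀ Q₀ P₁ Q₁) (mdG a₀ a₁ A₀ A₁) q := by
  obtain ⟨hG, hc⟩ := hMG q hq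
  have u0 := ((hGB.2.2.2.2 _ _ _ _ _ hG).2 false).1
  have u1 := ((hGB.2.2.2.2 _ _ _ _ _ hG).2 true).1
  refine md_target hGB hG ((contDiffAt_const.add u0).congr_of_eventuallyEq e1)
    ((contDiffAt_const.add u1).congr_of_eventuallyEq e2) ((hc false 0).1.congr_of_eventuallyEq e3)
    ((hc true 0).1.congr_of_eventuallyEq e4) (md_cd0 e5) (md_cd0 e6) (md_cd0 e7) (md_cd0 e8)
    ⟨c, fun i => bif i then 0 else 1, ?_⟩ ⟨c, fun i => bif i then 1 else 0, ?_⟩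
  · filter_upwards [e1, grad_congr_ev e3, md_g0 e5, md_g0 e6] with y h1 h3 h5 h6
    refine ⟨by simp [h1, cen], ?_⟩
    simp [h3, h5, h6, flux, cen]
  · filter_upwards [e2, grad_congr_ev e4, md_g0 e7, md_g0 e8] with y h1 h3 h5 h6
    refine ⟨by simp [h1, cen], ?_⟩
    simp [h3, h5, h6, flux, cen]

end Crest.Agent.R83
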