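import Crest.Agent.R83.Basic

set_option autoImplicit false

noncomputable section

namespace Crest.Agent.R83

open MeasureTheory Set Filter Topology Metric
open scoped Gradient RealInnerProductSpace NNReal

lemma mg_ne (c : ℝ) {q : E} (h : 0 < q 2) : zc c q ≠ 0 := fun h0 => by
  have := congrArg Complex.im h0
  simp [zc] at this; linarith

lemma mg_grad (hTH : THStmt) (c : ℝ) {q : E} (h : 0 < q 2) :
    ∇ (fun y => -Real.log ‖zc c y‖) q =
      !₂[-((q 0 - c) / ‖zc c q‖ ^ 2), 0, -(q 2 / ‖zc c q‖ ^ 2)] ∧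
    flux ![th c] ![X 1] q = ∇ (fun y => -Real.log ‖zc c y‖) q := by
  have hz := mg_ne c h
  have hr : ‖zc c q‖ ≠ 0 := norm_ne_zero_iff.2 hz
  obtain ⟨-, -, -, -, -, -, -, c2, g1, g2⟩ := hTH c q h.le hz
  have e : ∇ (fun y => -Real.log ‖zc c y‖) q =
      !₂[-((q 0 - c) / ‖zc c q‖ ^ 2), 0, -(q 2 / ‖zc c q‖ ^ 2)] := by
    rw [grad_neg, grad_comp (h := Real.log) (Real.hasDerivAt_log hr) (c2.differentiableAt (by norm_num)), g2]
    apply ext3 <;> simp <;> field_simp
  refine ⟨e, ?_⟩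
  rw [e]
  simp only [flux, Finset.univ_unique, Finset.sum_singleton]
  apply ext3 <;> simp [g1, ee_apply, neg_div]

theorem MG_proof (hLP : LPStmt) (hTH : THStmt) (hGB : GBStmt) : MGStmt := by
  intro q hq
  have cl : ∀ c, ContDiffAt ℝ 2 (fun y => -Real.log ‖zc c y‖) q := fun c =>
    (((hTH c q hq.le (mg_ne c hq)).2.2.2.2.2.2.2.1.of_le (by norm_num)).log
      (norm_ne_zero_iff.2 (mg_ne c hq))).neg
  have ct : ∀ c, ContDiffAt ℝ 2 (th c) q := fun c =>
    (hTH c q hq.le (mg_ne c hq)).2.2.2.2.2.2.1.of_le (by norm_num)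
  have cX : ContDiffAt ℝ 2 (X 1) q := (contDiff_X 1).contDiffAt
  have ev : ∀ᶠ y : E in 𝓝 q, 0 < y 2 :=
    (by fun_prop : Continuous fun y : E => y 2).continuousAt.eventually (lt_mem_nhds hq)
  have key := hLP 1 3 (fun y => -Real.log ‖zc (-cc) y‖) (fun y => -Real.log ‖zc cc y‖)
    ![th (-cc)] ![X 1] ![th cc] ![X 1] q (cl _) (cl _)
    (fun k => by fin_cases k; exact ⟨ct _, cX, ct _, cX⟩)
    (ev.mono fun y hy => by rw [(mg_grad hTH _ hy).2, (mg_grad hTH _ hy).2, real_inner_comm])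
    (by
      rw [(mg_grad hTH _ hq).2, (mg_grad hTH _ hq).2]
      refine ⟨by norm_num, fun a b hab => ?_⟩
      rw [real_inner_self_eq_norm_sq]
      have hne : a • ∇ (fun y => -Real.log ‖zc (-cc) y‖) q + b • ∇ (fun y => -Real.log ‖zc cc y‖) q ≠ 0 := by
        rw [(mg_grad hTH _ hq).1, (mg_grad hTH _ hq).1]
        intro h
        have h0 := congrArg (fun p : E => p 0) h
        have h2 := congrArg (fun p : E => p 2) h
        simp at h0 h2
        have r0 : 0 < ‖zc (-cc) q‖ ^ 2 := pow_pos (norm_pos_iff.2 (mg_ne _ hq)) 2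
        have r1 : 0 < ‖zc cc q‖ ^ 2 := pow_pos (norm_pos_iff.2 (mg_ne _ hq)) 2
        set A := a / ‖zc (-cc) q‖ ^ 2 with hA
        set B := b / ‖zc cc q‖ ^ 2 with hB
        have e0 : A * (q 0 + cc) + B * (q 0 - cc) = 0 := by
          rw [hA, hB]; linear_combination -h0
        have e2 : (A + B) * q 2 = 0 := by
          rw [hA, hB]; linear_combination -h2
        have e3 : A + B = 0 := (mul_eq_zero.1 e2).resolve_right hq.ne'
        have hc : (0 : ℝ) < cc := by norm_num [cc]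
        have e4 : A * (2 * cc) = 0 := by linear_combination e0 - (q 0 - cc) * e3
        have e5 : A = 0 := (mul_eq_zero.1 e4).resolve_right (by positivity)
        have e6 : B = 0 := by linarith
        rcases hab with h | h
        · exact h ((div_eq_zero_iff.1 e5).resolve_right r0.ne')
        · exact h ((div_eq_zero_iff.1 e6).resolve_right r1.ne')
      have := pow_pos (norm_pos_iff.2 hne) 2
      linarith)
  refine ⟨hGB.2.2.2.1 _ Bool _ _ _ _ _ _ key fun i => ?_, fun i k => ?_⟩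
  · cases i
    · exact ⟨0, ![1, 0], Eventually.of_forall fun y => ⟨by simp [cen], by simp [cen]⟩⟩
    · exact ⟨0, ![0, 1], Eventually.of_forall fun y => ⟨by simp [cen], by simp [cen]⟩⟩
  · fin_cases k
    exact ⟨(ct _).of_le (by norm_num), cX.of_le (by norm_num)⟩

end Crest.Agent.R83
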