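import Crest.Agent.R83.Basic

/-! Row 83, task ML: mollification. -/

set_option autoImplicit false

noncomputable section

namespace Crest.Agent.R83

open MeasureTheory Set Filter Topology Metric ContinuousLinearMap
open scoped Gradient RealInnerProductSpace NNReal Convolution

/-- the bumps -/
def ml_bump (n : ℕ) : ContDiffBump (0 : E) where
  rIn := 1 / ((n : ℝ) + 1) / 2
  rOut := 1 / ((n : ℝ) + 1)
  rIn_pos := by positivity
  rIn_lt_rOut := half_lt_self (by positivity)

theorem ml_fderiv {f : E → ℝ} {K : ℝ≥0} (hf : LipschitzWith K f) (φ : ContDiffBump (0 : E))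
    (x : E) : HasFDerivAt (φ.normed volume ⋆[lsmul ℝ ℝ, volume] f)
      ((φ.normed volume ⋆[lsmul ℝ ℝ, volume] fderiv ℝ f) x) x := by
  have hc : ∀ y : E, Continuous fun t => φ.normed volume t • f (y - t) := fun y =>
    φ.continuous_normed.smul (hf.continuous.comp (by fun_prop))
  refine (hasFDerivAt_integral_of_dominated_loc_of_lip (μ := volume) (s := univ)
    (F := fun y t => φ.normed volume t • f (y - t))
    (F' := fun t => φ.normed volume t • fderiv ℝ f (x - t))
    (bound := fun t => φ.normed volume t * K) univ_mem
    (Eventually.of_forall fun y => (hc y).aestronglyMeasurable)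
    ((hc x).integrable_of_hasCompactSupport φ.hasCompactSupport_normed.smul_right) ?_ ?_
    (φ.integrable_normed.mul_const _) ?_).2
  · exact φ.continuous_normed.aestronglyMeasurable.smul
      ((measurable_fderiv ℝ f).comp (by fun_prop)).aestronglyMeasurable
  · refine Eventually.of_forall fun t => LipschitzOnWith.of_dist_le_mul fun y _ z _ => ?_
    have h := hf.dist_le_mul (y - t) (z - t)
    rw [dist_sub_right] at h
    rw [dist_smul₀, Real.coe_nnabs, abs_mul, Real.norm_eq_abs, NNReal.abs_eq, mul_assoc]
    exact mul_le_mul_of_nonneg_left h (abs_nonneg _)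
  · have h := (Measure.measurePreserving_sub_left (volume : Measure E) x).quasiMeasurePreserving.ae
      (hf.ae_differentiableAt (μ := volume))
    filter_upwards [h] with t ht
    exact ((hasFDerivAt_comp_sub t).2 ht.hasFDerivAt).const_smul (φ.normed volume t)

theorem ML_proof : MLStmt := by
  intro f K hf
  refine ⟨fun n => (ml_bump n).normed volume ⋆[lsmul ℝ ℝ, volume] f, fun n => ?_, fun n x => ?_,
    ?_, fun n x hx => ?_⟩
  · exact (ml_bump n).hasCompactSupport_normed.contDiff_convolution_left (n := 2) _
      (ml_bump n).contDiff_normed hf.continuous.locallyIntegrable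
  · rw [norm_grad, (ml_fderiv hf _ x).fderiv, convolution_def]
    refine (norm_integral_le_of_norm_le ((ml_bump n).integrable_normed.mul_const (K : ℝ))
      (Eventually.of_forall fun t => ?_)).trans (le_of_eq ?_)
    · rw [lsmul_apply, norm_smul, Real.norm_of_nonneg ((ml_bump n).nonneg_normed t)]
      exact mul_le_mul_of_nonneg_left (norm_fderiv_le_of_lipschitz ℝ hf)
        ((ml_bump n).nonneg_normed t)
    · rw [integral_mul_const, ContDiffBump.integral_normed, one_mul]
  · have hl : LocallyIntegrable (fderiv ℝ f) volume :=
      (memLp_top_of_bound (measurable_fderiv ℝ f).aestronglyMeasurable K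
        (Eventually.of_forall fun _ => norm_fderiv_le_of_lipschitz ℝ hf)).locallyIntegrable le_top
    have h := ContDiffBump.ae_convolution_tendsto_right_of_locallyIntegrable (φ := ml_bump)
      (l := atTop) (K := 2) tendsto_one_div_add_atTop_nhds_zero_nat
      (Eventually.of_forall fun n => le_of_eq (by simp only [ml_bump]; ring)) hl
    filter_upwards [h] with x hx
    simp only [gradient, (ml_fderiv hf _ x).fderiv]
    exact ((InnerProductSpace.toDual ℝ E).symm.continuous.tendsto _).comp hx
  · refine integral_eq_zero_of_ae (Eventually.of_forall fun t => ?_)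
    by_cases ht : (ml_bump n).normed volume t = 0
    · simp [ht]
    · have : t ∈ ball (0 : E) (ml_bump n).rOut := by
        rw [← ContDiffBump.support_normed_eq (μ := volume)]
        exact ht
      have h2 := hx (x - t) (by
        rw [mem_closedBall, dist_eq_norm, sub_sub_cancel_left, norm_neg]
        exact (mem_ball_zero_iff.1 this).le)
      simp [h2]

end Crest.Agent.R83
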