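import Crest.Agent.R83.ZL

/-! Row 83, task NL: null Lagrangian. -/

set_option autoImplicit false

noncomputable section

namespace Crest.Agent.R83

open MeasureTheory Set Filter Topology Metric
open scoped Gradient RealInnerProductSpace NNReal

theorem nl_grad_zero {φ : E → ℝ} {x : E} (hx : x ∉ tsupport φ) : ∇ φ x = 0 :=
  (grad_congr (notMem_tsupport_iff_eventuallyEq.1 hx)).trans (grad_zero x)

theorem nl_int_grad {φ : E → ℝ} (h : Lip φ) (hc : HasCompactSupport φ) :
    Integrable (fun x => ∇ φ x) := by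
  obtain ⟨K, hK⟩ := h
  rw [← integrableOn_iff_integrable_of_support_subset (s := tsupport φ)
    fun x hx => of_not_not (mt nl_grad_zero hx)]
  exact Measure.integrableOn_of_bounded hc.isCompact.measure_lt_top.ne
    (measurable_grad φ).aestronglyMeasurable (Eventually.of_forall (norm_grad_le hK))

theorem nl_int_coord {φ : E → ℝ} (h : Lip φ) (hc : HasCompactSupport φ) (i : Fin 3) :
    Integrable (fun x => ∇ φ x i) :=
  (EuclideanSpace.proj i : E →L[ℝ] ℝ).integrable_comp (nl_int_grad h hc)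

/-- the integral of a derivative vanishes -/
theorem nl_ftc {φ : E → ℝ} (h : Lip φ) (hc : HasCompactSupport φ) (i : Fin 3) :
    ∫ x, ∇ φ x i = 0 := by
  obtain ⟨K, hK⟩ := h
  have := (LipschitzWith.const (α := E) (1 : ℝ)).integral_lineDeriv_mul_eq (μ := volume) hK hc
    (-ee i)
  simp only [lineDeriv, deriv_const', zero_mul, integral_zero, neg_neg, mul_one] at this
  rw [this]
  refine integral_congr_ae ?_
  filter_upwards [hK.ae_differentiableAt (μ := volume)] with x hx
  rw [grad_apply, ← hx.lineDeriv_eq_fderiv]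
  rfl

theorem nl_cut {F : E → ℝ} (hF : LocallyLipschitz F) {S : Set E} (hS : IsCompact S) :
    ∃ F' : E → ℝ, Lip F' ∧ ∀ x ∈ S, ∇ F' x = ∇ F x := by
  obtain ⟨R, hR⟩ := hS.isBounded.subset_ball (0 : E)
  let χ : ContDiffBump (0 : E) := ⟨|R| + 1, |R| + 2, by positivity, by linarith⟩
  refine ⟨fun x => F x * χ x, lip_of_locLip (locLip_mul hF (χ.contDiff (n := 1)).locallyLipschitz)
    χ.hasCompactSupport.mul_left, fun x hx => grad_congr ?_⟩
  have : x ∈ ball (0 : E) χ.rIn := ball_subset_ball (by linarith [le_abs_self R]) (hR hx)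
  filter_upwards [χ.eventuallyEq_one_of_mem_ball this] with y hy
  rw [hy, Pi.one_apply, mul_one]

/-- the determinant of three gradients -/
def nl_D (F G φ : E → ℝ) (x : E) : ℝ := ⟪cross (∇ F x) (∇ G x), ∇ φ x⟫

theorem nl_meas (F G φ : E → ℝ) : Measurable (nl_D F G φ) :=
  (measurable_cross (measurable_grad F) (measurable_grad G)).inner (measurable_grad φ)

theorem nl_bound {F G : E → ℝ} {K L : ℝ} (hF : ∀ x, ‖∇ F x‖ ≤ K) (hG : ∀ x, ‖∇ G x‖ ≤ L)
    (φ : E → ℝ) (x : E) : ‖nl_D F G φ x‖ ≤ K * L * ‖∇ φ x‖ :=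
  (norm_inner_le_norm _ _).trans (mul_le_mul_of_nonneg_right ((norm_cross_le _ _).trans
    (mul_le_mul (hF x) (hG x) (norm_nonneg _) ((norm_nonneg _).trans (hF x)))) (norm_nonneg _))

theorem nl_red {F G φ : E → ℝ} (hF : LocallyLipschitz F) (hG : LocallyLipschitz G)
    (hc : HasCompactSupport φ) : ∃ F' G', Lip F' ∧ Lip G' ∧ nl_D F G φ = nl_D F' G' φ := by
  obtain ⟨F', hF', h1⟩ := nl_cut hF hc.isCompact
  obtain ⟨G', hG', h2⟩ := nl_cut hG hc.isCompact
  refine ⟨F', G', hF', hG', funext fun x => ?_⟩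
  by_cases hx : x ∈ tsupport φ
  · simp only [nl_D, h1 x hx, h2 x hx]
  · simp only [nl_D, nl_grad_zero hx, inner_zero_right]

theorem nl_int {F G φ : E → ℝ} (hF : LocallyLipschitz F) (hG : LocallyLipschitz G) (h : Lip φ)
    (hc : HasCompactSupport φ) : Integrable (nl_D F G φ) := by
  obtain ⟨F', G', ⟨K, hK⟩, ⟨L, hL⟩, e⟩ := nl_red hF hG hc
  rw [e]
  exact ((nl_int_grad h hc).norm.const_mul ((K : ℝ) * L)).mono' (nl_meas _ _ _).aestronglyMeasurable
    (Eventually.of_forall (nl_bound (norm_grad_le hK) (norm_grad_le hL) φ))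

theorem nl_c1 {F : E → ℝ} (hF : ContDiff ℝ 2 F) (i : Fin 3) : ContDiff ℝ 1 (fun y => ∇ F y i) := by
  simp only [grad_apply]
  exact (hF.fderiv_right (m := 1) (by norm_num)).clm_apply contDiff_const

theorem nl_symm {F : E → ℝ} (hF : ContDiff ℝ 2 F) (x : E) (i j : Fin 3) :
    ∇ (fun y => ∇ F y i) x j = ∇ (fun y => ∇ F y j) x i := by
  have hd : DifferentiableAt ℝ (fderiv ℝ F) x :=
    ((hF.fderiv_right (m := 1) (by norm_num)).differentiable one_ne_zero) x
  have h : ∀ i j, ∇ (fun y => ∇ F y i) x j = fderiv ℝ (fderiv ℝ F) x (ee j) (ee i) := by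
    intro i j
    simp only [grad_apply]
    rw [fderiv_clm_apply hd (differentiableAt_const _)]
    simp
  rw [h, h]
  exact hF.contDiffAt.isSymmSndFDerivAt (by simp) _ _

theorem nl_smooth {F G φ : E → ℝ} (hF : ContDiff ℝ 2 F) (hG : ContDiff ℝ 2 G) (h : Lip φ)
    (hc : HasCompactSupport φ) : ∫ x, nl_D F G φ x = 0 := by
  let k : Fin 3 → Fin 3 → E → ℝ := fun i j y => ∇ F y i * ∇ G y j - ∇ F y j * ∇ G y i
  have hk : ∀ i j, ContDiff ℝ 1 (k i j) := fun i j =>
    ((nl_c1 hF i).mul (nl_c1 hG j)).sub ((nl_c1 hF j).mul (nl_c1 hG i))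
  have hc' : ∀ i j, HasCompactSupport fun y => k i j y * φ y := fun i j => hc.mul_left
  have hl : ∀ i j, Lip fun y => k i j y * φ y := fun i j =>
    lip_of_locLip (locLip_mul (hk i j).locallyLipschitz h.locLip) (hc' i j)
  have e : ∀ᵐ x, nl_D F G φ x = ∇ (fun y => k 1 2 y * φ y) x 0 + ∇ (fun y => k 2 0 y * φ y) x 1 +
      ∇ (fun y => k 0 1 y * φ y) x 2 := by
    filter_upwards [zl_c φ h.locLip] with x hx
    have dF := fun i => (nl_c1 hF i).differentiable one_ne_zero x
    have dG := fun i => (nl_c1 hG i).differentiable one_ne_zero x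
    have g1 : ∀ i j, ∇ (fun y => k i j y * φ y) x = k i j x • ∇ φ x + φ x • ∇ (k i j) x :=
      fun i j => grad_mul ((hk i j).differentiable one_ne_zero x) hx
    have g2 : ∀ i j, ∇ (k i j) x =
        (∇ F x i • ∇ (fun y => ∇ G y j) x + ∇ G x j • ∇ (fun y => ∇ F y i) x) -
        (∇ F x j • ∇ (fun y => ∇ G y i) x + ∇ G x i • ∇ (fun y => ∇ F y j) x) := fun i j => by
      rw [← grad_mul (dF i) (dG j), ← grad_mul (dF j) (dG i)]
      exact grad_sub ((dF i).mul (dG j)) ((dF j).mul (dG i))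
    simp only [g1, g2, nl_D, inner3, cross_0, cross_1, cross_2, PiLp.add_apply, PiLp.sub_apply,
      PiLp.smul_apply, smul_eq_mul, k]
    rw [nl_symm hF x 1 0, nl_symm hF x 2 0, nl_symm hF x 2 1, nl_symm hG x 1 0, nl_symm hG x 2 0,
      nl_symm hG x 2 1]
    ring
  have hi := fun i j l => nl_int_coord (hl i j) (hc' i j) l
  rw [integral_congr_ae e, integral_add (by exact (hi _ _ _).add (hi _ _ _)) (hi _ _ _),
    integral_add (hi _ _ _) (hi _ _ _), nl_ftc (hl _ _) (hc' _ _), nl_ftc (hl _ _) (hc' _ _),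
    nl_ftc (hl _ _) (hc' _ _)]
  simp

theorem NL_proof (hML : MLStmt) : NLStmt := by
  intro F G φ hF hG h hc
  obtain ⟨F', G', ⟨K, hK⟩, ⟨L, hL⟩, e⟩ := nl_red hF hG hc
  change ∫ x, nl_D F G φ x = 0
  rw [e]
  obtain ⟨f, f1, f2, f3, -⟩ := hML F' K hK
  obtain ⟨g, g1, g2, g3, -⟩ := hML G' L hL
  have := tendsto_integral_of_dominated_convergence (μ := volume) (F := fun n => nl_D (f n) (g n) φ)
    (f := nl_D F' G' φ) (fun x => K * L * ‖∇ φ x‖)
    (fun n => (nl_meas _ _ _).aestronglyMeasurable) ((nl_int_grad h hc).norm.const_mul _)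
    (fun n => Eventually.of_forall (nl_bound (f2 n) (g2 n) φ)) (by
      filter_upwards [f3, g3] with x h1 h2
      exact ((continuous_cross.tendsto _).comp (h1.prodMk_nhds h2)).inner tendsto_const_nhds)
  simp only [nl_smooth (f1 _) (g1 _) h hc] at this
  exact tendsto_nhds_unique this tendsto_const_nhds

end Crest.Agent.R83
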