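import Crest.Agent.R83.Basic

/-! Row 83, task NP: null preimages. -/

set_option autoImplicit false

noncomputable section

namespace Crest.Agent.R83

open MeasureTheory Set Filter Topology Metric
open scoped Gradient RealInnerProductSpace NNReal

theorem np_a (κ : E → E) (Z : Set E) (hZ : volume Z = 0) :
    ∀ᵐ x, ContDiffAt ℝ 1 κ x → (fderiv ℝ κ x).det ≠ 0 → κ x ∉ Z := by
  have : volume {x | ContDiffAt ℝ 1 κ x ∧ (fderiv ℝ κ x).det ≠ 0 ∧ κ x ∈ Z} = 0 := by
    refine measure_null_of_locally_null _ fun x ⟨h1, h2, _⟩ => ?_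
    have hd : HasFDerivAt κ ((fderiv ℝ κ x).toContinuousLinearEquivOfDetNeZero h2 : E →L[ℝ] E) x :=
      (h1.differentiableAt one_ne_zero).hasFDerivAt
    have h3 := (h1.to_localInverse hd one_ne_zero).eventually (by simp)
    have h4 := (h1.hasStrictFDerivAt' hd one_ne_zero).eventually_left_inverse
    refine ⟨(h1.localInverse hd one_ne_zero) ''
      (Z ∩ {y | ContDiffAt ℝ 1 (h1.localInverse hd one_ne_zero) y}), ?_,
      addHaar_image_eq_zero_of_differentiableOn_of_addHaar_eq_zero volume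
        (fun y hy => (ContDiffAt.differentiableAt (mem_ofPred.1 hy.2) one_ne_zero).differentiableWithinAt)
        (measure_mono_null inter_subset_left hZ)⟩
    filter_upwards [self_mem_nhdsWithin, nhdsWithin_le_nhds h4,
      nhdsWithin_le_nhds (h1.continuousAt.eventually h3)] with y a1 a2 a3
    exact ⟨κ y, ⟨a1.2.2, a3⟩, a2⟩
  filter_upwards [measure_eq_zero_iff_ae_notMem.1 this] with x hx h1 h2 h3
  exact hx ⟨h1, h2, h3⟩

theorem NP_proof : NPStmt := by
  refine ⟨np_a, fun σ₁ σ₂ d₁ d₂ K₁ K₂ κ₁ κ₂ Ω₁ Ω₂ h₁ h₂ q₁ q₂ hm => ?_⟩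
  filter_upwards [q₁, np_a κ₁ _ (ae_iff.1 q₂)] with x a1 a2 hx
  obtain ⟨b1, b2, b3⟩ := a1 hx
  obtain ⟨c1, c2, c3⟩ := of_not_not (a2 b1 fun h => by rw [h] at b2; linarith) (hm hx)
  refine ⟨c1.comp x b1, ?_, ?_⟩
  · rw [fderiv_comp x (c1.differentiableAt one_ne_zero) (b1.differentiableAt one_ne_zero)]
    have : ((fderiv ℝ κ₂ (κ₁ x)).comp (fderiv ℝ κ₁ x)).det =
        (fderiv ℝ κ₂ (κ₁ x)).det * (fderiv ℝ κ₁ x).det := LinearMap.det_comp _ _
    rw [this]
    nlinarith [mul_le_mul b2 c2 h₂.le (h₁.le.trans b2)]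
  · rw [fderiv_comp x (c1.differentiableAt one_ne_zero) (b1.differentiableAt one_ne_zero), mul_comm]
    exact (ContinuousLinearMap.opNorm_comp_le _ _).trans
      (mul_le_mul c3 b3 (norm_nonneg _) ((norm_nonneg _).trans c3))

end Crest.Agent.R83
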