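import Crest.Agent.R83.Basic

/-! Row 83, task OB (one ball). -/

set_option autoImplicit false

noncomputable section

namespace Crest.Agent.R83

open MeasureTheory Set Filter Topology Metric
open scoped Gradient RealInnerProductSpace NNReal

lemma ob_integrable {k : E → E} (hk : Measurable k) {C : ℝ} (hC : ∀ᵐ x, ‖k x‖ ≤ C) {φ : E → ℝ}
    (hφ : Lip φ) (hc : HasCompactSupport φ) : Integrable (fun x => ⟪k x, ∇ φ x⟫) := by
  obtain ⟨K, hK⟩ := hφ
  have h1 : Integrable ((tsupport φ).indicator fun _ : E => C * K) :=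
    (integrable_indicator_iff (isClosed_tsupport φ).measurableSet).2
      (integrableOn_const hc.isCompact.measure_lt_top.ne)
  refine h1.mono' (hk.inner (measurable_grad φ)).aestronglyMeasurable ?_
  filter_upwards [hC] with x hx
  by_cases h : x ∈ tsupport φ
  · rw [indicator_of_mem h]
    exact (norm_inner_le_norm _ _).trans
      (mul_le_mul hx (norm_grad_le hK x) (norm_nonneg _) ((norm_nonneg _).trans hx))
  · rw [indicator_of_notMem h, grad_congr (notMem_tsupport_iff_eventuallyEq.1 h)]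
    simp

/-- divergence free with integrable pairings -/
def obDF (k : E → E) : Prop :=
  ∀ φ : E → ℝ, Lip φ → HasCompactSupport φ →
    Integrable (fun x => ⟪k x, ∇ φ x⟫) ∧ ∫ x, ⟪k x, ∇ φ x⟫ = 0

lemma obDF.add {k k' : E → E} (h : obDF k) (h' : obDF k') : obDF (fun x => k x + k' x) := by
  intro φ h1 h2
  simp only [inner_add_left]
  exact ⟨(h φ h1 h2).1.add (h' φ h1 h2).1, by
    rw [integral_add (h φ h1 h2).1 (h' φ h1 h2).1, (h φ h1 h2).2, (h' φ h1 h2).2, add_zero]⟩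

lemma obDF.sub {k k' : E → E} (h : obDF k) (h' : obDF k') : obDF (fun x => k x - k' x) := by
  intro φ h1 h2
  simp only [inner_sub_left]
  exact ⟨(h φ h1 h2).1.sub (h' φ h1 h2).1, by
    rw [integral_sub (h φ h1 h2).1 (h' φ h1 h2).1, (h φ h1 h2).2, (h' φ h1 h2).2, sub_zero]⟩

lemma obDF.smul {k : E → E} (h : obDF k) (c : ℝ) : obDF (fun x => c • k x) := by
  intro φ h1 h2
  simp only [real_inner_smul_left]
  exact ⟨(h φ h1 h2).1.const_mul c, by rw [integral_const_mul, (h φ h1 h2).2, mul_zero]⟩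

lemma obDF.divFree {k : E → E} (h : obDF k) : DivFree k := fun φ h1 h2 => (h φ h1 h2).2

lemma ob_cross (hNL : NLStmt) {F G : E → ℝ} (hF : Lip F) (hG : Lip G) :
    obDF (fun x => cross (∇ F x) (∇ G x)) := by
  intro φ h1 h2
  refine ⟨?_, hNL F G φ hF.locLip hG.locLip h1 h2⟩
  obtain ⟨K, hK⟩ := hF
  obtain ⟨L, hL⟩ := hG
  exact ob_integrable (C := K * L) (measurable_cross (measurable_grad F) (measurable_grad G))
    (Eventually.of_forall fun x => (norm_cross_le _ _).trans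
      (mul_le_mul (norm_grad_le hK x) (norm_grad_le hL x) (norm_nonneg _) K.2)) h1 h2

lemma ob_pert {Ω : Set E} {K : ℝ≥0} {w : E → ℝ} {k : E → E} (h : Pert Ω K w k) : obDF k :=
  fun φ h1 h2 => ⟨ob_integrable h.meas h.bdd h1 h2, h.div φ h1 h2⟩

lemma ob_out {x₀ y : E} {s : ℝ} (hy : y ∉ closedBall x₀ s) : ∀ᶠ z in 𝓝 y, z ∉ ball x₀ s := by
  filter_upwards [isClosed_closedBall.isOpen_compl.mem_nhds hy] with z hz h
  exact hz (ball_subset_closedBall h)

/-- Global Lipschitz versions of a potential and of its flattening. -/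
lemma ob_ext {f f' : E → ℝ} {x₀ : E} {r : ℝ} (hr : 0 < r)
    (hf : ∀ x ∈ closedBall x₀ r, ContDiffAt ℝ 1 f x)
    (hf' : ∀ x ∈ closedBall x₀ r, ContDiffAt ℝ 1 f' x)
    (he : ∀ x, x ∉ ball x₀ (3 * r / 4) → f' x = f x) :
    ∃ F F' : E → ℝ, Lip F ∧ Lip F' ∧ (∀ y ∈ ball x₀ r, ∇ F y = ∇ f y ∧ ∇ F' y = ∇ f' y) ∧
      ∀ y, y ∉ ball x₀ r → ∇ F' y = ∇ F y := by
  classical
  obtain ⟨K, hK⟩ := (show LocallyLipschitzOn (closedBall x₀ r) f from fun x hx => by
    obtain ⟨K, t, ht, h⟩ := (hf x hx).exists_lipschitzOnWith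
    exact ⟨K, t, mem_nhdsWithin_of_mem_nhds ht, h⟩).exists_lipschitzOnWith_of_compact
    (isCompact_closedBall _ _)
  obtain ⟨F, hF, hFe⟩ := hK.extend_real
  set h : E → ℝ := fun y => if y ∈ ball x₀ r then f' y - f y else 0 with hh
  have h0 : ∀ y, y ∉ ball x₀ (3 * r / 4) → h y = 0 := fun y hy => by
    simp only [hh]; split_ifs
    · rw [he y hy, sub_self]
    · rfl
  have h1 : ∀ y, y ∉ ball x₀ r → h =ᶠ[𝓝 y] fun _ => 0 := fun y hy =>
    (ob_out (s := 3 * r / 4) fun hc => hy (closedBall_subset_ball (by linarith) hc)).mono h0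
  have h2 : ∀ y ∈ ball x₀ r, h =ᶠ[𝓝 y] fun z => f' z - f z := fun y hy => by
    filter_upwards [isOpen_ball.mem_nhds hy] with z hz
    exact if_pos hz
  have h3 : LocallyLipschitz h := fun y => by
    refine ContDiffAt.exists_lipschitzOnWith (𝕂 := ℝ) ?_
    by_cases hy : y ∈ ball x₀ r
    · exact ((hf' y (ball_subset_closedBall hy)).sub
        (hf y (ball_subset_closedBall hy))).congr_of_eventuallyEq (h2 y hy)
    · exact contDiffAt_const.congr_of_eventuallyEq (h1 y hy)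
  have h4 : HasCompactSupport h :=
    HasCompactSupport.intro (isCompact_closedBall x₀ (3 * r / 4))
      fun y hy => h0 y fun hc => hy (ball_subset_closedBall hc)
  refine ⟨F, fun y => F y + h y, ⟨K, hF⟩, Lip.add ⟨K, hF⟩ (lip_of_locLip h3 h4), fun y hy => ?_,
    fun y hy => grad_congr ?_⟩
  · have h5 : F =ᶠ[𝓝 y] f := by
      filter_upwards [isOpen_ball.mem_nhds hy] with z hz
      exact (hFe (ball_subset_closedBall hz)).symm
    refine ⟨grad_congr h5, grad_congr ?_⟩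
    filter_upwards [h5, h2 y hy] with z a1 a2
    rw [a1, a2]; ring
  · filter_upwards [h1 y hy] with z a1
    rw [a1, add_zero]

lemma ob_grad_aff (c : ℝ) (p x₀ x : E) : ∇ (fun y => c + ⟪p, y - x₀⟫) x = p := by
  have h : HasFDerivAt (fun y => c + ⟪p, y - x₀⟫) (innerSL ℝ p) x := by
    have := (((innerSL ℝ p).hasFDerivAt (x := x)).sub_const ⟪p, x₀⟫).const_add c
    simpa [inner_sub_right] using this
  ext i
  rw [grad_eq_of_hasFDerivAt h]
  simp [inner_ee]

lemma ob_grad_comb {v₁ v₂ : E → ℝ} {x : E} (h₁ : ContDiffAt ℝ 1 v₁ x) (h₂ : ContDiffAt ℝ 1 v₂ x)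
    (c₀ c₁ c₂ : ℝ) :
    ∇ (fun y => c₀ + c₁ * v₁ y + c₂ * v₂ y) x = c₁ • ∇ v₁ x + c₂ • ∇ v₂ x := by
  have d₁ := h₁.differentiableAt one_ne_zero
  have d₂ := h₂.differentiableAt one_ne_zero
  rw [grad_add ((d₁.const_mul c₁).const_add c₀) (d₂.const_mul c₂), grad_const_add, grad_const_mul,
    grad_const_mul]

lemma ob_diag_comb (l : Fin 3 → ℝ) (a b : ℝ) (p q : E) :
    diag l (a • p + b • q) = a • diag l p + b • diag l q := by
  ext i; simp; ring

/-- Stability of the open conditions. -/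
lemma ob_eps (hGB : GBStmt) {ι : Type} [Finite ι] {Λ L : ℝ} {c₁ c₂ : ι → ℝ} {p₁ p₂ a b d : E}
    (hE : Ell Λ p₁ p₂ (cross b p₁ - cross a p₂) (cross d p₁ - cross b p₂))
    (hL : ∀ i, ‖c₁ i • p₁ + c₂ i • p₂‖ < L) :
    ∃ ε > 0, ∀ q₁ q₂ a' b' d' : E, ‖q₁ - p₁‖ ≤ ε → ‖q₂ - p₂‖ ≤ ε → ‖a' - a‖ ≤ ε → ‖b' - b‖ ≤ ε →
      ‖d' - d‖ ≤ ε → Ell Λ q₁ q₂ (cross b' q₁ - cross a' q₂) (cross d' q₁ - cross b' q₂) ∧
        ∀ i, ‖c₁ i • q₁ + c₂ i • q₂‖ < L := by
  have cc : ∀ {f g : E × E × E × E × E → E}, Continuous f → Continuous g →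
      Continuous fun z => cross (f z) (g z) := fun {f g} hf hg =>
    continuous_cross.comp (f := fun z => (f z, g z)) (hf.prodMk hg)
  have π1 : Continuous fun z : E × E × E × E × E => z.1 := continuous_fst
  have π2 : Continuous fun z : E × E × E × E × E => z.2.1 := continuous_snd.fst
  have π3 : Continuous fun z : E × E × E × E × E => z.2.2.1 := continuous_snd.snd.fst
  have π4 : Continuous fun z : E × E × E × E × E => z.2.2.2.1 := continuous_snd.snd.snd.fst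
  have π5 : Continuous fun z : E × E × E × E × E => z.2.2.2.2 := continuous_snd.snd.snd.snd
  have hΦ : Continuous fun z : E × E × E × E × E => ((z.1, z.2.1,
      cross z.2.2.2.1 z.1 - cross z.2.2.1 z.2.1, cross z.2.2.2.2 z.1 - cross z.2.2.2.1 z.2.1) :
        E × E × E × E) :=
    π1.prodMk (π2.prodMk (((cc π4 π1).sub (cc π3 π2)).prodMk ((cc π5 π1).sub (cc π4 π2))))
  have e1 : ∀ᶠ z : E × E × E × E × E in 𝓝 (p₁, p₂, a, b, d), Ell Λ z.1 z.2.1
      (cross z.2.2.2.1 z.1 - cross z.2.2.1 z.2.1) (cross z.2.2.2.2 z.1 - cross z.2.2.2.1 z.2.1) :=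
    by
      have h := ((hGB.1 Λ).preimage hΦ).mem_nhds (x := (p₁, p₂, a, b, d))
        (by rw [mem_preimage, mem_ofPred_eq]; exact hE)
      filter_upwards [h] with z hz
      rw [mem_preimage, mem_ofPred_eq] at hz
      exact hz
  have e2 : ∀ᶠ z : E × E × E × E × E in 𝓝 (p₁, p₂, a, b, d), ∀ i, ‖c₁ i • z.1 + c₂ i • z.2.1‖ < L :=
    eventually_all.2 fun i => by
      have h : Continuous fun z : E × E × E × E × E => ‖c₁ i • z.1 + c₂ i • z.2.1‖ :=
        ((π1.const_smul (c₁ i)).add (π2.const_smul (c₂ i))).norm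
      exact (isOpen_lt h continuous_const).mem_nhds (hL i)
  obtain ⟨ε, hε, H⟩ := Metric.nhds_basis_closedBall.eventually_iff.1 (e1.and e2)
  refine ⟨ε, hε, fun q₁ q₂ a' b' d' h1 h2 h3 h4 h5 => H (x := (q₁, q₂, a', b', d')) ?_⟩
  simp only [mem_closedBall, Prod.dist_eq, max_le_iff]
  simp only [dist_eq_norm]
  exact ⟨h1, h2, h3, h4, h5⟩

theorem OB_proof (hFT : FTStmt) (hEA : EAStmt) (hRA : RAStmt) (hNL : NLStmt) (hGL : GLStmt)
    (hGB : GBStmt) : OBStmt := by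
  classical
  intro Λ
  obtain ⟨Λ', hΛ'⟩ := hEA Λ
  obtain ⟨M₀, hM₀, hR⟩ := hRA Λ'
  refine ⟨1 + M₀ + ‖Λ‖₊, le_add_right le_self_add, ?_, fun ι _ u j x₀ L K hK hu hj hG hL => ?_⟩
  · push_cast
    have := le_abs_self Λ
    have := M₀.2
    rw [Real.norm_eq_abs]
    change (0 : ℝ) ≤ M₀ at this
    linarith
  obtain ⟨v₁, v₂, α, β, δ, s1, s2, s3, s4, s5, hE, hc⟩ := hG
  choose c₀ c₁ c₂ hc using hc
  have hP : ∀ i, ∇ (u i) x₀ = c₁ i • ∇ v₁ x₀ + c₂ i • ∇ v₂ x₀ := fun i => by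
    rw [← ob_grad_comb s1 s2 (c₀ i)]
    exact grad_congr ((hc i).mono fun y hy => hy.1)
  obtain ⟨ε, hε, hW⟩ := ob_eps hGB (c₁ := c₁) (c₂ := c₂) hE (fun i => hP i ▸ hL i)
  obtain ⟨l, R, hl, hA1, hA2⟩ := hΛ' _ _ _ _ (J_symm v₁ v₂ α β δ x₀) hE
  have hev : ∀ᶠ r in 𝓝[>] (0 : ℝ), closedBall x₀ r ⊆ {y | ∀ i, u i y = c₀ i + c₁ i * v₁ y +
      c₂ i * v₂ y ∧ j i y = c₁ i • J1 v₁ v₂ α β y + c₂ i • J2 v₁ v₂ β δ y} :=
    (eventually_closedBall_subset (eventually_all.2 hc)).filter_mono nhdsWithin_le_nhds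
  filter_upwards [hFT v₁ x₀ s1 ε hε, hFT v₂ x₀ s2 ε hε, hFT α x₀ s3 ε hε, hFT β x₀ s4 ε hε,
    hFT δ x₀ s5 ε hε, hev, self_mem_nhdsWithin] with r ⟨t1, v₁', a1, b1, d1⟩ ⟨t2, v₂', a2, b2, d2⟩
    ⟨t3, α', a3, b3, d3⟩ ⟨t4, β', a4, b4, d4⟩ ⟨t5, δ', a5, b5, d5⟩ heq hr
  have hr : 0 < r := hr
  obtain ⟨γ, hγ, hpert⟩ := hR l R hl (ball x₀ (r / 2)) isOpen_ball isBounded_ball
  choose w k hw hk using fun i => hpert (∇ (u i) x₀)
  have hWx : ∀ x ∈ closedBall x₀ r,
      Ell Λ (∇ v₁' x) (∇ v₂' x) (J1 v₁' v₂' α' β' x) (J2 v₁' v₂' β' δ' x) ∧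
        ∀ i, ‖c₁ i • ∇ v₁' x + c₂ i • ∇ v₂' x‖ < L := fun x hx =>
    hW _ _ _ _ _ (a1 x hx).2 (a2 x hx).2 (a3 x hx).2 (a4 x hx).2 (a5 x hx).2
  set ub : ι → E → ℝ := fun i y => c₀ i + c₁ i * v₁' y + c₂ i * v₂' y with hub
  set jb : ι → E → E := fun i y => c₁ i • J1 v₁' v₂' α' β' y + c₂ i • J2 v₁' v₂' β' δ' y with hjb
  have hubd : ∀ i, ∀ x ∈ closedBall x₀ r, DifferentiableAt ℝ (ub i) x := fun i x hx =>
    ((((a1 x hx).1.differentiableAt one_ne_zero).const_mul _).const_add _).add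
      (((a2 x hx).1.differentiableAt one_ne_zero).const_mul _)
  have hubg : ∀ i, ∀ x ∈ closedBall x₀ r, ∇ (ub i) x = c₁ i • ∇ v₁' x + c₂ i • ∇ v₂' x :=
    fun i x hx => ob_grad_comb (a1 x hx).1 (a2 x hx).1 _ _ _
  have hin : ∀ x ∈ ball x₀ r, ∀ i, ∀ᶠ y in 𝓝 x,
      (if y ∈ ball x₀ r then ub i y + w i y else u i y) = ub i y + w i y ∧
      (if y ∈ ball x₀ r then jb i y + k i y else j i y) = jb i y + k i y := fun x hx i => by
    filter_upwards [isOpen_ball.mem_nhds hx] with y hy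
    exact ⟨if_pos hy, if_pos hy⟩
  refine ⟨fun i y => if y ∈ ball x₀ r then ub i y + w i y else u i y,
    fun i y => if y ∈ ball x₀ r then jb i y + k i y else j i y,
    fun i => ⟨?_, ?_, ?_, fun x hx => ⟨if_neg hx, if_neg hx⟩⟩, fun x hx hx' => ?_, ?_⟩
  · -- Lipschitz
    have l1 : LipschitzOnWith L (ub i) (closedBall x₀ r) :=
      (convex_closedBall x₀ r).lipschitzOnWith_of_nnnorm_fderiv_le (hubd i) fun x hx => by
        have := ((hWx x hx).2 i).le
        rw [← hubg i x hx, norm_grad] at this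
        exact_mod_cast this
    have l2 : LipschitzOnWith K (fun y => ub i y + w i y) (closedBall x₀ r) := by
      refine (l1.add (hw i).lip.lipschitzOnWith).weaken (le_trans ?_ hK)
      have : ‖∇ (u i) x₀‖₊ ≤ L := by exact_mod_cast (hL i).le
      calc L + M₀ * ‖∇ (u i) x₀‖₊ ≤ L + M₀ * L := by gcongr
        _ = (1 + M₀) * L := by ring
        _ ≤ _ := mul_le_mul_left le_self_add L
    refine lipschitzOnWith_univ.1 (hGL Unit univ (fun _ => ball x₀ r) (u i) _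
      (fun _ y => ub i y + w i y) K convex_univ (fun _ => isOpen_ball)
      (fun a b hab => absurd (Subsingleton.elim a b) hab) (hu i).lipschitzOnWith
      (fun _ => l2.mono (inter_subset_right.trans closure_ball_subset_closedBall))
      (fun _ x hx => ?_) (fun _ x hx => if_pos hx.2) (fun x hx => if_neg (by simpa using hx.2)))
    have h1 : dist x x₀ = r := frontier_ball_subset_sphere hx.2
    have h2 : x ∉ ball x₀ (3 * r / 4) := by rw [mem_ball, h1]; linarith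
    have h3 : x ∉ ball x₀ (r / 2) := by rw [mem_ball, h1]; linarith
    simp only [hub]
    rw [(hw i).w0 x h3, b1 x h2, b2 x h2, (heq (mem_closedBall.2 h1.le) i).1, add_zero]
  · -- measurable
    refine Measurable.ite measurableSet_ball (Measurable.add ?_ (hw i).meas) (hj i)
    have m := measurable_grad
    have m1 : Measurable (J1 v₁' v₂' α' β') :=
      (measurable_cross (m β') (m v₁')).sub (measurable_cross (m α') (m v₂'))
    have m2 : Measurable (J2 v₁' v₂' β' δ') :=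
      (measurable_cross (m δ') (m v₁')).sub (measurable_cross (m β') (m v₂'))
    exact (m1.const_smul (c₁ i)).add (m2.const_smul (c₂ i))
  · -- divergence free
    obtain ⟨V₁, V₁', p1, q1, e1, f1⟩ := ob_ext hr t1 (fun x hx => (a1 x hx).1) b1
    obtain ⟨V₂, V₂', p2, q2, e2, f2⟩ := ob_ext hr t2 (fun x hx => (a2 x hx).1) b2
    obtain ⟨A, A', p3, q3, e3, f3⟩ := ob_ext hr t3 (fun x hx => (a3 x hx).1) b3
    obtain ⟨B, B', p4, q4, e4, f4⟩ := ob_ext hr t4 (fun x hx => (a4 x hx).1) b4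
    obtain ⟨D, D', p5, q5, e5, f5⟩ := ob_ext hr t5 (fun x hx => (a5 x hx).1) b5
    have key := (((((ob_cross hNL q4 q1).sub (ob_cross hNL q3 q2)).smul (c₁ i)).add
      (((ob_cross hNL q5 q1).sub (ob_cross hNL q4 q2)).smul (c₂ i))).add (ob_pert (hw i))).sub
      ((((ob_cross hNL p4 p1).sub (ob_cross hNL p3 p2)).smul (c₁ i)).add
      (((ob_cross hNL p5 p1).sub (ob_cross hNL p4 p2)).smul (c₂ i)))
    convert key.divFree using 2 with y
    beta_reduce
    by_cases hy : y ∈ ball x₀ r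
    · rw [if_pos hy, (heq (ball_subset_closedBall hy) i).2, (e1 y hy).1, (e1 y hy).2, (e2 y hy).1,
        (e2 y hy).2, (e3 y hy).1, (e3 y hy).2, (e4 y hy).1, (e4 y hy).2, (e5 y hy).1, (e5 y hy).2]
      rfl
    · rw [if_neg hy, f1 y hy, f2 y hy, f3 y hy, f4 y hy, f5 y hy,
        (hw i).k0 y (fun h => hy (ball_subset_ball (by linarith) h))]
      simp
  · -- the annulus
    have hx2 := ball_subset_closedBall hx
    have hloc : ∀ i, ∀ᶠ y in 𝓝 x,
        (if y ∈ ball x₀ r then ub i y + w i y else u i y) = ub i y ∧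
        (if y ∈ ball x₀ r then jb i y + k i y else j i y) = jb i y := fun i => by
      filter_upwards [hin x hx i, ob_out hx'] with y h1 h2
      rw [h1.1, h1.2, (hw i).w0 y h2, (hw i).k0 y h2, add_zero, add_zero]
      exact ⟨rfl, rfl⟩
    refine ⟨⟨v₁', v₂', α', β', δ', (a1 x hx2).1, (a2 x hx2).1, (a3 x hx2).1, (a4 x hx2).1,
      (a5 x hx2).1, (hWx x hx2).1, fun i => ⟨c₀ i, c₁ i, c₂ i, hloc i⟩⟩, fun i => ?_⟩
    rw [grad_congr ((hloc i).mono fun y hy => hy.1), hubg i x hx2]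
    exact (hWx x hx2).2 i
  · -- the inner ball
    filter_upwards [ae_all_iff.2 hk, ae_all_iff.2 fun i => (hw i).lip.ae_differentiableAt
      (μ := volume)] with x h1 h2 hx
    have hx1 : x ∈ ball x₀ r := ball_subset_ball (by linarith) hx
    have hx2 := ball_subset_closedBall hx1
    have hfl : ∀ {f f' : E → ℝ}, (∀ x ∈ closedBall x₀ (r / 2), f' x = f x₀ + ⟪∇ f x₀, x - x₀⟫) →
        ∇ f' x = ∇ f x₀ := fun {f f'} h => by
      rw [← ob_grad_aff (f x₀) (∇ f x₀) x₀ x]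
      refine grad_congr ?_
      filter_upwards [isOpen_ball.mem_nhds hx] with y hy
      exact h y (ball_subset_closedBall hy)
    have hγ0 : 0 ≤ γ x := by
      by_contra hn
      have : (M₀ : ℝ) * γ x ≤ 0 := mul_nonpos_of_nonneg_of_nonpos M₀.2 (not_le.1 hn).le
      linarith [(hγ x).1]
    have hMM : (M₀ : ℝ) ≤ (1 + M₀ + ‖Λ‖₊ : ℝ≥0) := by
      exact_mod_cast (le_add_right le_add_self : M₀ ≤ 1 + M₀ + ‖Λ‖₊)
    refine ⟨γ x, (hγ x).1.trans (mul_le_mul_of_nonneg_right hMM hγ0), (hγ x).2.trans hMM,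
      fun i => ?_⟩
    rw [grad_congr ((hin x hx1 i).mono fun y hy => hy.1), grad_add (hubd i x hx2) (h2 i),
      hubg i x hx2, hfl d1, hfl d2, ← hP i, ← h1 i hx]
    simp only [if_pos hx1, hjb, J1, J2, hfl d1, hfl d2, hfl d3, hfl d4, hfl d5]
    rw [hP i, map_add, map_smul, map_smul, ob_diag_comb, map_add, map_smul, map_smul, hA1, hA2]
    rfl

end Crest.Agent.R83
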