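import Crest.Agent.R83.Basic

/-! Row 83, task PA: the pre-gadget. -/

set_option autoImplicit false

noncomputable section

namespace Crest.Agent.R83

open MeasureTheory Set Filter Topology Metric
open scoped Gradient RealInnerProductSpace NNReal

open Classical in
/-- gluing over the exterior, the two children and the rest -/
def pa_gl (u : E → ℝ) (v : Bool → E → ℝ) (w : E → ℝ) (x : E) : ℝ :=
  if 1 < NN x then w x else if x ∈ Ch false then v false x else if x ∈ Ch true then v true x else u x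

lemma pa_mem_Ch {i : Bool} {x : E} : x ∈ Ch i ↔ NN (Sinv i x) < 1 := Iff.rfl

lemma pa_N1 : N1 < 1 := by unfold N1; norm_num

lemma pa_ch_lt (hGE : GEStmt) {i : Bool} {x : E} (hx : NN (Sinv i x) ≤ 1) : NN x < 1 :=
  (hGE.2.2.2.1 i x hx).1.trans_lt pa_N1

lemma pa_ch_disj (hGE : GEStmt) {x : E} (h0 : NN (Sinv false x) ≤ 1) (h1 : NN (Sinv true x) ≤ 1) :
    False := by
  have a := abs_le.1 (hGE.2.2.2.1 _ x h0).2
  have b := abs_le.1 (hGE.2.2.2.1 _ x h1).2
  simp only [cen, cond_false, cond_true, cc, rho] at a b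
  linarith [a.2, b.1]

lemma pa_ch_ne (hGE : GEStmt) {i j : Bool} {x : E} (h0 : x ∈ Ch i) (h1 : x ∈ Ch j) : i = j := by
  cases i <;> cases j
  · rfl
  · exact (pa_ch_disj hGE (le_of_lt h0) (le_of_lt h1)).elim
  · exact (pa_ch_disj hGE (le_of_lt h1) (le_of_lt h0)).elim
  · rfl

lemma pa_gl_ch (hGE : GEStmt) (u : E → ℝ) (v : Bool → E → ℝ) (w : E → ℝ) {i : Bool} {x : E}
    (hx : x ∈ Ch i) : pa_gl u v w x = v i x := by
  unfold pa_gl
  rw [if_neg (not_lt.2 (pa_ch_lt hGE (le_of_lt hx)).le)]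
  cases i
  · rw [if_pos hx]
  · rw [if_neg fun h => by simpa using pa_ch_ne hGE h hx, if_pos hx]

lemma pa_mem_Om {x : E} : x ∈ Om ↔ NN x ≤ 1 ∧ ∀ i, x ∉ Ch i := by
  simp [Om]

lemma pa_gl_om (u : E → ℝ) (v : Bool → E → ℝ) (w : E → ℝ) {x : E} (hx : x ∈ Om) :
    pa_gl u v w x = u x := by
  rw [pa_mem_Om] at hx
  unfold pa_gl
  rw [if_neg (not_lt.2 hx.1), if_neg (hx.2 _), if_neg (hx.2 _)]

lemma pa_gl_ext (u : E → ℝ) (v : Bool → E → ℝ) (w : E → ℝ) {x : E} (hx : 1 < NN x) :
    pa_gl u v w x = w x := by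
  unfold pa_gl; rw [if_pos hx]

lemma pa_cont_NN (hGE : GEStmt) : Continuous NN := by
  obtain ⟨K, hK⟩ := hGE.1; exact hK.continuous

lemma pa_cont_Sinv (hGE : GEStmt) (i : Bool) : Continuous (Sinv i) := by
  obtain ⟨R, -, -, h, -⟩ := hGE.2.2.2.2.2
  rw [funext (h i)]
  fun_prop

lemma pa_open_Ch (hGE : GEStmt) (i : Bool) : IsOpen (Ch i) :=
  isOpen_lt ((pa_cont_NN hGE).comp (pa_cont_Sinv hGE i)) continuous_const

lemma pa_gl_lip (hGE : GEStmt) (hGL : GLStmt) {u : E → ℝ} {v : Bool → E → ℝ} {w : E → ℝ}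
    (hu : Lip u) (hv : ∀ i, Lip (v i)) (hw : Lip w)
    (h1 : ∀ i x, NN (Sinv i x) = 1 → v i x = u x) (h2 : ∀ x, NN x = 1 → w x = u x) :
    Lip (pa_gl u v w) := by
  obtain ⟨Ku, hKu⟩ := hu
  obtain ⟨Kw, hKw⟩ := hw
  obtain ⟨K0, hK0⟩ := hv false
  obtain ⟨K1, hK1⟩ := hv true
  refine ⟨Ku + Kw + K0 + K1, lipschitzOnWith_univ.1 ?_⟩
  refine hGL (Option Bool) univ (fun o => o.elim {x | 1 < NN x} Ch) u (pa_gl u v w)
    (fun o => o.elim w v) _ convex_univ ?_ ?_ ?_ ?_ ?_ ?_ ?_
  · rintro (_ | i)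
    · exact isOpen_lt continuous_const (pa_cont_NN hGE)
    · exact pa_open_Ch hGE i
  · rintro (_ | i) (_ | j) hij
    · exact absurd rfl hij
    · exact Set.disjoint_left.2 fun x hx hx' => absurd (pa_ch_lt hGE (le_of_lt hx')) (not_lt.2 (le_of_lt hx))
    · exact Set.disjoint_left.2 fun x hx' hx => absurd (pa_ch_lt hGE (le_of_lt hx')) (not_lt.2 (le_of_lt hx))
    · exact Set.disjoint_left.2 fun x hx hx' => hij (by rw [pa_ch_ne hGE hx hx'])
  · exact (hKu.weaken (by simp [add_assoc])).lipschitzOnWith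
  · rintro (_ | _ | _)
    · exact (hKw.weaken (le_add_right (le_add_right le_add_self))).lipschitzOnWith
    · exact (hK0.weaken (le_add_right le_add_self)).lipschitzOnWith
    · exact (hK1.weaken le_add_self).lipschitzOnWith
  · rintro (_ | i) x hx
    · exact h2 x (frontier_lt_subset_eq continuous_const (pa_cont_NN hGE) hx.2).symm
    · exact h1 i x (frontier_lt_subset_eq ((pa_cont_NN hGE).comp (pa_cont_Sinv hGE i))
        continuous_const hx.2)
  · rintro (_ | i) x hx
    · exact pa_gl_ext u v w hx.2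
    · exact pa_gl_ch hGE u v w hx.2
  · intro x hx
    have h := hx.2
    simp only [mem_iUnion, not_exists] at h
    exact pa_gl_om u v w (pa_mem_Om.2 ⟨not_lt.1 (h none), fun i => h (some i)⟩)

open Classical in
/-- orientation sign -/
def pa_sg (x : E) : ℝ := if 0 < x 2 then -1 else 1

lemma pa_sg_meas : Measurable pa_sg := by
  unfold pa_sg
  exact Measurable.ite (measurableSet_lt measurable_const (lipschitz_X 2).continuous.measurable)
    measurable_const measurable_const

lemma pa_sg_abs (x : E) : |pa_sg x| = 1 := by unfold pa_sg; split_ifs <;> simp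

lemma pa_sg_ev {x : E} (hx : x 2 ≠ 0) : ∀ᶠ y in 𝓝 x, pa_sg y = pa_sg x := by
  have hc : ContinuousAt (fun y : E => y 2) x := (lipschitz_X 2).continuous.continuousAt
  rcases lt_or_gt_of_ne hx with h | h
  · filter_upwards [hc.eventually (gt_mem_nhds h)] with y hy
    unfold pa_sg
    rw [if_neg (not_lt.2 hy.le), if_neg (not_lt.2 h.le)]
  · filter_upwards [hc.eventually (lt_mem_nhds h)] with y hy
    unfold pa_sg
    rw [if_pos hy, if_pos h]

lemma pa_flux_meas {n : ℕ} (F G : Fin n → E → ℝ) : Measurable (flux F G) := by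
  unfold flux
  exact Finset.measurable_sum _ fun k _ => measurable_cross (measurable_grad _) (measurable_grad _)

lemma pa_flux_bd {n : ℕ} {F G : Fin n → E → ℝ} (hF : ∀ k, Lip (F k)) (hG : ∀ k, Lip (G k)) :
    ∃ C : ℝ, 0 ≤ C ∧ ∀ x, ‖flux F G x‖ ≤ C := by
  choose KF hKF using hF
  choose KG hKG using hG
  refine ⟨∑ k, (KF k : ℝ) * KG k, by positivity, fun x => (norm_sum_le _ _).trans
    (Finset.sum_le_sum fun k _ => (norm_cross_le _ _).trans ?_)⟩
  exact mul_le_mul (norm_grad_le (hKF k) x) (norm_grad_le (hKG k) x) (norm_nonneg _) (KF k).2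

lemma pa_wall (hWL : WLStmt) {n : ℕ} {F G : Fin n → E → ℝ} {φ : E → ℝ} (hF : ∀ k, Lip (F k))
    (hG : ∀ k, Lip (G k)) (hφ : Lip φ) (hc : HasCompactSupport φ)
    (h : ∀ k (x : E), x 2 = 0 → φ x ≠ 0 →
      (F k x = 0 ∨ F k x = Real.pi) ∨ (G k x = 0 ∨ G k x = Real.pi)) :
    ∫ x, ⟪pa_sg x • flux F G x, ∇ φ x⟫ = 0 := by
  have hint : ∀ k, Integrable (fun x => ⟪cross (∇ (F k) x) (∇ (G k) x), ∇ φ x⟫) := by
    intro k
    obtain ⟨KF, hKF⟩ := hF k
    obtain ⟨KG, hKG⟩ := hG k
    obtain ⟨K, hK⟩ := hφ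
    have hm : Measurable (fun x => ⟪cross (∇ (F k) x) (∇ (G k) x), ∇ φ x⟫) :=
      (measurable_cross (measurable_grad _) (measurable_grad _)).inner (measurable_grad _)
    refine (integrableOn_iff_integrable_of_support_subset (s := tsupport φ) ?_).1 ?_
    · intro x hx
      by_contra hx'
      refine hx ?_
      have : φ =ᶠ[𝓝 x] fun _ => 0 := notMem_tsupport_iff_eventuallyEq.1 hx'
      simp only
      rw [grad_congr this, grad_const, inner_zero_right]
    · refine Measure.integrableOn_of_bounded (M := KF * KG * K) hc.isCompact.measure_lt_top.ne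
        hm.aestronglyMeasurable (Eventually.of_forall fun x => ?_)
      refine (norm_inner_le_norm _ _).trans (mul_le_mul ((norm_cross_le _ _).trans ?_)
        (norm_grad_le hK x) (norm_nonneg _) (by positivity))
      exact mul_le_mul (norm_grad_le hKF x) (norm_grad_le hKG x) (norm_nonneg _) KF.2
  have m1 : MeasurableSet {x : E | 0 < x 2} :=
    measurableSet_lt measurable_const (lipschitz_X 2).continuous.measurable
  have m2 : MeasurableSet {x : E | x 2 < 0} :=
    measurableSet_lt (lipschitz_X 2).continuous.measurable measurable_const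
  have e : (fun x => ⟪pa_sg x • flux F G x, ∇ φ x⟫) =ᵐ[volume] fun x => ∑ k,
      ({x : E | x 2 < 0}.indicator (fun x => ⟪cross (∇ (F k) x) (∇ (G k) x), ∇ φ x⟫) x -
        {x : E | 0 < x 2}.indicator (fun x => ⟪cross (∇ (F k) x) (∇ (G k) x), ∇ φ x⟫) x) := by
    filter_upwards [ae_coord_ne 2 0] with x hx
    rw [real_inner_smul_left, flux, sum_inner, Finset.mul_sum]
    refine Finset.sum_congr rfl fun k _ => ?_
    unfold pa_sg
    rcases lt_or_gt_of_ne hx with h | h
    · rw [if_neg (not_lt.2 h.le), indicator_of_mem (show x ∈ {x : E | x 2 < 0} from h),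
        indicator_of_notMem (show x ∉ {x : E | 0 < x 2} from not_lt.2 h.le)]
      ring
    · rw [if_pos h, indicator_of_mem (show x ∈ {x : E | 0 < x 2} from h),
        indicator_of_notMem (show x ∉ {x : E | x 2 < 0} from not_lt.2 h.le)]
      ring
  rw [integral_congr_ae e, integral_finsetSum _ fun k _ =>
    ((hint k).indicator m2).sub' ((hint k).indicator m1)]
  refine Finset.sum_eq_zero fun k _ => ?_
  obtain ⟨a, b⟩ := hWL (F k) (G k) φ (hF k).locLip (hG k).locLip hφ hc (h k)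
  rw [integral_sub ((hint k).indicator m2) ((hint k).indicator m1), integral_indicator m2,
    integral_indicator m1, a, b, sub_zero]

lemma pa_flux_congr {n : ℕ} {F G F' G' : Fin n → E → ℝ} {x : E} (hF : ∀ k, F k =ᶠ[𝓝 x] F' k)
    (hG : ∀ k, G k =ᶠ[𝓝 x] G' k) : flux F G x = flux F' G' x := by
  unfold flux
  exact Finset.sum_congr rfl fun k _ => by rw [grad_congr (hF k), grad_congr (hG k)]

lemma pa_flux_one {n : ℕ} {F G : Fin (n + 1) → E → ℝ} {x : E}
    (hF : ∀ k : Fin n, F k.succ =ᶠ[𝓝 x] fun _ => 0) :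
    flux F G x = cross (∇ (F 0) x) (∇ (G 0) x) := by
  unfold flux
  rw [Fin.sum_univ_succ, Finset.sum_eq_zero fun k _ => by
    rw [grad_congr (hF k), grad_const, cross_zero_left], add_zero]

set_option maxHeartbeats 1600000 in
theorem PA_proof (hGL : GLStmt) (hWL : WLStmt) (hZL : ZLStmt) (hNP : NPStmt) (hST : STStmt)
    (hGB : GBStmt) (hPB : PBStmt) (hMD : MDStmt) (hGE : GEStmt) (hPK : PKStmt) : PAStmt := by
  classical
  obtain ⟨Λ, n, a, F, G, τ, M1, hτ, M2, M3, M4, -, M5, M6, M7⟩ := hMD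
  obtain ⟨κ, K, d, hd, hκ, Q1, Q2, P1, P2, P3⟩ := hPK
  obtain ⟨Λ', hΛ'⟩ := hPB Λ d K hd
  obtain ⟨Rr, hR1, hR2, hR3, hR4⟩ := hGE.2.2.2.2.2
  have hrho : 0 < rho := by unfold rho; norm_num
  have hSTi := fun i => hST Rr rho _ (Sinv i) hrho (hR3 i)
  have hLS : ∀ i {f : E → ℝ}, Lip f → Lip (fun x => f (Sinv i x)) := by
    intro i f ⟨L, hL⟩
    have := Lip.const_mul rho⁻¹ ⟨L, (hSTi i).2.2.2.2.2 f L hL⟩
    simpa [← mul_assoc, inv_mul_cancel₀ hrho.ne'] using this
  choose α β η hη M4 using M4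
  have cNN := pa_cont_NN hGE
  have cS := pa_cont_Sinv hGE
  have hτκ : Lip (fun x => τ (κ x)) := hτ.comp hκ
  have cτ := hτκ.continuous
  set O : Set E := {x | NN x < 1 ∧ ∀ i, 1 < NN (Sinv i x)} with hO
  have oO : IsOpen O := by
    rw [hO, ofPred_and, ofPred_forall]
    exact (isOpen_lt cNN continuous_const).inter
      (isOpen_iInter_of_finite fun i => isOpen_lt continuous_const (cNN.comp (cS i)))
  have OOm : ∀ x ∈ O, x ∈ Om := fun x hx =>
    pa_mem_Om.2 ⟨hx.1.le, fun i => not_lt.2 (hx.2 i).le⟩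
  set B : Set E := {x | x ∈ O ∧ τ (κ x) < 1} with hB
  set R : Set E := {x | x ∈ O ∧ 1 < τ (κ x)} with hR
  have oB : IsOpen B := oO.inter (isOpen_lt cτ continuous_const)
  have oR : IsOpen R := oO.inter (isOpen_lt continuous_const cτ)
  have hmin : Lip (fun x => min (τ (κ x)) 1) := by
    obtain ⟨L, hL⟩ := hτκ
    exact ⟨L, hL.min_const 1⟩
  -- boundary facts
  have b1 : ∀ i x, NN (Sinv i x) = 1 → a i (κ x) = α i ∧ a (!i) (κ x) = β i ∧
      F i 0 (κ x) = Real.pi / 2 * (1 - (x 0 - cen i) / rho) ∧ F (!i) 0 (κ x) = η i ∧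
      1 < τ (κ x) ∧ ∀ i' k, F i' (Fin.succ k) (κ x) = 0 := by
    intro i x hx
    obtain ⟨h1, h2, h3, -⟩ := P2 i x hx
    have := M4 i (κ x) (P1 x h1).1 (by rw [h2]; exact h3)
    rwa [h2] at this
  have b2 : ∀ x, NN x = 1 → τ (κ x) = 0 ∧
      F false 0 (κ x) = Real.pi / 2 * (1 - (x 0 + cc) / LL) := by
    intro x hx
    obtain ⟨h1, h2, h3, -⟩ := P3 x hx
    have := M7 (κ x) (P1 x h1).1 (by rw [h2]; exact h3)
    rwa [h2] at this
  -- a.e. regularity of the chart
  have hreg : ∀ᵐ x : E, NN x ≤ 1 → x 2 ≠ 0 ∧ ContDiffAt ℝ 1 κ x ∧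
      d ≤ pa_sg x * (fderiv ℝ κ x).det ∧ ‖fderiv ℝ κ x‖ ≤ K := by
    filter_upwards [Q1, Q2, ae_coord_ne 2 0] with x h1 h2 h3 hx
    refine ⟨h3, ?_⟩
    unfold pa_sg
    rcases lt_or_gt_of_ne h3 with h | h
    · rw [if_neg (not_lt.2 h.le)]; exact h2 ⟨hx, h⟩
    · rw [if_pos h]; exact h1 ⟨hx, h⟩
  have hpre : ∀ Z : Set E, volume Z = 0 → ∀ᵐ x : E, NN x ≤ 1 → κ x ∉ Z := by
    intro Z hZ
    filter_upwards [hreg, hNP.1 κ Z hZ] with x h1 h2 hx
    obtain ⟨-, h3, h4, -⟩ := h1 hx
    refine h2 h3 fun h0 => ?_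
    rw [h0] at h4; linarith
  have hgood : ∀ᵐ x : E, x ∈ Om → x 2 ≠ 0 ∧ Good Λ' (fun i y => a i (κ y))
      (fun i y => pa_sg x • flux (fun k y => F i k (κ y)) (fun k y => G i k (κ y)) y) x := by
    filter_upwards [hreg, hpre _ (ae_iff.1 M2)] with x h1 h2 hx
    obtain ⟨h3, h4, h5, h6⟩ := h1 hx.1
    have h7 : DGood Λ 1 a F G (κ x) := by
      by_contra h
      exact h2 hx.1 fun h' => h (h' (P1 x hx).1)
    have h8 := (hΛ' Bool (n + 1) 1 (pa_sg x) a F G κ x
      (by unfold pa_sg; split_ifs <;> simp) h4 h5 h6 h7).1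
    rw [mul_one] at h8
    exact ⟨h3, h8⟩
  have hcover : ∀ᵐ x : E, NN x < 1 → x ∈ B ∪ R ∪ Ch false ∪ Ch true := by
    have h1 : ∀ᵐ y : E, NN y ≠ 1 := by
      rw [ae_iff]; simpa using hGE.2.1
    filter_upwards [hpre _ M5, (hSTi false).2.2.2.1 _ h1, (hSTi true).2.2.2.1 _ h1]
      with x h2 h3 h4 hx
    by_cases c0 : x ∈ Ch false
    · exact Or.inl (Or.inr c0)
    by_cases c1 : x ∈ Ch true
    · exact Or.inr c1
    have hxO : x ∈ O := ⟨hx, fun i => by
      cases i
      · exact lt_of_le_of_ne (not_lt.1 c0) h3.symm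
      · exact lt_of_le_of_ne (not_lt.1 c1) h4.symm⟩
    have h5 : τ (κ x) ≠ 1 := fun h => h2 hx.le ⟨(P1 x (OOm x hxO)).1, h⟩
    rcases lt_or_gt_of_ne h5 with h | h
    · exact Or.inl (Or.inl (Or.inl ⟨hxO, h⟩))
    · exact Or.inl (Or.inl (Or.inr ⟨hxO, h⟩))
  set fl : Bool → E → E := fun i => flux (fun k y => F i k (κ y)) (fun k y => G i k (κ y)) with hfl
  have hflb : ∀ i, ∃ C : ℝ, 0 ≤ C ∧ ∀ x, ‖fl i x‖ ≤ C := fun i =>
    pa_flux_bd (fun k => ((M1 i).2.2 k).1.comp hκ) (fun k => ((M1 i).2.2 k).2.comp hκ)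
  choose C hC0 hC using hflb
  have hCi : ∀ i, C i ≤ C false + C true := fun i => by
    have := hC0 false; have := hC0 true
    cases i <;> linarith
  have hind : ∀ (S : Set E) i x, ‖S.indicator (fun x => pa_sg x • fl i x) x‖ ≤ C false + C true := by
    intro S i x
    refine (norm_indicator_le_norm_self _ _).trans ?_
    rw [norm_smul, Real.norm_eq_abs, pa_sg_abs, one_mul]
    exact (hC i x).trans (hCi i)
  have hmeas : ∀ (S : Set E), IsOpen S → ∀ i,
      Measurable (S.indicator (fun x => pa_sg x • fl i x)) := fun S hS i =>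
    (pa_sg_meas.smul (pa_flux_meas _ _)).indicator hS.measurableSet
  have hBev : ∀ x ∈ B, ∀ᶠ y in 𝓝 x, y ∈ B ∧ y ∈ Om ∧ ∀ i, a i (κ y) = τ (κ y) ∧
      F i 0 (κ y) = F false 0 (κ y) ∧ ∀ k, F i (Fin.succ k) (κ y) = 0 := by
    intro x hx
    filter_upwards [oB.mem_nhds hx] with y hy
    exact ⟨hy, OOm y hy.1, M6 (κ y) (P1 y (OOm y hy.1)).1 hy.2.le⟩
  have hflB : ∀ x ∈ B, ∀ i, fl i x =
      cross (∇ (fun y => F false 0 (κ y)) x) (∇ (fun y => κ y 1) x) := by
    intro x hx i
    rw [hfl]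
    simp only
    rw [pa_flux_one fun k => (hBev x hx).mono fun y hy => (hy.2.2 i).2.2 k,
      grad_congr (g := fun y => F false 0 (κ y)) ((hBev x hx).mono fun y hy => (hy.2.2 i).2.1),
      (M1 i).2.1]
    rfl
  refine ⟨Λ', B, R, pa_gl (fun x => min (τ (κ x)) 1) (fun _ _ => 1) (fun _ => 0),
    B.indicator (fun x => pa_sg x • fl false x),
    fun i => pa_gl (fun x => a i (κ x) - min (τ (κ x)) 1)
      (fun k _ => (if i = k then α k else β k) - 1) (fun _ => 0),
    fun i => R.indicator (fun x => pa_sg x • fl i x), C false + C true,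
    oB, oR, fun x hx => hx.1.1, fun x hx => hx.1.1,
    Set.disjoint_left.2 fun x hx hx' => lt_asymm hx.2 hx'.2,
    fun i => ⟨Set.disjoint_left.2 fun x hx hx' => lt_asymm (hx.1.2 i) hx',
      Set.disjoint_left.2 fun x hx hx' => lt_asymm (hx.1.2 i) hx'⟩,
    ?_, ?_, ?_, ?_, hmeas B oB false, hind B false, fun x hx => indicator_of_notMem hx _,
    fun i => ⟨?_, ?_, ?_, fun k => ⟨_, fun x hx => pa_gl_ch hGE _ _ _ hx⟩, hmeas R oR i, hind R i,
      fun x hx => indicator_of_notMem hx _⟩, ?_, ?_, ?_⟩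
  · refine measure_mono_null (fun x hx => ?_) (ae_iff.1 hcover)
    exact fun h => hx.2 (h hx.1)
  · refine pa_gl_lip hGE hGL hmin (fun _ => Lip.const _) (Lip.const _) (fun i x hx => ?_)
      fun x hx => ?_
    · rw [min_eq_right (b1 i x hx).2.2.2.2.1.le]
    · rw [(b2 x hx).1]; simp
  · intro x hx
    rcases (not_lt.1 hx : 1 ≤ NN x).lt_or_eq with h | h
    · exact pa_gl_ext _ _ _ h
    · rw [pa_gl_om _ _ _ (P3 x h.symm).1, (b2 x h.symm).1]; simp
  · intro x hx hxB
    by_cases c : ∃ i, x ∈ Ch i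
    · obtain ⟨i, hi⟩ := c
      exact pa_gl_ch hGE _ _ _ hi
    push Not at c
    rw [pa_gl_om _ _ _ (pa_mem_Om.2 ⟨le_of_lt hx, c⟩)]
    refine min_eq_right ?_
    by_contra h
    refine hxB ⟨⟨hx, fun i => lt_of_le_of_ne (not_lt.1 (c i)) fun e => ?_⟩, not_le.1 h⟩
    exact h (b1 i x e.symm).2.2.2.2.1.le
  · refine pa_gl_lip hGE hGL (((M1 i).1.comp hκ).sub hmin) (fun _ => Lip.const _) (Lip.const _)
      (fun k x hx => ?_) fun x hx => ?_
    · obtain ⟨h1, h2, -, -, h3, -⟩ := b1 k x hx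
      rw [min_eq_right h3.le]
      split_ifs with h
      · rw [h, h1]
      · rw [show i = !k by cases i <;> cases k <;> simp_all, h2]
    · have h1 := (b2 x hx).1
      rw [(M6 (κ x) (P1 x (P3 x hx).1).1 (by rw [h1]; norm_num) i).1, h1]; simp
  · intro x hx
    rcases (not_lt.1 hx : 1 ≤ NN x).lt_or_eq with h | h
    · exact pa_gl_ext _ _ _ h
    · have h1 := (b2 x h.symm).1
      dsimp only
      rw [pa_gl_om _ _ _ (P3 x h.symm).1,
        (M6 (κ x) (P1 x (P3 x h.symm).1).1 (by rw [h1]; norm_num) i).1, h1]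
      simp
  · intro x hx
    dsimp only
    rw [pa_gl_om _ _ _ (OOm x hx.1), (M6 (κ x) (P1 x (OOm x hx.1)).1 hx.2.le i).1,
      min_eq_left hx.2.le, sub_self]
  · filter_upwards [hgood] with x h hx
    obtain ⟨h1, h2⟩ := h (OOm x hx.1)
    refine hGB.2.2.2.1 Bool Unit Λ' _ _ _ _ x h2 fun _ => ⟨0, fun i => if i = false then 1 else 0, ?_⟩
    filter_upwards [hBev x hx, pa_sg_ev h1] with y hy hy'
    rw [pa_gl_om _ _ _ hy.2.1, indicator_of_mem hy.1, min_eq_left hy.1.2.le, hy']
    simp [(hy.2.2 false).1, hfl]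
  · filter_upwards [hgood] with x h hx
    obtain ⟨h1, h2⟩ := h (OOm x hx.1)
    refine hGB.2.2.2.1 Bool Bool Λ' _ _ _ _ x h2 fun i => ⟨-1, fun j => if j = i then 1 else 0, ?_⟩
    filter_upwards [oR.mem_nhds hx, pa_sg_ev h1] with y hy hy'
    rw [pa_gl_om _ _ _ (OOm y hy.1), indicator_of_mem hy, min_eq_right hy.2.le, hy']
    constructor
    · cases i <;> simp <;> ring
    · cases i <;> simp [hfl]
  · intro i φ hφ hφ0 hφ1
    have hκ1 : Lip (fun y => κ y 1) := Lip.comp (f := X 1) ⟨1, lipschitz_X 1⟩ hκ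
    have hF0 : Lip (fun y => F false 0 (κ y)) := ((M1 false).2.2 0).1.comp hκ
    set Ft : Fin (n + 1) → E → ℝ := fun k => pa_gl (fun y => F i k (κ y))
      (fun j y => if k = 0 then (if j = i then κ (Sinv i y) 1 else η j) else 0)
      (fun y => F i k (κ y)) with hFt
    set Gt : Fin (n + 1) → E → ℝ := fun k => pa_gl (fun y => G i k (κ y))
      (fun j y => if k = 0 ∧ j = i then F false 0 (κ (Sinv i y)) else G i k (κ y))
      (fun y => G i k (κ y)) with hGt
    have lF : ∀ k, Lip (Ft k) := by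
      intro k
      have h0 := ((M1 i).2.2 k).1.comp hκ
      refine pa_gl_lip hGE hGL h0 (fun j => ?_) h0 (fun j x hx => ?_) fun _ _ => rfl
      · split_ifs
        · exact hLS i hκ1
        · exact Lip.const _
        · exact Lip.const _
      · obtain ⟨-, -, h1, h2, -, h3⟩ := b1 j x hx
        split_ifs with hk hj
        · subst hk; subst hj
          rw [h1, (P3 _ hx).2.2.2]
          simp [Sinv]
        · subst hk
          rw [show i = !j by cases i <;> cases j <;> simp_all, h2]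
        · obtain ⟨k', rfl⟩ := Fin.exists_succ_eq.2 hk
          rw [h3]
    have lG : ∀ k, Lip (Gt k) := by
      intro k
      have h0 := ((M1 i).2.2 k).2.comp hκ
      refine pa_gl_lip hGE hGL h0 (fun j => ?_) h0 (fun j x hx => ?_) fun _ _ => rfl
      · split_ifs
        · exact hLS i hF0
        · exact h0
      · split_ifs with hk
        · obtain ⟨rfl, rfl⟩ := hk
          rw [(b2 _ hx).2, (M1 j).2.1, X_apply, (P2 j x hx).2.2.2]
          simp [Sinv, rho, LL, N1]
          ring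
        · rfl
    have hcs : HasCompactSupport φ := by
      refine HasCompactSupport.intro (isCompact_closedBall (0 : E) (27 / 10)) fun x hx =>
        hφ0 x fun hx' => hx ?_
      rw [mem_closedBall, dist_zero_right]
      exact (hGE.2.2.1 x (le_of_lt hx')).le
    have hS2 : ∀ x, Sinv i x 2 = x 2 / rho := fun x => by simp [Sinv]
    have hw := pa_wall hWL lF lG hφ hcs (fun k x hx2 hx => by
      have hxU : NN x < 1 := by
        by_contra h; exact hx (hφ0 x h)
      by_cases c : ∃ j, x ∈ Ch j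
      · obtain ⟨j, hj⟩ := c
        rw [hFt, hGt]
        simp only
        rw [pa_gl_ch hGE _ _ _ hj, pa_gl_ch hGE _ _ _ hj]
        by_cases hk : k = 0
        · by_cases hji : j = i
          · subst hji
            have hB' : Sinv j x ∈ B := by
              by_contra h; exact hx (hφ1 x hj h)
            have h1 := P1 _ (OOm _ hB'.1)
            have h2 := M3 _ h1.1 (h1.2 (by rw [hS2, hx2, zero_div])) false 0
            rw [(M1 false).2.1, X_apply] at h2
            simp only [hk, if_true, and_self]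
            exact h2.symm
          · simp only [hk, if_true, hji, if_false]
            exact Or.inl (hη j)
        · simp [hk]
      · push Not at c
        have hxO := pa_mem_Om.2 ⟨hxU.le, c⟩
        rw [hFt, hGt]
        simp only
        rw [pa_gl_om _ _ _ hxO, pa_gl_om _ _ _ hxO]
        exact M3 _ (P1 x hxO).1 ((P1 x hxO).2 hx2) i k)
    rw [← hw]
    refine integral_congr_ae ?_
    have hOfl : ∀ x ∈ O, flux Ft Gt x = fl i x := fun x hx =>
      pa_flux_congr (fun k => (oO.eventually_mem hx).mono fun y hy => pa_gl_om _ _ _ (OOm y hy))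
        (fun k => (oO.eventually_mem hx).mono fun y hy => pa_gl_om _ _ _ (OOm y hy))
    have hpush : ∀ x, Sinv i x ∉ B →
        push i (B.indicator fun x => pa_sg x • fl false x) x = 0 := fun x hx => by
      rw [push, indicator_of_notMem hx, ← hR1, map_zero, smul_zero]
    filter_upwards [hcover, hZL.2.1 φ (fun _ => 0) hφ.locLip (Lip.const 0).locLip] with x hx hz
    by_cases hφx : ∇ φ x = 0
    · rw [hφx, inner_zero_right, inner_zero_right]
    have hφx' : φ x ≠ 0 := fun h => hφx (by rw [hz h, grad_const])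
    have hxU : NN x < 1 := by
      by_contra h; exact hφx' (hφ0 x h)
    congr 1
    have hch : ∀ j, x ∈ Ch j → B.indicator (fun x => pa_sg x • fl false x) x +
        R.indicator (fun x => pa_sg x • fl i x) x +
        push i (B.indicator fun x => pa_sg x • fl false x) x = pa_sg x • flux Ft Gt x := by
      intro j hj
      have hev := (pa_open_Ch hGE j).eventually_mem hj
      rw [indicator_of_notMem (fun h => lt_asymm (h.1.2 j) hj),
        indicator_of_notMem (fun h => lt_asymm (h.1.2 j) hj), zero_add, zero_add,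
        pa_flux_one (F := Ft) fun k => hev.mono fun y hy => by
          rw [hFt]; simp only; rw [pa_gl_ch hGE _ _ _ hy, if_neg (Fin.succ_ne_zero k)]]
      by_cases hji : j = i
      · subst hji
        have hB' : Sinv j x ∈ B := by
          by_contra h; exact hφx' (hφ1 x hj h)
        have e1 : ∇ (Ft 0) x = rho⁻¹ • sw (∇ (fun y => κ y 1) (Sinv j x)) := by
          rw [← hR2, ← (hSTi j).2.2.1]
          refine grad_congr (hev.mono fun y hy => ?_)
          rw [hFt]; simp only; rw [pa_gl_ch hGE _ _ _ hy]; simp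
        have e2 : ∇ (Gt 0) x = rho⁻¹ • sw (∇ (fun y => F false 0 (κ y)) (Sinv j x)) := by
          rw [← hR2, ← (hSTi j).2.2.1]
          refine grad_congr (hev.mono fun y hy => ?_)
          rw [hGt]; simp only; rw [pa_gl_ch hGE _ _ _ hy]; simp
        have e3 : pa_sg (Sinv j x) = pa_sg x := by
          unfold pa_sg
          rw [hS2]
          simp [div_pos_iff_of_pos_right, hrho]
        rw [push, indicator_of_mem hB', hflB _ hB', e1, e2, e3]
        apply ext3 <;> simp <;> ring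
      · rw [hpush x fun h => hji (pa_ch_ne hGE hj h.1.1),
          grad_congr (g := fun _ => η j) (hev.mono fun y hy => by
            rw [hFt]; simp only; rw [pa_gl_ch hGE _ _ _ hy]; simp [hji]),
          grad_const, cross_zero_left, smul_zero]
    rcases hx hxU with ((h | h) | h) | h
    · rw [indicator_of_mem h, indicator_of_notMem (fun h' => lt_asymm h.2 h'.2),
        hpush x fun h' => lt_asymm (h.1.2 i) h'.1.1, hOfl x h.1, hflB x h, hflB x h]
      simp
    · rw [indicator_of_mem h, indicator_of_notMem (fun h' => lt_asymm h.2 h'.2),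
        hpush x fun h' => lt_asymm (h.1.2 i) h'.1.1, hOfl x h.1]
      simp
    · exact hch _ h
    · exact hch _ h

end Crest.Agent.R83
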