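import Crest.Agent.R83.Basic

/-! Row 83, task PB: pull-back of `DGood`. -/

set_option autoImplicit false

noncomputable section

namespace Crest.Agent.R83

open MeasureTheory Set Filter Topology Metric
open scoped Gradient RealInnerProductSpace NNReal

lemma pb_ev {f : E → ℝ} {q : E} (h : ContDiffAt ℝ 1 f q) :
    ∀ᶠ y in 𝓝 q, DifferentiableAt ℝ f y :=
  (h.eventually (by simp)).mono fun _ hy => hy.differentiableAt (by simp)

theorem PB_proof (hCF : CFStmt) : PBStmt := by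
  intro Λ d K hd
  refine ⟨|Λ| * (1 + K ^ 2 + 36 * K ^ 4) / d, ?_⟩
  intro ι _ n s σ u F G κ x hσ hκ hdet hK ⟨hG, hFG⟩
  refine ⟨?_, fun i k => ⟨(hFG i k).1.comp x hκ, (hFG i k).2.comp x hκ⟩⟩
  obtain ⟨v₁, v₂, α, β, δ, h1, h2, h3, h4, h5, hE, hu⟩ := hG
  choose cof hc1 hc2 hc3 using hCF.1
  have hκc : ContinuousAt κ x := hκ.continuousAt
  have hκd : ∀ᶠ y in 𝓝 x, DifferentiableAt ℝ κ y :=
    (hκ.eventually (by simp)).mono fun _ hy => hy.differentiableAt (by simp)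
  have hJ : ∀ᶠ y in 𝓝 x,
      J1 (fun y => v₁ (κ y)) (fun y => v₂ (κ y)) (fun y => σ * α (κ y)) (fun y => σ * β (κ y)) y =
        σ • cof (fderiv ℝ κ y) (J1 v₁ v₂ α β (κ y)) ∧
      J2 (fun y => v₁ (κ y)) (fun y => v₂ (κ y)) (fun y => σ * β (κ y)) (fun y => σ * δ (κ y)) y =
        σ • cof (fderiv ℝ κ y) (J2 v₁ v₂ β δ (κ y)) := by
    filter_upwards [hκd, hκc.eventually (pb_ev h1), hκc.eventually (pb_ev h2),
      hκc.eventually (pb_ev h3), hκc.eventually (pb_ev h4), hκc.eventually (pb_ev h5)]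
      with y d0 d1 d2 d3 d4 d5
    unfold J1 J2
    rw [grad_const_mul, grad_const_mul, grad_const_mul, hCF.2.2 _ κ y d0 d1, hCF.2.2 _ κ y d0 d2,
      hCF.2.2 _ κ y d0 d3, hCF.2.2 _ κ y d0 d4, hCF.2.2 _ κ y d0 d5]
    simp only [cross_smul_left, hc1, map_sub, smul_sub, and_self]
  refine ⟨fun y => v₁ (κ y), fun y => v₂ (κ y), fun y => σ * α (κ y), fun y => σ * β (κ y),
    fun y => σ * δ (κ y), h1.comp x hκ, h2.comp x hκ, contDiffAt_const.mul (h3.comp x hκ),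
    contDiffAt_const.mul (h4.comp x hκ), contDiffAt_const.mul (h5.comp x hκ), ?_, fun i => ?_⟩
  · obtain ⟨e1, e2⟩ := hJ.self_of_nhds
    have d0 := hκd.self_of_nhds
    rw [e1, e2, hCF.2.2 _ κ x d0 (pb_ev h1).self_of_nhds, hCF.2.2 _ κ x d0 (pb_ev h2).self_of_nhds]
    obtain ⟨hΛ, hE⟩ := hE
    refine ⟨by positivity, fun a b hab => ?_⟩
    have h := hE a b hab
    set L := fderiv ℝ κ x with hL
    have f1 : a • L.adjoint (∇ v₁ (κ x)) + b • L.adjoint (∇ v₂ (κ x)) =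
        L.adjoint (a • ∇ v₁ (κ x) + b • ∇ v₂ (κ x)) := by simp
    have f2 : a • σ • cof L (J1 v₁ v₂ α β (κ x)) + b • σ • cof L (J2 v₁ v₂ β δ (κ x)) =
        σ • cof L (a • J1 v₁ v₂ α β (κ x) + b • J2 v₁ v₂ β δ (κ x)) := by
      simp only [map_add, map_smul, smul_add, smul_comm σ]
    rw [f1, f2]
    generalize a • ∇ v₁ (κ x) + b • ∇ v₂ (κ x) = P at h ⊢
    generalize a • J1 v₁ v₂ α β (κ x) + b • J2 v₁ v₂ β δ (κ x) = J at h ⊢
    rw [real_inner_smul_right, hc2, norm_smul, abs_of_pos hΛ]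
    have hs : ‖σ‖ = 1 := by rcases hσ with rfl | rfl <;> simp
    have hK0 : 0 ≤ K := (norm_nonneg _).trans hK
    have g1 : ‖L.adjoint P‖ ≤ K * ‖P‖ := by
      refine (L.adjoint.le_opNorm P).trans ?_
      rw [LinearIsometryEquiv.norm_map]; gcongr
    have g2 : ‖cof L J‖ ≤ 6 * K ^ 2 * ‖J‖ := (hc3 L J).trans (by gcongr)
    have g3 : ‖L.adjoint P‖ ^ 2 ≤ (K * ‖P‖) ^ 2 := by gcongr
    have g4 : ‖cof L J‖ ^ 2 ≤ (6 * K ^ 2 * ‖J‖) ^ 2 := by gcongr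
    have g5 : 0 < ⟪P, J⟫ := by
      have : 0 < Λ * ⟪P, J⟫ := lt_of_le_of_lt (by positivity) h
      exact (mul_pos_iff_of_pos_left hΛ).1 this
    have g6 : 0 < 1 + K ^ 2 + 36 * K ^ 4 := by positivity
    rw [hs, one_mul]
    calc _ ≤ (1 + K ^ 2 + 36 * K ^ 4) * (‖P‖ ^ 2 + ‖J‖ ^ 2) := by
          have := sq_nonneg ‖P‖
          have := sq_nonneg ‖J‖
          have : 0 ≤ K ^ 4 * ‖P‖ ^ 2 := by positivity
          have : 0 ≤ K ^ 2 * ‖J‖ ^ 2 := by positivity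
          nlinarith
      _ < (1 + K ^ 2 + 36 * K ^ 4) * (Λ * ⟪P, J⟫) := by gcongr
      _ = Λ * (1 + K ^ 2 + 36 * K ^ 4) / d * (d * ⟪P, J⟫) := by field_simp
      _ ≤ _ := by rw [← mul_assoc σ]; gcongr
  · obtain ⟨c₀, c₁, c₂, h⟩ := hu i
    refine ⟨c₀, c₁, c₂, ?_⟩
    have hall : ∀ᶠ y in 𝓝 (κ x), ∀ k, DifferentiableAt ℝ (F i k) y ∧ DifferentiableAt ℝ (G i k) y :=
      eventually_all.2 fun k => (pb_ev (hFG i k).1).and (pb_ev (hFG i k).2)
    filter_upwards [hJ, hκd, hκc.eventually h, hκc.eventually hall] with y e d0 e' d1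
    refine ⟨e'.1, ?_⟩
    have e3 : flux (fun k y => F i k (κ y)) (fun k y => G i k (κ y)) y =
        cof (fderiv ℝ κ y) (flux (F i) (G i) (κ y)) := by
      unfold flux
      rw [map_sum]
      refine Finset.sum_congr rfl fun k _ => ?_
      rw [hCF.2.2 _ κ y d0 (d1 k).1, hCF.2.2 _ κ y d0 (d1 k).2, hc1]
    rw [e.1, e.2, e3, mul_smul, ← map_smul, e'.2]
    simp only [map_add, map_smul, smul_add, smul_comm σ]

end Crest.Agent.R83
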