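import Crest.Agent.R83.LA

/-! Row 83, task PK: the map to the model. -/

set_option autoImplicit false

noncomputable section

namespace Crest.Agent.R83

open MeasureTheory Set Filter Topology Metric
open scoped Gradient RealInnerProductSpace NNReal

/-- affine near `x` -/
def AffAt (f : E → ℝ) (x : E) : Prop := ∃ (L : E →L[ℝ] ℝ) (c : ℝ), f =ᶠ[𝓝 x] fun y => L y + c

/-- Lipschitz and affine near almost every point -/
def PwA (f : E → ℝ) : Prop := Lip f ∧ ∀ᵐ x, AffAt f x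

lemma AffAt.cd {f : E → ℝ} {x : E} (h : AffAt f x) : ContDiffAt ℝ 1 f x := by
  obtain ⟨L, c, h⟩ := h
  exact (L.contDiff.add contDiff_const).contDiffAt.congr_of_eventuallyEq h

lemma AffAt.hg {f : E → ℝ} {x : E} (h : AffAt f x) : HG f x (∇ f x) :=
  HG.of_diff (h.cd.differentiableAt (by norm_num))

lemma AffAt.congr {f g : E → ℝ} {x : E} (h : AffAt f x) (e : g =ᶠ[𝓝 x] f) : AffAt g x := by
  obtain ⟨L, c, h⟩ := h
  exact ⟨L, c, e.trans h⟩

namespace PwA

variable {f g : E → ℝ}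

lemma const (c : ℝ) : PwA (fun _ => c) :=
  ⟨Lip.const c, Eventually.of_forall fun _ => ⟨0, c, Eventually.of_forall fun _ => by simp⟩⟩

lemma X (i : Fin 3) : PwA (fun y : E => y i) :=
  ⟨⟨1, lipschitz_X i⟩, Eventually.of_forall fun _ =>
    ⟨EuclideanSpace.proj i, 0, Eventually.of_forall fun _ => by simp⟩⟩

lemma add (hf : PwA f) (hg : PwA g) : PwA (fun y => f y + g y) := by
  refine ⟨hf.1.add hg.1, ?_⟩
  filter_upwards [hf.2, hg.2] with x ⟨L, c, h⟩ ⟨L', c', h'⟩
  refine ⟨L + L', c + c', ?_⟩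
  filter_upwards [h, h'] with y e e'
  simp only [e, e', _root_.add_apply]; ring

lemma const_mul (a : ℝ) (hf : PwA f) : PwA (fun y => a * f y) := by
  refine ⟨hf.1.const_mul a, ?_⟩
  filter_upwards [hf.2] with x ⟨L, c, h⟩
  refine ⟨a • L, a * c, ?_⟩
  filter_upwards [h] with y e
  simp only [e, _root_.smul_apply, smul_eq_mul]; ring

lemma mul_const (a : ℝ) (hf : PwA f) : PwA (fun y => f y * a) := by
  simpa only [mul_comm] using hf.const_mul a

lemma div_const (a : ℝ) (hf : PwA f) : PwA (fun y => f y / a) := by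
  simpa only [div_eq_mul_inv] using hf.mul_const a⁻¹

lemma neg (hf : PwA f) : PwA (fun y => -f y) := by
  simpa only [neg_one_mul] using hf.const_mul (-1)

lemma sub (hf : PwA f) (hg : PwA g) : PwA (fun y => f y - g y) := by
  simpa only [sub_eq_add_neg] using hf.add hg.neg

lemma max_ae (hZ : ZLStmt) (hf : PwA f) (hg : PwA g) : ∀ᵐ x,
    (fun y => max (f y) (g y)) =ᶠ[𝓝 x] f ∨ (fun y => max (f y) (g y)) =ᶠ[𝓝 x] g := by
  have hc := (hf.sub hg).1.continuous
  have := hZ.1 _ hc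
  rw [← compl_mem_ae_iff] at this
  filter_upwards [this, (hf.sub hg).2] with x hx ⟨L, c, h⟩
  rcases lt_trichotomy (f x - g x) 0 with h0 | h0 | h0
  · right
    filter_upwards [(isOpen_lt hc continuous_const).mem_nhds h0] with y hy
    exact max_eq_right (by have : f y - g y < 0 := hy; linarith)
  · left
    have h1 : fderiv ℝ (fun y => f y - g y) x = 0 := by
      by_contra h2
      exact hx ⟨h0, h2⟩
    rw [h.fderiv_eq, (L.hasFDerivAt.add_const c).fderiv] at h1
    have h2 := h.self_of_nhds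
    simp only [h1, _root_.zero_apply, zero_add] at h2 h
    filter_upwards [h] with y hy
    exact max_eq_left (by linarith)
  · left
    filter_upwards [(isOpen_lt continuous_const hc).mem_nhds h0] with y hy
    exact max_eq_left (by have : 0 < f y - g y := hy; linarith)

lemma max (hZ : ZLStmt) (hf : PwA f) (hg : PwA g) : PwA (fun y => max (f y) (g y)) := by
  refine ⟨?_, ?_⟩
  · obtain ⟨K, hK⟩ := hf.1
    obtain ⟨L, hL⟩ := hg.1
    exact ⟨_, hK.max hL⟩
  · filter_upwards [max_ae hZ hf hg, hf.2, hg.2] with x h h1 h2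
    exact h.elim h1.congr h2.congr

lemma abs (hZ : ZLStmt) (hf : PwA f) : PwA (fun y => |f y|) := by
  simpa only [abs_eq_max_neg] using max hZ hf hf.neg

lemma n1 (hZ : ZLStmt) (hf : PwA f) : PwA (fun y => n1 (f y)) :=
  max hZ (hf.div_const _) (hf.neg.div_const _)

end PwA

lemma grad_indep {H : E → ℝ} {i : Fin 3} (h : ∀ (y : E) (t : ℝ), H (y + t • ee i) = H y) (y : E) :
    ∇ H y i = 0 := by
  rw [grad_apply]
  by_cases hd : DifferentiableAt ℝ H y
  · have h1 := hd.hasFDerivAt.hasLineDerivAt (ee i)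
    unfold HasLineDerivAt at h1
    simp only [h] at h1
    exact h1.unique (hasDerivAt_const _ _)
  · simp [fderiv_zero_of_not_differentiableAt hd]

/-- height of child `c` -/
def pkG (c ξ s : ℝ) : ℝ := max (rho - max (rho * n1 (s - cc)) |ξ - c|) 0
/-- floor -/
def pkNb (ξ η : ℝ) : ℝ := max (n1 ξ) (|η| * N1) + (pkG (-cc) ξ (LL * η) + pkG cc ξ (LL * η))
/-- third coordinate -/
def pkZ (ξ η ν : ℝ) : ℝ := max (200 * (ν - max N1 (n1 ξ))) (ν - (pkNb ξ η - tent ξ))

lemma pk_G0 (c ξ s : ℝ) : 0 ≤ pkG c ξ s := le_max_right _ _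

lemma pk_n1 (ξ : ℝ) : ξ / (27 / 20) ≤ n1 ξ ∧ -ξ / (49 / 20) ≤ n1 ξ ∧ 0 ≤ n1 ξ ∧
    (n1 ξ = ξ / (27 / 20) ∨ n1 ξ = -ξ / (49 / 20)) := by
  have h1 : ξ / (27 / 20) ≤ n1 ξ := le_max_left _ _
  have h2 : -ξ / (49 / 20) ≤ n1 ξ := le_max_right _ _
  exact ⟨h1, h2, by linarith, max_choice _ _⟩

lemma pk_Gz {c ξ : ℝ} (s : ℝ) (h : rho ≤ |ξ - c|) : pkG c ξ s = 0 :=
  max_eq_right (by linarith [le_max_right (rho * n1 (s - cc)) |ξ - c|])

lemma pk_far (ξ : ℝ) : rho ≤ |ξ - -cc| ∨ rho ≤ |ξ - cc| := by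
  have h1 := le_abs_self (ξ - -cc)
  have h2 := neg_abs_le (ξ - cc)
  by_contra h
  push Not at h
  simp only [rho, cc] at *
  linarith [h.1, h.2]

lemma pk_tent (ξ : ℝ) : tent ξ = max (rho - |ξ - -cc|) 0 + max (rho - |ξ - cc|) 0 := by
  rw [tent, sub_neg_eq_add]

lemma pk_tent_z {ξ : ℝ} (h1 : rho ≤ |ξ - -cc|) (h2 : rho ≤ |ξ - cc|) : tent ξ = 0 := by
  rw [pk_tent, max_eq_right (by linarith), max_eq_right (by linarith), add_zero]

lemma pk_tent_le (ξ : ℝ) : tent ξ ≤ 2 * rho := by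
  have h0 : (0 : ℝ) ≤ rho := by norm_num [rho]
  have h1 : max (rho - |ξ - -cc|) 0 ≤ rho := max_le (by linarith [abs_nonneg (ξ - -cc)]) h0
  have h2 : max (rho - |ξ - cc|) 0 ≤ rho := max_le (by linarith [abs_nonneg (ξ - cc)]) h0
  rw [pk_tent]; linarith

lemma pk_tent_big {ξ : ℝ} (h : N1 ≤ n1 ξ) : tent ξ = 0 := by
  have h1 := le_abs_self (ξ - -cc)
  have h2 := neg_abs_le (ξ - -cc)
  have h3 := le_abs_self (ξ - cc)
  have h4 := neg_abs_le (ξ - cc)
  apply pk_tent_z <;> rcases (pk_n1 ξ).2.2.2 with e | e <;> rw [e] at h <;>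
    simp only [rho, cc, N1] at * <;> linarith

lemma pk_Nb_ge (ξ η : ℝ) : n1 ξ ≤ pkNb ξ η := by
  have := pk_G0 (-cc) ξ (LL * η)
  have := pk_G0 cc ξ (LL * η)
  have := le_max_left (n1 ξ) (|η| * N1)
  unfold pkNb; linarith

lemma pk_G_le {c ξ η : ℝ} (hc : c = -cc ∨ c = cc) (hη : |η| ≤ 1) :
    max (n1 ξ) (|η| * N1) + pkG c ξ (LL * η) ≤ max N1 (n1 ξ) := by
  have m1 := le_max_left N1 (n1 ξ)
  have m2 := le_max_right N1 (n1 ξ)
  have m3 : |η| * N1 ≤ N1 := mul_le_of_le_one_left (by norm_num [N1]) hη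
  have m4 := le_max_left (rho * n1 (LL * η - cc)) |ξ - c|
  have m5 := le_max_right (rho * n1 (LL * η - cc)) |ξ - c|
  have h1 := le_abs_self (ξ - c)
  have h2 := neg_abs_le (ξ - c)
  obtain ⟨p1, p2, p3, -⟩ := pk_n1 (LL * η - cc)
  obtain ⟨q1, q2⟩ := abs_le.1 hη
  rcases max_choice (rho - max (rho * n1 (LL * η - cc)) |ξ - c|) 0 with e | e
  · rw [pkG, e]
    rcases max_choice (n1 ξ) (|η| * N1) with e' | e'
    · rw [e']
      refine le_trans ?_ m1
      rcases (pk_n1 ξ).2.2.2 with e'' | e'' <;> rw [e''] <;> rcases hc with rfl | rfl <;>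
        simp only [rho, cc, N1] at * <;> linarith [abs_nonneg (ξ - -(11 / 20)), abs_nonneg (ξ - 11 / 20)]
    · rw [e']
      rcases abs_cases η with ⟨e'', -⟩ | ⟨e'', -⟩ <;> rw [e''] <;>
        simp only [rho, cc, N1, LL] at * <;> linarith
  · rw [pkG, e, add_zero]
    exact max_le m2 (m3.trans m1)

lemma pk_Nb_le {ξ η : ℝ} (hη : |η| ≤ 1) : pkNb ξ η ≤ max N1 (n1 ξ) := by
  unfold pkNb
  rcases pk_far ξ with h | h
  · rw [pk_Gz _ h, zero_add]; exact pk_G_le (Or.inr rfl) hη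
  · rw [pk_Gz _ h, add_zero]; exact pk_G_le (Or.inl rfl) hη

lemma pk_top {ξ η ν : ℝ} (h1 : n1 ξ ≤ ν) (h2 : ν ≤ 1) : ν - (pkNb ξ η - tent ξ) ≤ top ξ := by
  have a1 := pk_Nb_ge ξ η
  have a2 := (pk_n1 ξ).2.2.1
  unfold top
  rcases le_total N1 (n1 ξ) with h | h
  · rw [max_eq_right h, pk_tent_big h]; linarith
  · have := pk_tent_le ξ
    rw [max_eq_left h]; simp only [rho, N1] at *; linarith

lemma pk_sinv (i : Bool) (x : E) : rho * NN (Sinv i x) =
    max (rho * n1 (x 1 / rho - cc)) |x 0 - cen i| + |x 2| := by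
  have h : (0 : ℝ) < rho := by norm_num [rho]
  have e : NN (Sinv i x) = max (n1 (x 1 / rho - cc)) |(x 0 - cen i) / rho| + |x 2 / rho| := by
    simp [NN, Sinv]
  rw [e, mul_add, mul_max_of_nonneg _ _ h.le, abs_div, abs_div, abs_of_pos h]
  field_simp

lemma pk_low (ξ x1 : ℝ) : pkNb ξ (x1 / N1) =
    max (n1 ξ) |x1| + (pkG (-cc) ξ (x1 / rho) + pkG cc ξ (x1 / rho)) := by
  have e1 : |x1 / N1| * N1 = |x1| := by
    rw [abs_div, abs_of_pos (show (0 : ℝ) < N1 by norm_num [N1])]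
    exact div_mul_cancel₀ _ (by norm_num [N1])
  have e2 : LL * (x1 / N1) = x1 / rho := by simp only [LL, N1, rho]; ring
  rw [pkNb, e1, e2]

lemma pk_notin {i : Bool} {x : E} (h : x ∉ Ch i) : pkG (cen i) (x 0) (x 1 / rho) ≤ |x 2| := by
  have h1 : 1 ≤ NN (Sinv i x) := not_lt.1 h
  have h2 := pk_sinv i x
  have h3 : (0 : ℝ) < rho := by norm_num [rho]
  exact max_le (by nlinarith) (abs_nonneg _)

lemma pk_sum {x : E} (h : x ∈ Om) :
    pkG (-cc) (x 0) (x 1 / rho) + pkG cc (x 0) (x 1 / rho) ≤ |x 2| := by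
  have h0 : pkG (-cc) (x 0) (x 1 / rho) ≤ |x 2| := pk_notin (i := false) (fun h' => h.2 (Or.inl h'))
  have h1 : pkG cc (x 0) (x 1 / rho) ≤ |x 2| := pk_notin (i := true) (fun h' => h.2 (Or.inr h'))
  rcases pk_far (x 0) with h' | h' <;> rw [pk_Gz _ h'] <;> linarith

lemma pk_NN (x : E) : n1 (x 0) ≤ NN x ∧ |x 1| ≤ NN x := by
  have := le_max_left (n1 (x 0)) |x 1|
  have := le_max_right (n1 (x 0)) |x 1|
  have := abs_nonneg (x 2)
  unfold NN
  constructor <;> linarith

lemma pk_eta (x : E) : |x 1 / max (NN x) N1| ≤ 1 := by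
  have h : 0 < max (NN x) N1 := lt_max_of_lt_right (by norm_num [N1])
  rw [abs_div, abs_of_pos h, div_le_one h]
  exact (pk_NN x).2.trans (le_max_left _ _)

lemma pk_QC2 (hCF : CFStmt) (hZ : ZLStmt) : ∃ K : ℝ≥0,
    LipschitzWith K (vec (fun y => y 0) (fun y => Real.pi / 2 * (1 - y 1))
      (fun y => pkZ (y 0) (y 1) (y 2))) ∧
    QC (-1) (Real.pi / 2) K (vec (fun y => y 0) (fun y => Real.pi / 2 * (1 - y 1))
      (fun y => pkZ (y 0) (y 1) (y 2))) univ := by
  have pG : ∀ c, PwA (fun y : E => pkG c (y 0) (LL * y 1)) := fun c =>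
    PwA.max hZ ((PwA.const _).sub (PwA.max hZ ((PwA.n1 hZ (((PwA.X 1).const_mul _).sub
      (PwA.const _))).const_mul _) (PwA.abs hZ ((PwA.X 0).sub (PwA.const _))))) (PwA.const _)
  have p1 : PwA (fun y : E => max N1 (n1 (y 0))) := PwA.max hZ (PwA.const _) (PwA.n1 hZ (PwA.X 0))
  have p2 : PwA (fun y : E => pkNb (y 0) (y 1) - tent (y 0)) :=
    ((PwA.max hZ (PwA.n1 hZ (PwA.X 0)) ((PwA.abs hZ (PwA.X 1)).mul_const _)).add
      ((pG _).add (pG _))).sub
      ((PwA.max hZ ((PwA.const _).sub (PwA.abs hZ ((PwA.X 0).add (PwA.const _)))) (PwA.const _)).add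
       (PwA.max hZ ((PwA.const _).sub (PwA.abs hZ ((PwA.X 0).sub (PwA.const _)))) (PwA.const _)))
  have pf := ((PwA.X 2).sub p1).const_mul 200
  have pg := (PwA.X 2).sub p2
  have pZ : PwA (fun y : E => pkZ (y 0) (y 1) (y 2)) := PwA.max hZ pf pg
  have pA : PwA (fun y : E => Real.pi / 2 * (1 - y 1)) := ((PwA.const _).sub (PwA.X 1)).const_mul _
  obtain ⟨K, hK⟩ := lip_vec (PwA.X 0).1 pA.1 pZ.1
  refine ⟨K, hK, ?_⟩
  filter_upwards [PwA.max_ae hZ pf pg, p1.2, p2.2, pZ.2] with y h a1 a2 a3 _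
  refine ⟨cd_vec (cd_X 0 y) (contDiffAt_const.mul (contDiffAt_const.sub (cd_X 1 y))) a3.cd, ?_,
    norm_fderiv_le_of_lipschitz ℝ hK⟩
  rw [det_vec hCF (HG.X 0 y) (((HG.const 1 y).sub (HG.X 1 y)).const_mul _) a3.hg]
  have i1 : ∇ (fun y : E => max N1 (n1 (y 0))) y 2 = 0 :=
    grad_indep (fun y t => by simp [ee_apply]) y
  have i2 : ∇ (fun y : E => pkNb (y 0) (y 1) - tent (y 0)) y 2 = 0 :=
    grad_indep (fun y t => by simp [ee_apply]) y
  have hz : 1 ≤ ∇ (fun y : E => pkZ (y 0) (y 1) (y 2)) y 2 := by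
    unfold pkZ
    rcases h with h | h
    · rw [((((HG.X 2 y).sub a1.hg).const_mul 200).congr h).2]
      simp [ee_apply, i1]
    · rw [(((HG.X 2 y).sub a2.hg).congr h).2]
      simp [ee_apply, i2]
  simp [ee_apply]
  nlinarith [Real.pi_pos]

lemma pk_QC0 (hGE : GEStmt) (hCF : CFStmt) (hZ : ZLStmt) : ∃ (η : E → ℝ) (K : ℝ≥0),
    (∀ x, NN x ≤ 1 → η x = x 1 / max (NN x) N1) ∧ LipschitzWith K (vec (fun y => y 0) η NN) ∧
    QC 1 1 K (vec (fun y => y 0) η NN) {x | NN x ≤ 1 ∧ 0 < x 2} ∧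
    QC (-1) 1 K (vec (fun y => y 0) η NN) {x | NN x ≤ 1 ∧ x 2 < 0} := by
  have pH : PwA (fun y : E => max (n1 (y 0)) |y 1|) :=
    PwA.max hZ (PwA.n1 hZ (PwA.X 0)) (PwA.abs hZ (PwA.X 1))
  have pN : PwA NN := pH.add (PwA.abs hZ (PwA.X 2))
  have pM : PwA (fun y => max (NN y) N1) := PwA.max hZ pN (PwA.const _)
  have hM : ∀ y, 0 < max (NN y) N1 := fun y => lt_max_of_lt_right (by norm_num [N1])
  obtain ⟨η, lη, eη⟩ := exists_lip_ext' (isCompact_closedBall (0 : E) 3)
    (f := fun y => y 1 / max (NN y) N1) (fun y _ => (LA.X 1 y).div (by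
      obtain ⟨K, hK⟩ := pM.1
      exact LA.of_lip hK y) (hM y).ne')
  obtain ⟨K, hK⟩ := lip_vec (PwA.X 0).1 lη pN.1
  have key : ∀ᵐ x : E, ∀ σ : ℝ, σ * σ = 1 → NN x ≤ 1 →
      ((fun y : E => |y 2|) =ᶠ[𝓝 x] fun y => σ * y 2) →
      ContDiffAt ℝ 1 (vec (fun y => y 0) η NN) x ∧
        1 ≤ σ * (fderiv ℝ (vec (fun y => y 0) η NN) x).det ∧
        ‖fderiv ℝ (vec (fun y => y 0) η NN) x‖ ≤ K := by
    filter_upwards [PwA.max_ae hZ pN (PwA.const N1), pH.2, pN.2, pM.2] with x h a1 a2 a3 σ hσ hx hs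
    have hn : η =ᶠ[𝓝 x] fun y => y 1 * (max (NN y) N1)⁻¹ := by
      have : x ∈ ball (0 : E) 3 := by
        rw [mem_ball, dist_zero_right]; linarith [hGE.2.2.1 x hx]
      filter_upwards [isOpen_ball.mem_nhds this] with y hy
      rw [eη y (ball_subset_closedBall hy), div_eq_mul_inv]
    refine ⟨cd_vec (cd_X 0 x) (((cd_X 1 x).mul (a3.cd.inv (hM x).ne')).congr_of_eventuallyEq hn)
      a2.cd, ?_, norm_fderiv_le_of_lipschitz ℝ hK⟩
    obtain ⟨t, ht⟩ : ∃ t : ℝ, HG (fun y => max (NN y) N1) x (t • ∇ NN x) := by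
      rcases h with h | h
      · exact ⟨1, by rw [one_smul]; exact a2.hg.congr h⟩
      · exact ⟨0, by rw [zero_smul]; exact (HG.const _ x).congr h⟩
    have i1 : ∇ (fun y : E => max (n1 (y 0)) |y 1|) x 2 = 0 :=
      grad_indep (fun y t => by simp [ee_apply]) x
    have i2 : ∇ NN x 2 = σ := by
      have := (a1.hg.add (((HG.X 2 x).const_mul σ).congr hs)).2
      rw [show ∇ NN x = _ from this]
      simp [ee_apply, i1]
    rw [det_vec hCF (HG.X 0 x) (((HG.X 1 x).mul (ht.inv (hM x).ne')).congr hn) a2.hg]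
    have i3 : max (NN x) N1 ≤ 1 := max_le hx (by norm_num [N1])
    have i4 : 1 ≤ (max (NN x) N1)⁻¹ := (one_le_inv₀ (hM x)).2 i3
    simp [ee_apply, i2]
    nlinarith
  refine ⟨η, K, fun x hx => eη x (by
    rw [mem_closedBall, dist_zero_right]; linarith [hGE.2.2.1 x hx]), hK, ?_, ?_⟩
  · filter_upwards [key] with x h hx
    refine h 1 (by norm_num) hx.1 ?_
    filter_upwards [(isOpen_lt continuous_const (continuous_coord 2)).mem_nhds hx.2] with y hy
    rw [abs_of_pos hy, one_mul]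
  · filter_upwards [key] with x h hx
    refine h (-1) (by norm_num) hx.1 ?_
    filter_upwards [(isOpen_lt (continuous_coord 2) continuous_const).mem_nhds hx.2] with y hy
    rw [abs_of_neg hy, neg_one_mul]

theorem PK_proof (hGE : GEStmt) (hCF : CFStmt) (hNP : NPStmt) (hZ : ZLStmt) : PKStmt := by
  obtain ⟨K₂, l2, q2⟩ := pk_QC2 hCF hZ
  obtain ⟨η, K₀, eη, l0, q0, q0'⟩ := pk_QC0 hGE hCF hZ
  have hpi := Real.pi_pos
  have hN1 : N1 ≤ 1 := by norm_num [N1]
  have hrho : (0 : ℝ) < rho := by norm_num [rho]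
  refine ⟨_, K₂ * K₀, Real.pi / 2, by positivity, l2.comp l0, ?_, ?_, fun x hx => ?_,
    fun i x hx => ?_, fun x hx => ?_⟩
  · have := hNP.2 _ _ _ _ _ _ _ _ _ _ one_pos (by positivity) q0 q2 (mapsTo_univ _ _)
    simpa only [one_mul, NNReal.coe_mul, mul_comm (K₀ : ℝ)] using this
  · have := hNP.2 _ _ _ _ _ _ _ _ _ _ one_pos (by positivity) q0' q2 (mapsTo_univ _ _)
    simpa only [one_mul, NNReal.coe_mul, mul_comm (K₀ : ℝ), neg_mul_neg] using this
  · have h1 : NN x ≤ 1 := hx.1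
    obtain ⟨n1', n2⟩ := pk_NN x
    obtain ⟨y1, y2⟩ := abs_le.1 (pk_eta x)
    have hs := pk_sum hx
    simp only [DD, mem_ofPred_eq, Function.comp, vec_0, vec_1, vec_2, eη x h1]
    refine ⟨⟨by nlinarith, by nlinarith, le_max_of_le_right ?_, max_le ?_ (pk_top n1' h1)⟩,
      fun h2 => ?_⟩
    · rcases le_total (NN x) N1 with h | h
      · rw [max_eq_right h, pk_low]
        unfold NN; linarith
      · linarith [pk_Nb_le (ξ := x 0) (pk_eta x), max_le h n1']
    · unfold top; linarith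
    · have e : NN x = max (n1 (x 0)) |x 1| := by simp [NN, h2]
      by_cases c1 : N1 ≤ |x 1| ∧ n1 (x 0) ≤ |x 1|
      · right
        have e' : max (NN x) N1 = |x 1| := by rw [e, max_eq_right c1.2, max_eq_left c1.1]
        have e0 : x 1 ≠ 0 := fun h => by
          have := c1.1; rw [h] at this; norm_num [N1] at this
        rw [e']
        rcases abs_cases (x 1) with ⟨h, -⟩ | ⟨h, -⟩ <;> rw [h]
        · left; rw [div_self e0]; ring
        · right; rw [div_neg, div_self e0]; ring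
      · left
        rcases le_total (NN x) N1 with h | h
        · have c2 : |x 1| < N1 ∨ tent (x 0) = 0 := by
            by_contra c3
            push Not at c3
            exact c1 ⟨c3.1, by linarith⟩
          have c4 : tent (x 0) = 0 := by
            rcases c2 with c2 | c2
            · obtain ⟨c5, c6⟩ := abs_lt.1 c2
              have c7 : rho * n1 (x 1 / rho - cc) < rho := by
                rcases (pk_n1 (x 1 / rho - cc)).2.2.2 with e | e <;> rw [e] <;>
                  simp only [rho, cc, N1] at * <;> linarith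
              have c8 : ∀ c, pkG c (x 0) (x 1 / rho) ≤ 0 → rho ≤ |x 0 - c| := fun c hc => by
                by_contra c9
                have := max_lt c7 (not_le.1 c9)
                have := le_max_left (rho - max (rho * n1 (x 1 / rho - cc)) |x 0 - c|) 0
                unfold pkG at hc
                linarith
              rw [h2, abs_zero] at hs
              exact pk_tent_z (c8 _ (by linarith [pk_G0 cc (x 0) (x 1 / rho)]))
                (c8 _ (by linarith [pk_G0 (-cc) (x 0) (x 1 / rho)]))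
            · exact c2
          rw [h2, abs_zero] at hs
          have c5 : NN x - (pkNb (x 0) (x 1 / N1) - tent (x 0)) = 0 := by
            rw [pk_low, c4, e]
            linarith [pk_G0 cc (x 0) (x 1 / rho), pk_G0 (-cc) (x 0) (x 1 / rho)]
          rw [max_eq_right h, pkZ, c5]
          exact max_eq_right (by linarith [le_max_left N1 (n1 (x 0))])
        · have c2 : NN x = n1 (x 0) := by
            rcases le_total (n1 (x 0)) |x 1| with c3 | c3
            · rw [e, max_eq_right c3] at h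
              exact absurd ⟨h, c3⟩ c1
            · rw [e, max_eq_left c3]
          have c3 : N1 ≤ n1 (x 0) := c2 ▸ h
          have c4 : 200 * (NN x - max N1 (n1 (x 0))) = 0 := by rw [max_eq_right c3, c2]; ring
          rw [pkZ, c4, pk_tent_big c3]
          exact max_eq_left (by linarith [pk_Nb_ge (x 0) (x 1 / max (NN x) N1)])
  · obtain ⟨g1, g2⟩ := hGE.2.2.2.1 i x hx.le
    have h1 : NN x ≤ 1 := g1.trans hN1
    have g3 : rho < |x 0 - cen (!i)| := by
      obtain ⟨g4, g5⟩ := abs_le.1 g2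
      have := le_abs_self (x 0 - cen (!i))
      have := neg_abs_le (x 0 - cen (!i))
      cases i <;> simp only [cen, rho, cc, Bool.not_false, Bool.not_true, cond_true, cond_false] at * <;>
        linarith
    have g4 : x ∉ Ch i := fun h => (ne_of_lt h) hx
    have g5 : x ∉ Ch (!i) := fun h => by
      have h' : NN (Sinv (!i) x) < 1 := h
      have := pk_sinv (!i) x
      have := le_max_right (rho * n1 (x 1 / rho - cc)) |x 0 - cen (!i)|
      have := abs_nonneg (x 2)
      nlinarith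
    have g6 : pkG (cen i) (x 0) (x 1 / rho) = |x 2| := by
      have := pk_sinv i x
      rw [hx, mul_one] at this
      rw [pkG, show rho - max (rho * n1 (x 1 / rho - cc)) |x 0 - cen i| = |x 2| by linarith]
      exact max_eq_left (abs_nonneg _)
    have g7 := pk_Gz (x 1 / rho) g3.le
    have g8 : max (rho - |x 0 - cen i|) 0 = rho - |x 0 - cen i| := max_eq_left (by linarith)
    have g9 : max (rho - |x 0 - cen (!i)|) 0 = 0 := max_eq_right (by linarith)
    have g10 : NN x - (pkNb (x 0) (x 1 / N1) - tent (x 0)) = rho - |x 0 - cen i| := by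
      rw [pk_low, pk_tent]
      cases i <;> simp only [cen, Bool.not_false, Bool.not_true, cond_true, cond_false] at * <;>
        rw [g6, g7, g8, g9] <;> unfold NN <;> ring
    simp only [Function.comp, vec_0, vec_1, vec_2, eη x h1, max_eq_right g1]
    refine ⟨⟨h1, fun h => ?_⟩, trivial, ?_, trivial⟩
    · cases i
      · exact h.elim g4 g5
      · exact h.elim g5 g4
    · rw [pkZ, g10, max_eq_right (by linarith [le_max_left N1 (n1 (x 0))])]; ring
  · have g : ∀ i, x ∉ Ch i := fun i h => by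
      have := (hGE.2.2.2.1 i x (le_of_lt h)).1
      rw [hx] at this; norm_num [N1] at this
    simp only [Function.comp, vec_0, vec_1, vec_2, eη x hx.le]
    refine ⟨⟨hx.le, fun h => h.elim (g _) (g _)⟩, trivial, ?_, by rw [hx, max_eq_left hN1, div_one]⟩
    have := pk_top (η := x 1 / max (NN x) N1) (pk_NN x).1 hx.le
    rw [pkZ]
    rw [max_eq_left (this.trans (by rw [hx]; rfl)), hx]; rfl

end Crest.Agent.R83
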