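import Crest.Agent.R83.HG

/-! Row 83, task PM: the port model. -/

set_option autoImplicit false

noncomputable section

namespace Crest.Agent.R83

open MeasureTheory Set Filter Topology Metric
open scoped Gradient RealInnerProductSpace NNReal

/-- the local facts about the dilogarithm potential -/
def pm_D (W : E → ℝ) : Prop :=
  ∀ q : E, 0 < q 2 → ContDiffAt ℝ 3 W q ∧ ContDiffAt ℝ 3 v0 q ∧ ContDiffAt ℝ 3 A0 q ∧
      ∇ W q 0 = v0 q ∧ ∇ W q 1 = 0 ∧ ∇ W q 2 = A0 q ∧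
      ∇ v0 q 0 = -(Real.exp (-q 2) * Real.sin (q 0) / ‖1 - wq q‖ ^ 2) ∧ ∇ v0 q 1 = 0 ∧
      ∇ A0 q 0 = ∇ v0 q 2 ∧ ∇ A0 q 1 = 0 ∧ ∇ A0 q 2 = -∇ v0 q 0 ∧
      (Real.sin (q 0) = 0 → W q = 0 ∧ A0 q = 0)

lemma pm_sin2 (x : ℝ) : HasDerivAt (fun s => Real.sin (2 * s)) (Real.cos (2 * x) * 2) x := by
  simpa using ((hasDerivAt_id x).const_mul 2).sin

lemma pm_core (hT : T1Stmt) {W : E → ℝ} (hW : pm_D W) {c c1 c2 b b1 rb : ℝ → ℝ}
    (sc : ContDiff ℝ 2 c) (sc1 : ContDiff ℝ 2 c1) (sc2 : ContDiff ℝ 2 c2) (sb : ContDiff ℝ 2 b)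
    (sb1 : ContDiff ℝ 2 b1) (srb : ContDiff ℝ 2 rb)
    (hc : ∀ s, HasDerivAt c (c1 s) s) (hc1 : ∀ s, HasDerivAt c1 (c2 s) s)
    (hb : ∀ s, HasDerivAt b (b1 s) s) (hb1 : ∀ s, HasDerivAt b1 (rb s + b s / 16) s)
    {q : E} (hq : 0 < q 2) {ε : ℝ} (hε : 0 < ε) (hb0 : 0 < b (q 2)) (hy : Real.sin (q 1) ≠ 0)
    (h1 : 3 * ε * |rb (q 2)| * |Real.sin (q 0)| ≤ |c (q 2) * ∇ v0 q 0| / 128)
    (h2 : 2 * |c2 (q 2) * W q + 2 * c1 (q 2) * A0 q| +
      |c2 (q 2) * v0 q + 2 * c1 (q 2) * ∇ v0 q 2| ≤ ε * b (q 2) / 128) :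
    T1ok 300 (fun y => c (y 2) * v0 y + ε * (b (y 2) * Real.cos (y 1)))
      (fun y => c1 (y 2) * W y + c (y 2) * A0 y)
      (fun y => ε * -(b1 (y 2) * Real.sin (y 1)))
      (fun y => -(ε * (rb (y 2) * Real.sin (y 1) * Real.sin (2 * y 0)) / 2) +
        (c2 (y 2) * W y + 2 * (c1 (y 2) * A0 y)) * Real.sin (2 * y 1) / 2) q := by
  have dc2 : ∀ s, HasDerivAt c2 (deriv c2 s) s := fun s =>
    (sc2.differentiable (by norm_num) s).hasDerivAt
  have drb : ∀ s, HasDerivAt rb (deriv rb s) s := fun s =>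
    (srb.differentiable (by norm_num) s).hasDerivAt
  have hd : ∀ y : E, 0 < y 2 → HG W y (∇ W y) ∧ HG v0 y (∇ v0 y) ∧ HG A0 y (∇ A0 y) := fun y hy =>
    ⟨HG.of_diff ((hW y hy).1.differentiableAt (by norm_num)),
      HG.of_diff ((hW y hy).2.1.differentiableAt (by norm_num)),
      HG.of_diff ((hW y hy).2.2.1.differentiableAt (by norm_num))⟩
  have gv := fun (y : E) (hy : 0 < y 2) => (((HG.coord 2 (hc (y 2))).mul (hd y hy).2.1).add
    (((HG.coord 2 (hb (y 2))).mul (HG.coord 1 (Real.hasDerivAt_cos (y 1)))).const_mul ε)).2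
  have gF1 := fun (y : E) (hy : 0 < y 2) => (((HG.coord 2 (hc1 (y 2))).mul (hd y hy).1).add
    ((HG.coord 2 (hc (y 2))).mul (hd y hy).2.2)).2
  have gF2 := fun (y : E) => ((((HG.coord 2 (hb1 (y 2))).mul
    (HG.coord 1 (Real.hasDerivAt_sin (y 1)))).neg).const_mul ε).2
  have gg := ((((((HG.coord 2 (drb (q 2))).mul (HG.coord 1 (Real.hasDerivAt_sin (q 1)))).mul
    (HG.coord 0 (pm_sin2 (q 0)))).const_mul ε).div_const 2).neg.add
    (((((HG.coord 2 (dc2 (q 2))).mul (hd q hq).1).add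
      (((HG.coord 2 (hc1 (q 2))).mul (hd q hq).2.2).const_mul 2)).mul
      (HG.coord 1 (pm_sin2 (q 1)))).div_const 2)).2
  obtain ⟨sW, sv, sA, w0, w1, w2, -, v1, a0, a1, a2, -⟩ := hW q hq
  have sW' : ContDiffAt ℝ 2 W q := sW.of_le (by norm_num)
  have sv' : ContDiffAt ℝ 2 v0 q := sv.of_le (by norm_num)
  have sA' : ContDiffAt ℝ 2 A0 q := sA.of_le (by norm_num)
  have s2 : ∀ i : Fin 3, ContDiffAt ℝ 2 (fun y : E => Real.sin (2 * y i)) q := fun i =>
    (contDiffAt_const.mul (cd_X i q)).sin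
  refine ⟨((cd_coord 2 sc.contDiffAt).mul sv').add (contDiffAt_const.mul
      ((cd_coord 2 sb.contDiffAt).mul (cd_X 1 q).cos)),
    ((cd_coord 2 sc1.contDiffAt).mul sW').add ((cd_coord 2 sc.contDiffAt).mul sA'),
    contDiffAt_const.mul ((cd_coord 2 sb1.contDiffAt).mul (cd_X 1 q).sin).neg,
    ((contDiffAt_const.mul (((cd_coord 2 srb.contDiffAt).mul (cd_X 1 q).sin).mul
      (s2 0))).div_const 2).neg.add (((((cd_coord 2 sc2.contDiffAt).mul sW').add
      (contDiffAt_const.mul ((cd_coord 2 sc1.contDiffAt).mul sA'))).mul (s2 1)).div_const 2),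
    ?_, ?_⟩
  · have : ∀ᶠ y in 𝓝 q, 0 < y 2 :=
      (isOpen_lt continuous_const (continuous_coord 2)).mem_nhds hq
    filter_upwards [this] with y hy
    obtain ⟨-, -, -, w0, -, -, -, -, a0, -⟩ := hW y hy
    rw [gv y hy, gF1 y hy, gF2 y]
    simp [ee_apply, w0, a0]
    ring
  · rw [gv q hq, gF1 q hq, gF2 q, gg]
    have key := hT.2.2 (c (q 2) * ∇ v0 q 0) (-(ε * b (q 2) * Real.sin (q 1))) 1 (1 / 16)
      (-(2 * (c2 (q 2) * W q + 2 * c1 (q 2) * A0 q) * Real.sin (q 1) ^ 2) -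
        ε * rb (q 2) * Real.cos (q 1) * (Real.sin (q 0) * Real.cos (q 0)))
      (-(2 * ε * rb (q 2) * Real.sin (q 1) * Real.sin (q 0) ^ 2) -
        (c2 (q 2) * v0 q + 2 * c1 (q 2) * ∇ v0 q 2) * (Real.sin (q 1) * Real.cos (q 1)))
      (by norm_num) le_rfl (by norm_num) (by norm_num) ?_
      (neg_ne_zero.2 (mul_ne_zero (by positivity) hy))
    · convert key using 1
      · simp [ee_apply, w0, w1, w2, v1, a0, a1, a2, Real.sin_two_mul, Real.cos_two_mul,
          Real.cos_sq']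
        ring
      · simp [ee_apply, w0, w1, w2, v1, a0, a1, a2, Real.sin_two_mul, Real.cos_two_mul,
          Real.cos_sq']
        ring
    · set R := c2 (q 2) * W q + 2 * c1 (q 2) * A0 q
      set Rx := c2 (q 2) * v0 q + 2 * c1 (q 2) * ∇ v0 q 2
      have sx := Real.abs_sin_le_one (q 0)
      have sy := Real.abs_sin_le_one (q 1)
      have cx := Real.abs_cos_le_one (q 0)
      have cy := Real.abs_cos_le_one (q 1)
      have e1 : |2 * R * Real.sin (q 1) ^ 2| ≤ 2 * |R| * |Real.sin (q 1)| := by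
        rw [abs_mul, abs_mul, abs_pow, abs_two, sq]
        gcongr
        exact mul_le_of_le_one_left (abs_nonneg _) sy
      have e2 : |ε * rb (q 2) * Real.cos (q 1) * (Real.sin (q 0) * Real.cos (q 0))| ≤
          ε * |rb (q 2)| * |Real.sin (q 0)| := by
        rw [abs_mul, abs_mul, abs_mul, abs_mul, abs_of_pos hε]
        calc ε * |rb (q 2)| * |Real.cos (q 1)| * (|Real.sin (q 0)| * |Real.cos (q 0)|) ≤
            ε * |rb (q 2)| * 1 * (|Real.sin (q 0)| * 1) := by gcongr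
          _ = _ := by ring
      have e3 : |2 * ε * rb (q 2) * Real.sin (q 1) * Real.sin (q 0) ^ 2| ≤
          2 * (ε * |rb (q 2)| * |Real.sin (q 0)|) := by
        rw [abs_mul, abs_mul, abs_mul, abs_mul, abs_of_pos hε, abs_pow, abs_two, sq]
        calc 2 * ε * |rb (q 2)| * |Real.sin (q 1)| * (|Real.sin (q 0)| * |Real.sin (q 0)|) ≤
            2 * ε * |rb (q 2)| * 1 * (|Real.sin (q 0)| * 1) := by gcongr
          _ = _ := by ring
      have e4 : |Rx * (Real.sin (q 1) * Real.cos (q 1))| ≤ |Rx| * |Real.sin (q 1)| := by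
        rw [abs_mul, abs_mul]
        gcongr
        exact mul_le_of_le_one_right (abs_nonneg _) cy
      have e5 : |-(ε * b (q 2) * Real.sin (q 1))| = ε * b (q 2) * |Real.sin (q 1)| := by
        rw [abs_neg, abs_mul, abs_of_pos (mul_pos hε hb0)]
      have e6 := mul_le_mul_of_nonneg_right h2 (abs_nonneg (Real.sin (q 1)))
      have e7 := abs_sub (-(2 * R * Real.sin (q 1) ^ 2))
        (ε * rb (q 2) * Real.cos (q 1) * (Real.sin (q 0) * Real.cos (q 0)))
      have e8 := abs_sub (-(2 * ε * rb (q 2) * Real.sin (q 1) * Real.sin (q 0) ^ 2))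
        (Rx * (Real.sin (q 1) * Real.cos (q 1)))
      rw [abs_neg] at e7 e8
      rw [e5]
      nlinarith

/-- derivatives of a function that is constant on an open half-line -/
lemma pm_deriv_lt {f : ℝ → ℝ} {a k : ℝ} (h : ∀ s, s < a → f s = k) (s : ℝ) (hs : s < a) :
    deriv f s = 0 := by
  have : f =ᶠ[𝓝 s] fun _ => k := by
    filter_upwards [Iio_mem_nhds hs] with u hu using h u hu
  rw [this.deriv_eq, deriv_const]

lemma pm_deriv_gt {f : ℝ → ℝ} {a k : ℝ} (h : ∀ s, a < s → f s = k) (s : ℝ) (hs : a < s) :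
    deriv f s = 0 := by
  have : f =ᶠ[𝓝 s] fun _ => k := by
    filter_upwards [Ioi_mem_nhds hs] with u hu using h u hu
  rw [this.deriv_eq, deriv_const]

lemma pm_le_of_lt {f : ℝ → ℝ} (hf : Continuous f) {a : ℝ} (h : ∀ s, s < a → f s = 0) (s : ℝ)
    (hs : s ≤ a) : f s = 0 := by
  have : closure (Iio a) ⊆ {s | f s = 0} :=
    closure_minimal (fun s hs => h s hs) (isClosed_eq hf continuous_const)
  exact this (by rw [closure_Iio]; exact hs)

lemma pm_bdd {f : ℝ → ℝ} (hf : Continuous f) (h0 : ∀ s, s < 0 → f s = 0)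
    (h1 : ∀ s, 1 < s → f s = 0) : ∃ C, 0 < C ∧ ∀ s, |f s| ≤ C := by
  obtain ⟨C, hC⟩ := (isCompact_Icc (a := (0 : ℝ)) (b := 1)).exists_bound_of_continuousOn
    hf.continuousOn
  refine ⟨|C| + 1, by positivity, fun s => ?_⟩
  by_cases hs : s ∈ Icc (0 : ℝ) 1
  · have := hC s hs
    rw [Real.norm_eq_abs] at this
    linarith [le_abs_self C]
  · rw [mem_Icc, not_and_or, not_le, not_le] at hs
    rcases hs with hs | hs
    · rw [h0 s hs, abs_zero]; positivity
    · rw [h1 s hs, abs_zero]; positivity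

lemma pm_b0_smooth : ContDiff ℝ 4 b0 :=
  (Real.smoothTransition.contDiff (n := 4)).mul (contDiff_neg.div_const 4).exp

/-- the profiles -/
lemma pm_profiles : ∃ (χ1 χ2 rb : ℝ → ℝ) (C : ℝ), 0 < C ∧ ContDiff ℝ 2 χ1 ∧ ContDiff ℝ 2 χ2 ∧
    ContDiff ℝ 2 rb ∧ (∀ s, HasDerivAt Real.smoothTransition (χ1 s) s) ∧
    (∀ s, HasDerivAt χ1 (χ2 s) s) ∧ (∀ s, HasDerivAt (deriv b0) (rb s + b0 s / 16) s) ∧
    (∀ s, s < 0 ∨ 1 < s → χ1 s = 0 ∧ χ2 s = 0) ∧ (∀ s, s ≤ 0 ∨ 1 < s → rb s = 0) ∧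
    deriv b0 0 = 0 ∧ ∀ s, |χ1 s| ≤ C ∧ |χ2 s| ≤ C ∧ |rb s| ≤ C := by
  have sχ : ContDiff ℝ 4 Real.smoothTransition := Real.smoothTransition.contDiff (n := 4)
  have s1 : ContDiff ℝ 3 (deriv Real.smoothTransition) := sχ.deriv'
  have s2 : ContDiff ℝ 2 (deriv (deriv Real.smoothTransition)) := s1.deriv'
  have t1 : ContDiff ℝ 3 (deriv b0) := pm_b0_smooth.deriv'
  have t2 : ContDiff ℝ 2 (deriv (deriv b0)) := t1.deriv'
  have a0 : ∀ s, s < 0 → deriv Real.smoothTransition s = 0 :=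
    pm_deriv_lt (fun s hs => Real.smoothTransition.zero_of_nonpos hs.le)
  have a1 : ∀ s, 1 < s → deriv Real.smoothTransition s = 0 :=
    pm_deriv_gt (fun s hs => Real.smoothTransition.one_of_one_le hs.le)
  have a2 := pm_deriv_lt a0
  have a3 := pm_deriv_gt a1
  have c0 : ∀ s, s < 0 → b0 s = 0 := fun s hs => by
    simp [b0, Real.smoothTransition.zero_of_nonpos hs.le]
  have c1 := pm_deriv_lt c0
  have c2 := pm_deriv_lt c1
  have srb : ContDiff ℝ 2 (fun s => deriv (deriv b0) s - b0 s / 16) :=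
    t2.sub ((pm_b0_smooth.of_le (by norm_num)).div_const 16)
  have r0 : ∀ s, s < 0 → deriv (deriv b0) s - b0 s / 16 = 0 := fun s hs => by
    rw [c2 s hs, c0 s hs]; simp
  have hexp : ∀ s : ℝ, HasDerivAt (fun s => Real.exp (-s / 4)) (Real.exp (-s / 4) * (-1 / 4)) s :=
    fun s => ((hasDerivAt_neg s).div_const 4).exp
  have d0 : ∀ s, 1 < s → b0 s = Real.exp (-s / 4) := fun s hs => by
    simp [b0, Real.smoothTransition.one_of_one_le hs.le]
  have d1 : ∀ s, 1 < s → deriv b0 s = Real.exp (-s / 4) * (-1 / 4) := fun s hs => by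
    have : b0 =ᶠ[𝓝 s] fun s => Real.exp (-s / 4) := by
      filter_upwards [Ioi_mem_nhds hs] with u hu using d0 u hu
    rw [this.deriv_eq, (hexp s).deriv]
  have r1 : ∀ s, 1 < s → deriv (deriv b0) s - b0 s / 16 = 0 := fun s hs => by
    have : deriv b0 =ᶠ[𝓝 s] fun s => Real.exp (-s / 4) * (-1 / 4) := by
      filter_upwards [Ioi_mem_nhds hs] with u hu using d1 u hu
    rw [this.deriv_eq, ((hexp s).mul_const _).deriv, d0 s hs]; ring
  obtain ⟨C1, p1, h1⟩ := pm_bdd s1.continuous a0 a1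
  obtain ⟨C2, p2, h2⟩ := pm_bdd s2.continuous a2 a3
  obtain ⟨C3, p3, h3⟩ := pm_bdd srb.continuous r0 r1
  refine ⟨_, _, _, C1 + C2 + C3, by positivity, s1.of_le (by norm_num), s2, srb,
    fun s => (sχ.differentiable (by norm_num) s).hasDerivAt,
    fun s => (s1.differentiable (by norm_num) s).hasDerivAt, fun s => ?_,
    fun s hs => hs.elim (fun h => ⟨a0 s h, a2 s h⟩) (fun h => ⟨a1 s h, a3 s h⟩),
    fun s hs => hs.elim (pm_le_of_lt srb.continuous r0 s) (r1 s),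
    pm_le_of_lt t1.continuous c1 0 le_rfl,
    fun s => ⟨by linarith [h1 s], by linarith [h2 s], by linarith [h3 s]⟩⟩
  simpa using (t1.differentiable (by norm_num) s).hasDerivAt

lemma pm_norm_le (q : E) (hq : 0 < q 2) : ‖1 - wq q‖ ^ 2 ≤ 4 ∧ 0 < ‖1 - wq q‖ ^ 2 := by
  have h1 : ‖wq q‖ < 1 := by
    rw [wq, Complex.norm_exp]
    simpa using hq
  have h2 := norm_sub_le (1 : ℂ) (wq q)
  have h3 := norm_sub_norm_le (1 : ℂ) (wq q)
  rw [norm_one] at h2 h3
  exact ⟨by nlinarith [norm_nonneg (1 - wq q)], by nlinarith⟩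

theorem PM_proof (hDI : DIStmt) (hCA : CAStmt) (hTM : TMStmt) (hT : T1Stmt) : PMStmt := by
  intro t₀ ht₀
  obtain ⟨W, hW, hC⟩ := hDI
  obtain ⟨C₀, hC₀⟩ := hC t₀ ht₀
  obtain ⟨χ1, χ2, rb, C, hCp, s1, s2, srb, d0, d1, db, z1, zr, b00, hB⟩ := pm_profiles
  set ε : ℝ := Real.exp (-t₀ - 1) / (1536 * C) with hε
  have hεp : 0 < ε := by positivity
  obtain ⟨Δ, hΔ1, hΔ⟩ : ∃ Δ : ℝ, 1 ≤ Δ ∧ 1152 * C * |C₀| * Real.exp (-(3 * Δ / 4)) ≤ ε := by
    have h1 : Tendsto (fun Δ : ℝ => 1152 * C * |C₀| * Real.exp (-(3 * Δ / 4))) atTop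
        (𝓝 (1152 * C * |C₀| * 0)) :=
      (Real.tendsto_exp_neg_atTop_nhds_zero.comp
        ((tendsto_id.const_mul_atTop (by norm_num : (0 : ℝ) < 3)).atTop_div_const
          (by norm_num))).const_mul _
    rw [mul_zero] at h1
    obtain ⟨Δ, h2, h3⟩ := ((eventually_ge_atTop 1).and (h1.eventually (ge_mem_nhds hεp))).exists
    exact ⟨Δ, h2, h3⟩
  obtain ⟨T, v, F₁, F₂, g, hT0, lv, l1, l2, lg, e1, e2, e3, e4, e5⟩ := hCA (Δ + 1) (by linarith)
  set a : ℝ := t₀ + Δ + 1 with ha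
  set c : ℝ → ℝ := fun t => Real.smoothTransition (a - t) with hc
  set c1 : ℝ → ℝ := fun t => -χ1 (a - t) with hc1
  set c2 : ℝ → ℝ := fun t => χ2 (a - t) with hc2
  have sa : ContDiff ℝ 2 (fun t : ℝ => a - t) := contDiff_const.sub contDiff_id
  have st : ContDiff ℝ 2 (fun t : ℝ => t - t₀) := contDiff_id.sub contDiff_const
  have sc : ContDiff ℝ 2 c := (Real.smoothTransition.contDiff (n := 2)).comp sa
  have sc1 : ContDiff ℝ 2 c1 := (s1.comp sa).neg
  have sc2 : ContDiff ℝ 2 c2 := s2.comp sa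
  have srb' : ContDiff ℝ 2 (fun t => rb (t - t₀)) := srb.comp st
  have dc : ∀ s, HasDerivAt c (c1 s) s := fun s => by
    simpa using (d0 (a - s)).comp_const_sub a s
  have dc1 : ∀ s, HasDerivAt c1 (c2 s) s := fun s => by
    have := ((d1 (a - s)).comp_const_sub a s).fun_neg
    rwa [neg_neg] at this
  have cz : ∀ t, a < t → c t = 0 ∧ c1 t = 0 ∧ c2 t = 0 := fun t ht =>
    ⟨Real.smoothTransition.zero_of_nonpos (by linarith),
      by simp only [hc1, (z1 (a - t) (Or.inl (by linarith))).1, neg_zero],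
      (z1 (a - t) (Or.inl (by linarith))).2⟩
  have co : ∀ t, t < t₀ + Δ → c t = 1 ∧ c1 t = 0 ∧ c2 t = 0 := fun t ht =>
    ⟨Real.smoothTransition.one_of_one_le (by linarith),
      by simp only [hc1, (z1 (a - t) (Or.inr (by linarith))).1, neg_zero],
      (z1 (a - t) (Or.inr (by linarith))).2⟩
  set B := Box t₀ (t₀ + T + 1) with hBx
  have hpos : ∀ q ∈ B, 0 < q 2 := fun q hq => ht₀.trans_le hq.2.2.2.2.1
  have cd1 : ∀ {f : ℝ → ℝ}, ContDiff ℝ 2 f → ∀ q : E, ContDiffAt ℝ 1 (fun y : E => f (y 2)) q :=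
    fun hf q => cd_coord 2 (hf.of_le (by norm_num)).contDiffAt
  obtain ⟨Sv, Lv, Ev⟩ := exists_lip_ext (f := fun y => c (y 2) * v0 y) (isCompact_Box _ _)
    (fun q hq => (cd1 sc q).mul ((hW q (hpos q hq)).2.1.of_le (by norm_num)))
  obtain ⟨SF, LF, EF⟩ := exists_lip_ext (f := fun y => c1 (y 2) * W y + c (y 2) * A0 y)
    (isCompact_Box _ _) (fun q hq => ((cd1 sc1 q).mul ((hW q (hpos q hq)).1.of_le
      (by norm_num))).add ((cd1 sc q).mul ((hW q (hpos q hq)).2.2.1.of_le (by norm_num))))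
  obtain ⟨Sg, Lg, Eg⟩ := exists_lip_ext (f := fun y =>
      -(ε * (rb (y 2 - t₀) * Real.sin (y 1) * Real.sin (2 * y 0)) / 2) +
        (c2 (y 2) * W y + 2 * (c1 (y 2) * A0 y)) * Real.sin (2 * y 1) / 2)
    (isCompact_Box _ _) (fun q hq => ((contDiffAt_const.mul (((cd1 srb' q).mul (cd_X 1 q).sin).mul
      (contDiffAt_const.mul (cd_X 0 q)).sin)).div_const 2).neg.add
      (((((cd1 sc2 q).mul ((hW q (hpos q hq)).1.of_le (by norm_num))).add (contDiffAt_const.mul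
        ((cd1 sc1 q).mul ((hW q (hpos q hq)).2.2.1.of_le (by norm_num))))).mul
        (contDiffAt_const.mul (cd_X 1 q)).sin).div_const 2))
  set p : E := t₀ • ee 2 with hp
  have p0 : ∀ y : E, (y - p) 0 = y 0 := fun y => by simp [hp, ee_apply]
  have p1 : ∀ y : E, (y - p) 1 = y 1 := fun y => by simp [hp, ee_apply]
  have p2 : ∀ y : E, (y - p) 2 = y 2 - t₀ := fun y => by simp [hp, ee_apply]
  have lsh : LipschitzWith 1 (fun y : E => y - p) := by
    simpa using (LipschitzWith.id (α := E)).sub (LipschitzWith.const p)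
  refine ⟨t₀ + T, fun y => Sv y + ε * v (y - p), fun y => SF y + ε * F₁ (y - p),
    fun y => ε * F₂ (y - p), fun y => Sg y + ε * g (y - p), by linarith,
    Lv.add ((lv.comp lsh).const_mul ε), LF.add ((l1.comp lsh).const_mul ε),
    (l2.comp lsh).const_mul ε, Lg.add ((lg.comp lsh).const_mul ε), fun q hq h => ?_,
    fun q hq h => ?_, fun q hq h => ?_, fun q hq h => ?_, ?_⟩
  · obtain ⟨u1, u2, u3, u4⟩ := e4 (q - p) (by rw [p2, h]; linarith)
    obtain ⟨w1, w2, w3⟩ := co (q 2) (by rw [h]; linarith)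
    simp only [Ev q hq, EF q hq, Eg q hq, u1, u2, u3, u4, w1, w2, w3, p2]
    simp [h, b0, b00, zr 0 (Or.inl le_rfl)]
  · obtain ⟨u1, u2, u3, u4⟩ := e1 (q - p) (by rw [p2]; linarith)
    obtain ⟨w1, w2, w3⟩ := cz (q 2) (by linarith)
    simp [Ev q hq, EF q hq, Eg q hq, u1, u2, u3, u4, w1, w2, w3,
      zr (q 2 - t₀) (Or.inr (by linarith))]
  · have hs : Real.sin (q 0) = 0 := by rcases h with h | h <;> simp [h]
    obtain ⟨u1, u2⟩ := e2 (q - p) (by rw [p0, hs])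
    obtain ⟨w1, w2⟩ := (hW q (hpos q hq)).2.2.2.2.2.2.2.2.2.2.2 hs
    simp [EF q hq, Eg q hq, u1, u2, w1, w2, Real.sin_two_mul, hs]
  · have hs : Real.sin (q 1) = 0 := by rcases h with h | h <;> simp [h]
    obtain ⟨u1, u2⟩ := e3 (q - p) (by rw [p1, hs])
    simp [Eg q hq, u1, u2, Real.sin_two_mul, hs]
  · have e5' : ∀ᵐ q : E, Δ + 1 < (q - p) 2 → (q - p) 2 < T → T1ok 300 v F₁ F₂ g (q - p) :=
      (measurePreserving_sub_right volume p).quasiMeasurePreserving.ae e5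
    filter_upwards [e5', ae_coord_ne 0 0, ae_coord_ne 0 Real.pi, ae_coord_ne 1 0,
      ae_coord_ne 1 Real.pi, ae_coord_ne 2 t₀, ae_coord_ne 2 (t₀ + T + 1), ae_coord_ne 2 a,
      ae_coord_ne 2 (t₀ + T), ae_coord_ne 2 (t₀ + 1), ae_coord_ne 2 (t₀ + Δ)]
      with q k0 k1 k2 k3 k4 k5 k6 k7 k8 k9 k10 hq
    obtain ⟨b1, b2, b3, b4, b5, b6⟩ := id hq
    have i1 := lt_of_le_of_ne b1 k1.symm
    have i2 := lt_of_le_of_ne b2 k2
    have i3 := lt_of_le_of_ne b3 k3.symm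
    have i4 := lt_of_le_of_ne b4 k4
    have i5 := lt_of_le_of_ne b5 k5.symm
    have i6 := lt_of_le_of_ne b6 k6
    have nlt : ∀ (i : Fin 3) (r : ℝ), q i < r → ∀ᶠ y : E in 𝓝 q, y i < r := fun i r h =>
      (isOpen_lt (continuous_coord i) continuous_const).mem_nhds h
    have ngt : ∀ (i : Fin 3) (r : ℝ), r < q i → ∀ᶠ y : E in 𝓝 q, r < y i := fun i r h =>
      (isOpen_lt continuous_const (continuous_coord i)).mem_nhds h
    have hn : ∀ᶠ y in 𝓝 q, y ∈ B := by
      filter_upwards [ngt 0 _ i1, nlt 0 _ i2, ngt 1 _ i3, nlt 1 _ i4, ngt 2 _ i5, nlt 2 _ i6]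
        with y j1 j2 j3 j4 j5 j6 using ⟨j1.le, j2.le, j3.le, j4.le, j5.le, j6.le⟩
    rcases lt_or_gt_of_ne k7 with h | h
    · refine hT.1 _ _ _ _ _ q (by norm_num) (hTM.2.2.1 _ _ _ _ _ _ _ _ _ q
        (pm_core hT hW (b := fun t => b0 (t - t₀)) (b1 := fun t => deriv b0 (t - t₀))
          (rb := fun t => rb (t - t₀)) sc sc1 sc2
          ((pm_b0_smooth.of_le (by norm_num)).comp st)
          ((pm_b0_smooth.deriv' (n := 3)).of_le (by norm_num) |>.comp st) srb' dc dc1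
          (fun s => (pm_b0_smooth.differentiable (by norm_num) _).hasDerivAt.comp_sub_const s t₀)
          (fun s => (db _).comp_sub_const s t₀) (hpos q hq) hεp ?_
          (Real.sin_pos_of_pos_of_lt_pi i3 i4).ne' ?_ ?_) ?_)
      · exact mul_pos (Real.smoothTransition.pos_of_pos (by linarith)) (Real.exp_pos _)
      · rcases lt_or_gt_of_ne k9 with h' | h'
        · obtain ⟨n1, n2⟩ := pm_norm_le q (hpos q hq)
          rw [(co (q 2) (by linarith)).1, one_mul, (hW q (hpos q hq)).2.2.2.2.2.2.1, abs_neg,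
            abs_div, abs_mul, abs_of_pos (Real.exp_pos _), abs_of_pos n2]
          have m1 : Real.exp (-t₀ - 1) ≤ Real.exp (-q 2) := Real.exp_le_exp.2 (by linarith)
          have m2 : ε * C = Real.exp (-t₀ - 1) / 1536 := by rw [hε]; field_simp
          calc 3 * ε * |rb (q 2 - t₀)| * |Real.sin (q 0)| ≤ 3 * ε * C * |Real.sin (q 0)| := by
                gcongr; exact (hB _).2.2
            _ = Real.exp (-t₀ - 1) * |Real.sin (q 0)| / 4 / 128 := by
                rw [mul_assoc 3, m2]; ring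
            _ ≤ _ := by gcongr
        · rw [zr (q 2 - t₀) (Or.inr (by linarith))]
          simp only [abs_zero, mul_zero, zero_mul]
          positivity
      · rcases lt_or_gt_of_ne k10 with h' | h'
        · obtain ⟨-, w2, w3⟩ := co (q 2) h'
          have : 0 ≤ b0 (q 2 - t₀) :=
            mul_nonneg (Real.smoothTransition.nonneg _) (Real.exp_pos _).le
          simp only [w2, w3, zero_mul, mul_zero, add_zero, abs_zero]
          positivity
        · obtain ⟨m1, m2, m3, m4⟩ := hC₀ q b5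
          have m5 : C₀ * Real.exp (-q 2) ≤ |C₀| * Real.exp (-q 2) := by gcongr; exact le_abs_self _
          have m6 : |c1 (q 2)| ≤ C := by simp only [hc1, abs_neg]; exact (hB _).1
          have m7 : |c2 (q 2)| ≤ C := (hB _).2.1
          have m8 : ∀ x y : ℝ, |x| ≤ C₀ * Real.exp (-q 2) → |y| ≤ C₀ * Real.exp (-q 2) →
              |c2 (q 2) * x + 2 * c1 (q 2) * y| ≤ 3 * (C * (|C₀| * Real.exp (-q 2))) := by
            intro x y hx hy
            refine (abs_add_le _ _).trans ?_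
            rw [abs_mul, abs_mul, abs_mul, abs_two]
            have := mul_le_mul m7 (hx.trans m5) (abs_nonneg _) hCp.le
            have := mul_le_mul m6 (hy.trans m5) (abs_nonneg _) hCp.le
            linarith
          have m9 := m8 _ _ m1 m3
          have m10 := m8 _ _ m2 m4
          have m11 : b0 (q 2 - t₀) = Real.exp (-(q 2 - t₀) / 4) := by
            rw [b0, Real.smoothTransition.one_of_one_le (by linarith), one_mul]
          have m12 : Real.exp (-q 2) ≤ Real.exp (-(3 * Δ / 4)) * Real.exp (-(q 2 - t₀) / 4) := by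
            rw [← Real.exp_add]; exact Real.exp_le_exp.2 (by linarith)
          have m13 := mul_le_mul_of_nonneg_right hΔ (Real.exp_pos (-(q 2 - t₀) / 4)).le
          have m14 := mul_le_mul_of_nonneg_left m12 (show 0 ≤ C * |C₀| by positivity)
          rw [m11]
          nlinarith
      · filter_upwards [hn, nlt 2 _ h] with y hy hy'
        obtain ⟨u1, u2, u3, u4⟩ := e4 (y - p) (by rw [p2]; linarith)
        simp only [Ev y hy, EF y hy, Eg y hy, u1, u2, u3, u4, p1, p2]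
        simp
    · rcases lt_or_gt_of_ne k8 with h' | h'
      · refine hT.1 _ _ _ _ _ q (by norm_num) (hTM.2.2.1 _ _ _ _ _ _ _ _ _ q
          (hTM.2.2.2 300 ε p v F₁ F₂ g q hεp.ne'
            (k0 (by rw [p2]; linarith) (by rw [p2]; linarith))) ?_)
        filter_upwards [hn, ngt 2 _ h] with y hy hy'
        obtain ⟨w1, w2, w3⟩ := cz (y 2) hy'
        simp [Ev y hy, EF y hy, Eg y hy, w1, w2, w3, zr (y 2 - t₀) (Or.inr (by linarith))]
      · refine hT.2.1 _ _ _ _ _ q (by norm_num) ?_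
        filter_upwards [hn, ngt 2 _ h, ngt 2 _ h'] with y hy hy' hy''
        obtain ⟨u1, u2, u3, u4⟩ := e1 (y - p) (by rw [p2]; linarith)
        obtain ⟨w1, w2, w3⟩ := cz (y 2) hy'
        simp [Ev y hy, EF y hy, Eg y hy, u1, u2, u3, u4, w1, w2, w3,
          zr (y 2 - t₀) (Or.inr (by linarith))]

end Crest.Agent.R83
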