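import Crest.Agent.R83.Basic

/-! Row 83, task RA (all elliptic constant matrices are realisable). -/

set_option autoImplicit false

noncomputable section

namespace Crest.Agent.R83

open MeasureTheory Set Filter Topology Metric
open scoped Gradient RealInnerProductSpace NNReal

lemma ra_mono {A : E → E} {M M' : ℝ≥0} (h : RealAll A M) (hM : M ≤ M') : RealAll A M' := by
  intro Ω ho hb
  obtain ⟨γ, hγ, hp⟩ := h Ω ho hb
  have hM' : (M : ℝ) ≤ M' := hM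
  refine ⟨γ, fun x => ⟨(hγ x).1.trans (mul_le_mul_of_nonneg_right hM' ?_), (hγ x).2.trans hM'⟩,
    fun p => ?_⟩
  · by_contra hn
    have : (M : ℝ) * γ x ≤ 0 := mul_nonpos_of_nonneg_of_nonpos M.2 (not_le.1 hn).le
    linarith [(hγ x).1]
  · obtain ⟨w, k, hw, hk⟩ := hp p
    have h1 : M * ‖p‖₊ ≤ M' * ‖p‖₊ := by gcongr
    exact ⟨w, k, ⟨hw.lip.weaken h1, hw.w0, hw.meas,
      hw.bdd.mono fun x hx => hx.trans (NNReal.coe_le_coe.2 h1), hw.k0, hw.div⟩, hk⟩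

lemma ra_scalar {M : ℝ≥0} {c : ℝ} (h1 : 1 ≤ (M : ℝ) * c) (h2 : c ≤ M) :
    RealAll (diag fun _ => c) M := by
  intro Ω _ _
  refine ⟨fun _ => c, fun _ => ⟨h1, h2⟩, fun p => ⟨fun _ => 0, fun _ => 0,
    ⟨(LipschitzWith.const 0).weaken zero_le, fun _ _ => rfl, measurable_const,
      Eventually.of_forall fun _ => by rw [norm_zero]; positivity, fun _ _ => rfl,
      fun φ _ _ => by simp⟩, Eventually.of_forall fun x _ => ?_⟩⟩
  ext i
  simp

lemma ra_perm (hRO : ROStmt) {l : Fin 3 → ℝ} {M : ℝ≥0} (σ : Equiv.Perm (Fin 3))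
    (h : RealAll (diag l) M) : RealAll (diag fun i => l (σ i)) M := by
  have := hRO _ M (LinearIsometryEquiv.piLpCongrLeft 2 ℝ ℝ σ.symm) h
  convert this using 2 with p
  ext i
  simp [LinearIsometryEquiv.piLpCongrLeft_apply, Equiv.piCongrLeft']

/-- One coating step. -/
lemma ra_step (hSP : SPStmt) (hSI : SI2Stmt) (hFI : FIStmt) {Λ : ℝ} (hΛ : 1 ≤ Λ) :
    ∃ Λ₂ : ℝ, 1 ≤ Λ₂ ∧ ∀ M' : ℝ≥0, Λ₂ ≤ M' → ∃ M : ℝ≥0, ∀ l : Fin 3 → ℝ, 0 < l 0 → l 0 ≤ l 1 →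
      l 1 ≤ l 2 → 1 ≤ Λ * l 0 → l 2 ≤ Λ →
      (∀ a b : ℝ, 0 < a → a ≤ b → 1 ≤ Λ₂ * a → b ≤ Λ₂ → (l 1 = l 2 → a = b) →
        RealAll (diag ![b, a, b]) M') → RealAll (diag l) M := by
  obtain ⟨δ, βm, hδ, hβ, H⟩ := hSP (Λ ^ 2) (one_le_pow₀ hΛ)
  have hd : ∀ i, 0 < (![δ ^ 2, 1, 1] : Fin 3 → ℝ) i := fun i => by
    fin_cases i <;> simp [hδ]
  have hρ : 0 < 3 * δ ^ 2 := by positivity
  refine ⟨Λ * (1 + βm), by nlinarith, fun M' hM' => ?_⟩
  obtain ⟨M, hM⟩ := hSI ![δ ^ 2, 1, 1] (3 * δ ^ 2) βm M' hd hρ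
  refine ⟨M, fun l h0 h1 h2 h3 h4 hc => ?_⟩
  obtain ⟨γ, β, β', b1, b2, b3, g1, g2, g3, g4⟩ := H l h0 h1 h2 (by nlinarith)
  have hγ : 0 < γ := pos_of_mul_pos_right (h0.trans_le g2) (by linarith)
  have k1 : 1 ≤ Λ * (1 + βm) * γ := by nlinarith
  have k2 : γ ≤ Λ := by linarith
  refine hFI _ M ![δ ^ 2, 1, 1] (3 * δ ^ 2) (fun i => add_pos (hd i) hρ) ?_
  rw [← g4]
  refine hM γ ![β, β', β] (k1.trans (mul_le_mul_of_nonneg_right hM' hγ.le)) (by nlinarith)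
    (fun i => by fin_cases i <;> simp <;> constructor <;> linarith) ?_
  have := hc (γ * (1 + β')) (γ * (1 + β)) (by positivity) (by gcongr)
    (k1.trans (mul_le_mul_of_nonneg_left (le_mul_of_one_le_right hγ.le (by linarith))
      (by positivity)))
    (mul_le_mul k2 (by linarith) (by linarith) (by linarith)) (fun h => by rw [g3 h])
  convert this using 2
  ext i
  fin_cases i <;> rfl

theorem RA_proof (hSP : SPStmt) (hSI : SI2Stmt) (hFI : FIStmt) (hRO : ROStmt) : RAStmt := by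
  intro Λ
  obtain ⟨Λ₂, h2, H2⟩ := ra_step hSP hSI hFI (le_max_right Λ 1)
  obtain ⟨Λ₃, h3, H3⟩ := ra_step hSP hSI hFI h2
  obtain ⟨M₃, hM₃⟩ := H3 Λ₃.toNNReal (Real.le_coe_toNNReal _)
  obtain ⟨M₂, hM₂⟩ := H2 (max M₃ Λ₂.toNNReal)
    ((Real.le_coe_toNNReal _).trans (NNReal.coe_le_coe.2 (le_max_right _ _)))
  refine ⟨max M₂ 1, le_max_right _ _, fun l R hl => hRO _ _ R (ra_mono ?_ (le_max_left _ _))⟩
  have hs := Tuple.monotone_sort l
  have key : RealAll (diag (l ∘ Tuple.sort l)) M₂ := by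
    refine hM₂ _ (hl _).2.1 (hs (by decide)) (hs (by decide))
      ((hl _).1.trans (mul_le_mul_of_nonneg_right (le_max_left _ _) (hl _).2.1.le))
      ((hl _).2.2.trans (le_max_left _ _)) fun a b a0 ab a1 b1 _ => ra_mono ?_ (le_max_left _ _)
    have k2 : RealAll (diag ![a, b, b]) M₃ := by
      refine hM₃ _ a0 ab le_rfl a1 b1 fun a' b' a0' _ a1' b1' he => ?_
      obtain rfl := he rfl
      have := ra_scalar (M := Λ₃.toNNReal) (c := a')
        (a1'.trans (mul_le_mul_of_nonneg_right (Real.le_coe_toNNReal _) a0'.le))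
        (b1'.trans (Real.le_coe_toNNReal _))
      convert this using 2
      ext i
      fin_cases i <;> rfl
    convert ra_perm hRO (Equiv.swap 0 1) k2 using 2
    ext i
    fin_cases i <;> rfl
  convert ra_perm hRO (Tuple.sort l).symm key using 2
  ext i
  simp

end Crest.Agent.R83
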