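import Crest.Agent.R83.RS
import Crest.Agent.R83.OB

/-! Row 83, task RL (realisation lemma). -/

set_option autoImplicit false

noncomputable section

namespace Crest.Agent.R83

open MeasureTheory Set Filter Topology Metric
open scoped Gradient RealInnerProductSpace NNReal ENNReal

lemma rl_gamma {ι : Type} [Finite ι] {M : ℝ≥0} (hM : 1 ≤ M) (u : ι → E → ℝ) {j : ι → E → E}
    (hj : ∀ i, Measurable (j i)) : ∃ γ : E → ℝ, Measurable γ ∧
      (∀ x, 1 ≤ (M : ℝ) * γ x ∧ γ x ≤ M) ∧ ∀ x, Final M u j x → ∀ i, j i x = γ x • ∇ (u i) x := by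
  have := Fintype.ofFinite ι
  have hM1 : (1 : ℝ) ≤ M := hM
  have hM0 : (0 : ℝ) < M := by linarith
  refine ⟨fun x => max (M : ℝ)⁻¹ (min M ((∑ i, ⟪j i x, ∇ (u i) x⟫) / ∑ i, ‖∇ (u i) x‖ ^ 2)), ?_,
    fun x => ⟨?_, ?_⟩, ?_⟩
  · exact measurable_const.max (measurable_const.min
      ((Finset.measurable_sum _ fun i _ => (hj i).inner (measurable_grad _)).div
        (Finset.measurable_sum _ fun i _ => (measurable_grad _).norm.pow_const 2)))
  · calc (1 : ℝ) = M * (M : ℝ)⁻¹ := (mul_inv_cancel₀ hM0.ne').symm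
      _ ≤ _ := mul_le_mul_of_nonneg_left (le_max_left _ _) hM0.le
  · exact max_le ((inv_le_one_of_one_le₀ hM1).trans hM1) (min_le_left _ _)
  · rintro x ⟨γ, h1, h2, h3⟩ i
    by_cases h0 : ∑ i, ‖∇ (u i) x‖ ^ 2 = 0
    · have := (Finset.sum_eq_zero_iff_of_nonneg (fun i _ => sq_nonneg _)).1 h0 i (Finset.mem_univ i)
      have h4 : ∇ (u i) x = 0 := by simpa using this
      rw [h3 i, h4, smul_zero, smul_zero]
    · have h4 : (∑ i, ⟪j i x, ∇ (u i) x⟫) / ∑ i, ‖∇ (u i) x‖ ^ 2 = γ := by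
        rw [div_eq_iff h0, Finset.mul_sum]
        exact Finset.sum_congr rfl fun i _ => by
          rw [h3 i, real_inner_smul_left, real_inner_self_eq_norm_sq]
      simp only [h4]
      rw [min_eq_right h2, max_eq_right ((inv_le_iff_one_le_mul₀' hM0).2 h1), h3 i]

lemma rl_null {G : ℕ → Set E} (h0 : volume (G 0) ≠ ⊤)
    (h : ∀ n, volume (G (n + 1)) ≤ 7 / 8 * volume (G n)) : volume (⋂ n, G n) = 0 := by
  have h1 : ∀ n, volume (⋂ n, G n) ≤ (7 / 8) ^ n * volume (G 0) := by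
    intro n
    refine (measure_mono (iInter_subset G n)).trans ?_
    induction n with
    | zero => simp
    | succ n ih =>
      refine (h n).trans ?_
      rw [pow_succ', mul_assoc]
      gcongr
  have h2 : Tendsto (fun n : ℕ => (7 / 8 : ℝ≥0∞) ^ n * volume (G 0)) atTop (𝓝 (0 * volume (G 0))) :=
    ENNReal.Tendsto.mul_const (ENNReal.tendsto_pow_atTop_nhds_zero_of_lt_one
      ((ENNReal.div_lt_iff (by norm_num) (by norm_num)).2 (by norm_num))) (Or.inr h0)
  rw [zero_mul] at h2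
  exact le_antisymm (ge_of_tendsto' h2 h1) zero_le

theorem RL_proof (hRS : RSStmt) (hZL : ZLStmt) : RLStmt := by
  classical
  intro Λ
  obtain ⟨M, hM, hstep⟩ := hRS Λ
  refine ⟨M, hM, fun ι _ u j G hGo hGb huj hG => ?_⟩
  choose K₀ hK₀ using fun i => (huj i).1
  obtain ⟨K₁, hK₁⟩ := (Set.finite_range K₀).bddAbove
  have hK₁ : ∀ i, K₀ i ≤ K₁ := fun i => hK₁ (mem_range_self i)
  set L : ℝ≥0 := K₁ + 1 with hL
  set K : ℝ≥0 := M * L with hK
  have hI0 : Inv Λ L K u j G := by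
    refine ⟨hGo, hGb, fun i => ⟨(hK₀ i).weaken ?_, (huj i).2⟩, fun x hx => ⟨hG x hx, fun i => ?_⟩⟩
    · exact ((hK₁ i).trans le_self_add).trans (le_mul_of_one_le_left zero_le hM)
    · refine (norm_grad_le (hK₀ i) x).trans_lt ?_
      exact_mod_cast (hK₁ i).trans_lt (lt_add_one K₁)
  choose! nu nj nG hI hsub hvol hprop hfin using fun (s : (ι → E → ℝ) × (ι → E → E) × Set E)
    (hs : Inv Λ L K s.1 s.2.1 s.2.2) => hstep ι s.1 s.2.1 s.2.2 L K le_rfl hs
  let S : ℕ → (ι → E → ℝ) × (ι → E → E) × Set E :=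
    fun n => Nat.rec (u, j, G) (fun _ s => (nu s, nj s, nG s)) n
  have hSI : ∀ n, Inv Λ L K (S n).1 (S n).2.1 (S n).2.2 := fun n => by
    induction n with
    | zero => exact hI0
    | succ n ih => exact hI _ ih
  obtain ⟨U, J, Gs, hU0, hJ0, hG0, hInv, hsub, hvol, hprop, hfin⟩ :
      ∃ (U : ℕ → ι → E → ℝ) (J : ℕ → ι → E → E) (Gs : ℕ → Set E), U 0 = u ∧ J 0 = j ∧ Gs 0 = G ∧
        (∀ n, Inv Λ L K (U n) (J n) (Gs n)) ∧ (∀ n, Gs (n + 1) ⊆ Gs n) ∧
        (∀ n, volume (Gs (n + 1)) ≤ 7 / 8 * volume (Gs n)) ∧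
        (∀ n i, DivFree (fun x => J (n + 1) i x - J n i x) ∧
          (∀ x, x ∉ Gs n → U (n + 1) i x = U n i x ∧ J (n + 1) i x = J n i x) ∧
          ∀ᵐ x, x ∈ Gs n → ‖J n i x‖ ≤ M * K ∧ ‖J (n + 1) i x‖ ≤ M * K) ∧
        ∀ n, ∀ᵐ x, x ∈ Gs n → x ∉ Gs (n + 1) → Final M (U (n + 1)) (J (n + 1)) x :=
    ⟨fun n => (S n).1, fun n => (S n).2.1, fun n => (S n).2.2, rfl, rfl, rfl, hSI,
      fun n => hsub _ (hSI n), fun n => hvol _ (hSI n), fun n => hprop _ (hSI n),
      fun n => hfin _ (hSI n)⟩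
  have hanti : Antitone Gs := antitone_nat_of_succ_le hsub
  have hconst : ∀ i x n, x ∉ Gs n → ∀ m, n ≤ m → U m i x = U n i x ∧ J m i x = J n i x := by
    intro i x n hx m hm
    induction m, hm using Nat.le_induction with
    | base => exact ⟨rfl, rfl⟩
    | succ m hm ih =>
      have := (hprop m i).2.1 x (fun h => hx (hanti hm h))
      exact ⟨this.1.trans ih.1, this.2.trans ih.2⟩
  have hnull : ∀ᵐ x, x ∉ ⋂ n, Gs n := measure_eq_zero_iff_ae_notMem.1
    (rl_null (hG0 ▸ hGb.measure_lt_top.ne) hvol)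
  -- the limit of the potentials
  have hlim : ∀ i, ∃ w : E → ℝ, LipschitzWith K w ∧ ∀ n x, x ∉ Gs n → w x = U n i x := by
    intro i
    let w₀ : E → ℝ := fun x => if h : ∃ n, x ∉ Gs n then U h.choose i x else 0
    have hw₀ : ∀ n x, x ∉ Gs n → w₀ x = U n i x := fun n x hx => by
      have h : ∃ n, x ∉ Gs n := ⟨n, hx⟩
      simp only [w₀, dif_pos h]
      rw [← (hconst i x _ h.choose_spec _ (le_max_left _ n)).1, (hconst i x n hx _ (le_max_right _ n)).1]
    have hl : LipschitzOnWith K w₀ {x | ∃ n, x ∉ Gs n} := by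
      rintro x ⟨n, hn⟩ y ⟨m, hm⟩
      rw [hw₀ (max n m) x (fun h => hn (hanti (le_max_left _ _) h)),
        hw₀ (max n m) y (fun h => hm (hanti (le_max_right _ _) h))]
      exact ((hInv _).2.2.1 i).1 x y
    obtain ⟨w, hw, he⟩ := hl.extend_real
    exact ⟨w, hw, fun n x hx => (he ⟨n, hx⟩).symm.trans (hw₀ n x hx)⟩
  choose u' hu' hu'e using hlim
  set B : ℕ → Set E := fun n => Gs n \ Gs (n + 1) with hB
  have hBd : Pairwise fun a b => Disjoint (B a) (B b) := fun a b hab => by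
    rcases lt_or_gt_of_ne hab with h | h
    · exact disjoint_left.2 fun x hx hx' => hx.2 (hanti h hx'.1)
    · exact disjoint_left.2 fun x hx hx' => hx'.2 (hanti h hx.1)
  have hBm : ∀ n, MeasurableSet (B n) := fun n =>
    (hInv n).1.measurableSet.diff (hInv (n + 1)).1.measurableSet
  set j' : ι → E → E := fun i => rsGlue B (fun n => J (n + 1) i) (j i) with hj'
  have hj'm : ∀ i, Measurable (j' i) := fun i =>
    rs_glue_meas hBd hBm (fun n => ((hInv (n + 1)).2.2.1 i).2) (huj i).2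
  have hex : ∀ x ∈ G, x ∉ (⋂ n, Gs n) → ∃ n, x ∈ B n := fun x hx hx' => by
    by_contra hc
    refine hx' (mem_iInter.2 fun n => ?_)
    induction n with
    | zero => exact hG0 ▸ hx
    | succ n ih => by_contra h; exact hc ⟨n, ih, h⟩
  have hout : ∀ i x, x ∉ G → j' i x = j i x := fun i x hx =>
    rs_glue_not _ _ fun h => by
      obtain ⟨n, hn⟩ := mem_iUnion.1 h
      exact hx (hG0 ▸ hanti (Nat.zero_le n) hn.1)
  have hJb : ∀ i n, ∀ᵐ x, x ∈ G → ‖J n i x‖ ≤ M * K := fun i n => by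
    induction n with
    | zero => filter_upwards [(hprop 0 i).2.2] with x hx hx' using (hx (hG0 ▸ hx')).1
    | succ n ih =>
      filter_upwards [(hprop n i).2.2, ih] with x h1 h2 hx
      by_cases h : x ∈ Gs n
      · exact (h1 h).2
      · rw [((hprop n i).2.1 x h).2]; exact h2 hx
  have hMK : (0 : ℝ) ≤ M * K := by positivity
  have hDF : ∀ i n, obDF (fun x => J n i x - j i x) := fun i n => by
    induction n with
    | zero => intro φ _ _; simp [hJ0]
    | succ n ih =>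
      have h1 : obDF (fun x => J (n + 1) i x - J n i x) := fun φ h1 h2 =>
        ⟨ob_integrable (C := M * K + M * K)
          (((hInv (n + 1)).2.2.1 i).2.sub ((hInv n).2.2.1 i).2) (by
            filter_upwards [(hprop n i).2.2] with x hx
            by_cases h : x ∈ Gs n
            · exact (norm_sub_le _ _).trans (add_le_add (hx h).2 (hx h).1)
            · rw [Pi.sub_apply, ((hprop n i).2.1 x h).2, sub_self, norm_zero]; linarith) h1 h2,
          (hprop n i).1 φ h1 h2⟩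
      simpa only [sub_add_sub_cancel] using h1.add ih
  obtain ⟨γ, hγm, hγ, hγe⟩ := rl_gamma hM u' hj'm
  refine ⟨u', j', γ, M * K, hγm, hγ, fun i => ⟨⟨K, hu' i⟩, hj'm i, ?_,
    fun x hx => ⟨by rw [hu'e i 0 x (hG0 ▸ hx), hU0], hout i x hx⟩, ?_⟩, ?_⟩
  · rintro φ ⟨Kφ, hφ⟩ hc
    have hint : Integrable (G.indicator fun _ : E => (M * K + M * K) * (Kφ : ℝ)) :=
      (integrable_indicator_iff hGo.measurableSet).2 (integrableOn_const hGb.measure_lt_top.ne)
    have ht := tendsto_integral_of_dominated_convergence (μ := volume)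
      (F := fun n x => ⟪J n i x - j i x, ∇ φ x⟫) (f := fun x => ⟪j' i x - j i x, ∇ φ x⟫) _
      (fun n => (hDF i n φ ⟨Kφ, hφ⟩ hc).1.aestronglyMeasurable) hint (fun n => by
        filter_upwards [hJb i n, hJb i 0] with x h1 h2
        by_cases hx : x ∈ G
        · rw [indicator_of_mem hx]
          refine (norm_inner_le_norm _ _).trans (mul_le_mul ((norm_sub_le _ _).trans
            (add_le_add (h1 hx) (hJ0 ▸ h2 hx))) (norm_grad_le hφ x) (norm_nonneg _) (by linarith))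
        · rw [indicator_of_notMem hx, (hconst i x 0 (hG0 ▸ hx) n (Nat.zero_le n)).2, hJ0]
          simp) (by
        filter_upwards [hnull] with x hx
        refine tendsto_const_nhds.congr' ?_
        by_cases hxG : x ∈ G
        · obtain ⟨n, hn⟩ := hex x hxG hx
          filter_upwards [eventually_ge_atTop (n + 1)] with m hm
          rw [(hconst i x (n + 1) hn.2 m hm).2]
          simp only [hj']
          rw [rs_glue_mem hBd _ _ hn]
        · refine Eventually.of_forall fun m => ?_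
          simp only
          rw [(hconst i x 0 (hG0 ▸ hxG) m (Nat.zero_le m)).2, hJ0, hout i x hxG])
    simp only [fun n => (hDF i n φ ⟨Kφ, hφ⟩ hc).2] at ht
    exact tendsto_nhds_unique ht tendsto_const_nhds
  · filter_upwards [hnull, ae_all_iff.2 (hJb i)] with x h1 h2 hx
    obtain ⟨n, hn⟩ := hex x hx h1
    simp only [hj']
    rw [rs_glue_mem hBd _ _ hn]
    exact h2 (n + 1) hx
  · have hz : ∀ᵐ x, ∀ n i, u' i x = U n i x → ∇ (u' i) x = ∇ (U n i) x :=
      ae_all_iff.2 fun n => ae_all_iff.2 fun i =>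
        hZL.2.1 _ _ (hu' i).locallyLipschitz ((hInv n).2.2.1 i).1.locallyLipschitz
    filter_upwards [hnull, hz, ae_all_iff.2 hfin] with x h1 h2 h3 hx
    obtain ⟨n, hn⟩ := hex x hx h1
    obtain ⟨c, c1, c2, c3⟩ := h3 n hn.1 hn.2
    refine hγe x ⟨c, c1, c2, fun i => ?_⟩
    rw [h2 (n + 1) i (hu'e i (n + 1) x hn.2), ← c3 i]
    exact rs_glue_mem hBd _ _ hn

end Crest.Agent.R83
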