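import Crest.Agent.R83.Basic

/-! Row 83, task RO: realisability is invariant under rotations. -/

set_option autoImplicit false

noncomputable section

namespace Crest.Agent.R83

open MeasureTheory Set Filter Topology Metric
open scoped Gradient RealInnerProductSpace NNReal

theorem RO_proof (hST : STStmt) : ROStmt := by
  intro A M R h Ω hΩ hb
  obtain ⟨-, -, s3, s4, s5, s6⟩ := hST R.symm 1 0 R.symm one_pos (fun x => by simp)
  obtain ⟨γ, hγ, hp⟩ := h (R ⁻¹' Ω) (hΩ.preimage R.continuous)
    (R.isometry.antilipschitz.isBounded_preimage hb)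
  refine ⟨fun x => γ (R.symm x), fun x => hγ _, fun p => ?_⟩
  obtain ⟨w, k, ⟨p1, p2, p3, p4, p5, p6⟩, hw⟩ := hp (R.symm p)
  rw [LinearIsometryEquiv.nnnorm_map] at p1 p4
  refine ⟨fun x => w (R.symm x), fun x => R (k (R.symm x)), ⟨?_, fun x hx => p2 _ ?_,
    R.continuous.measurable.comp (p3.comp R.symm.continuous.measurable), ?_, fun x hx => ?_,
    s5 k p6⟩, ?_⟩
  · simpa using s6 w _ p1
  · simpa using hx
  · simpa using s4 _ p4
  · rw [p5 _ (by simpa using hx), map_zero]
  · filter_upwards [s4 _ hw] with x h1 hx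
    have h2 := congrArg R (h1 (by simpa using hx))
    rw [s3]
    simpa using h2

end Crest.Agent.R83
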