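import Crest.Agent.R83.Basic

/-! Row 83, task RS (one generation of the exhaustion). -/

set_option autoImplicit false

noncomputable section

namespace Crest.Agent.R83

open MeasureTheory Set Filter Topology Metric
open scoped Gradient RealInnerProductSpace NNReal

lemma rs_good_congr {ι : Type} {Λ : ℝ} {u u' : ι → E → ℝ} {j j' : ι → E → E} {x : E}
    (h : Good Λ u j x) (he : ∀ i, ∀ᶠ y in 𝓝 x, u' i y = u i y ∧ j' i y = j i y) :
    Good Λ u' j' x := by
  obtain ⟨v₁, v₂, α, β, δ, h1, h2, h3, h4, h5, h6, h7⟩ := h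
  refine ⟨v₁, v₂, α, β, δ, h1, h2, h3, h4, h5, h6, fun i => ?_⟩
  obtain ⟨c₀, c₁, c₂, hc⟩ := h7 i
  refine ⟨c₀, c₁, c₂, ?_⟩
  filter_upwards [hc, he i] with y hy hy'
  rw [hy'.1, hy'.2]
  exact hy

lemma rs_final_congr {ι : Type} {M : ℝ≥0} {u u' : ι → E → ℝ} {j j' : ι → E → E} {x : E}
    (h : Final M u j x) (he : ∀ i, ∀ᶠ y in 𝓝 x, u' i y = u i y ∧ j' i y = j i y) :
    Final M u' j' x := by
  obtain ⟨γ, h1, h2, h3⟩ := h
  refine ⟨γ, h1, h2, fun i => ?_⟩
  rw [(he i).self_of_nhds.2, h3 i, grad_congr ((he i).mono fun y hy => hy.1)]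

lemma rs_annulus (x : E) {r : ℝ} (hr : 0 < r) :
    volume (ball x r \ closedBall x (r / 2)) ≤ 7 / 8 * volume (ball x r) := by
  rw [measure_sdiff (closedBall_subset_ball (by linarith)) measurableSet_closedBall.nullMeasurableSet
    measure_closedBall_lt_top.ne, tsub_le_iff_right,
    Measure.addHaar_closedBall volume x (by linarith : 0 ≤ r / 2),
    Measure.addHaar_ball_of_pos volume x hr, finrank_euclideanSpace, Fintype.card_fin]
  have h1 : ENNReal.ofReal ((r / 2) ^ 3) = 1 / 8 * ENNReal.ofReal (r ^ 3) := by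
    rw [show (r / 2) ^ 3 = 1 / 8 * r ^ 3 by ring, ENNReal.ofReal_mul (by norm_num),
      ENNReal.ofReal_div_of_pos (by norm_num)]
    simp
  rw [h1, mul_assoc, ← add_mul, ENNReal.div_add_div_same]
  have h2 : ((7 + 1) / 8 : ENNReal) = 1 := by
    rw [show (7 + 1 : ENNReal) = 8 by norm_num]
    exact ENNReal.div_self (by norm_num) (by norm_num)
  rw [h2, one_mul]

open Classical in
/-- Piecewise definition on a disjoint family. -/
def rsGlue {κ β : Type} (B : κ → Set E) (f : κ → E → β) (g : E → β) (y : E) : β :=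
  if h : ∃ b, y ∈ B b then f h.choose y else g y

lemma rs_glue_mem {κ β : Type} {B : κ → Set E} (hB : Pairwise fun a b => Disjoint (B a) (B b))
    (f : κ → E → β) (g : E → β) {b : κ} {y : E} (hy : y ∈ B b) : rsGlue B f g y = f b y := by
  have h : ∃ b, y ∈ B b := ⟨b, hy⟩
  unfold rsGlue
  rw [dif_pos h]
  by_contra hne
  have : h.choose ≠ b := fun e => hne (by rw [e])
  exact disjoint_left.1 (hB this) h.choose_spec hy

lemma rs_glue_not {κ β : Type} {B : κ → Set E} (f : κ → E → β) (g : E → β) {y : E}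
    (hy : y ∉ ⋃ b, B b) : rsGlue B f g y = g y := by
  unfold rsGlue
  rw [dif_neg (by simpa using hy)]

lemma rs_glue_meas {κ β : Type} [Countable κ] [MeasurableSpace β] {B : κ → Set E}
    (hB : Pairwise fun a b => Disjoint (B a) (B b)) (hm : ∀ b, MeasurableSet (B b))
    {f : κ → E → β} {g : E → β} (hf : ∀ b, Measurable (f b)) (hg : Measurable g) :
    Measurable (rsGlue B f g) := by
  intro s hs
  have : rsGlue B f g ⁻¹' s = (⋃ b, B b ∩ f b ⁻¹' s) ∪ ((⋃ b, B b)ᶜ ∩ g ⁻¹' s) := by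
    ext y
    by_cases hy : y ∈ ⋃ b, B b
    · obtain ⟨b, hb⟩ := mem_iUnion.1 hy
      rw [mem_preimage, rs_glue_mem hB f g hb]
      constructor
      · exact fun h => Or.inl (mem_iUnion.2 ⟨b, hb, h⟩)
      · rintro (h | h)
        · obtain ⟨b', hb', h⟩ := mem_iUnion.1 h
          rw [← rs_glue_mem hB f g hb, rs_glue_mem hB f g hb']
          exact h
        · exact absurd hy h.1
    · rw [mem_preimage, rs_glue_not f g hy]
      constructor
      · exact fun h => Or.inr ⟨hy, h⟩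
      · rintro (h | h)
        · obtain ⟨b', hb', -⟩ := mem_iUnion.1 h
          exact absurd (mem_iUnion.2 ⟨b', hb'⟩) hy
        · exact h.2
  rw [this]
  exact (MeasurableSet.iUnion fun b => (hm b).inter (hf b hs)).union
    ((MeasurableSet.iUnion hm).compl.inter (hg hs))

/-- A countable disjoint sum of divergence-free fields is divergence free. -/
lemma rs_divFree {κ : Type} [Countable κ] {B : κ → Set E}
    (hB : Pairwise fun a b => Disjoint (B a) (B b)) (hm : ∀ b, MeasurableSet (B b))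
    (hfin : volume (⋃ b, B b) ≠ ⊤) {k : E → E} {kb : κ → E → E} (hk : Measurable k) {C : ℝ}
    (hC : ∀ᵐ x, x ∈ (⋃ b, B b) → ‖k x‖ ≤ C) (h0 : ∀ x, x ∉ (⋃ b, B b) → k x = 0)
    (h1 : ∀ b, ∀ x ∈ B b, k x = kb b x) (h2 : ∀ b x, x ∉ B b → kb b x = 0)
    (hd : ∀ b, DivFree (kb b)) : DivFree k := by
  rintro φ ⟨K, hK⟩ hφ
  have hU := MeasurableSet.iUnion hm
  have hint : IntegrableOn (fun x => ⟪k x, ∇ φ x⟫) (⋃ b, B b) := by
    refine Measure.integrableOn_of_bounded (M := C * K) hfin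
      (hk.inner (measurable_grad φ)).aestronglyMeasurable ?_
    rw [ae_restrict_iff' hU]
    filter_upwards [hC] with x hx hx'
    exact (norm_inner_le_norm _ _).trans
      (mul_le_mul (hx hx') (norm_grad_le hK x) (norm_nonneg _) ((norm_nonneg _).trans (hx hx')))
  rw [← setIntegral_eq_integral_of_forall_compl_eq_zero (s := ⋃ b, B b)
    (fun x hx => by rw [h0 x hx, inner_zero_left]), integral_iUnion hm hB hint]
  have : ∀ b, ∫ x in B b, ⟪k x, ∇ φ x⟫ = 0 := fun b => by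
    rw [setIntegral_congr_fun (hm b) (g := fun x => ⟪kb b x, ∇ φ x⟫)
      (fun x hx => by simp only [h1 b x hx]),
      setIntegral_eq_integral_of_forall_compl_eq_zero
        (fun x hx => by rw [h2 b x hx, inner_zero_left])]
    exact hd b φ ⟨K, hK⟩ hφ
  simp only [this, tsum_zero]

theorem RS_proof (hOB : OBStmt) (hGL : GLStmt) (hGB : GBStmt) : RSStmt := by
  intro Λ
  obtain ⟨M, hM1, hΛ, hM⟩ := hOB Λ
  refine ⟨M, hM1, fun ι _ u j G L K hK hI => ?_⟩
  obtain ⟨hGo, hGb, huj, hG⟩ := hI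
  obtain ⟨t, r, htc, htG, hr, hcov, hdis⟩ := Besicovitch.exists_disjoint_closedBall_covering_ae
    (volume : Measure E) (fun x₀ => {r | closedBall x₀ r ⊆ G ∧
      ∃ (u' : ι → E → ℝ) (j' : ι → E → E),
        (∀ i, LipschitzWith K (u' i) ∧ Measurable (j' i) ∧ DivFree (fun x => j' i x - j i x) ∧
          ∀ x, x ∉ ball x₀ r → u' i x = u i x ∧ j' i x = j i x) ∧
        (∀ x ∈ ball x₀ r, x ∉ closedBall x₀ (r / 2) → Good Λ u' j' x ∧ ∀ i, ‖∇ (u' i) x‖ < L) ∧
        ∀ᵐ x, x ∈ ball x₀ (r / 2) → Final M u' j' x}) G (fun x hx δ hδ => by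
      have e1 := hM ι u j x L K hK (fun i => (huj i).1) (fun i => (huj i).2) (hG x hx).1 (hG x hx).2
      have e2 : ∀ᶠ r in 𝓝[>] (0 : ℝ), closedBall x r ⊆ G :=
        (eventually_closedBall_subset (hGo.mem_nhds hx)).filter_mono nhdsWithin_le_nhds
      have e3 : ∀ᶠ r in 𝓝[>] (0 : ℝ), r ∈ Ioo 0 δ := Ioo_mem_nhdsGT hδ
      obtain ⟨r, h1, h2, h3⟩ := (e1.and (e2.and e3)).exists
      exact ⟨r, ⟨h2, h1⟩, h3⟩) (fun _ => 1) (fun _ _ => one_pos)
  have : Countable t := htc.to_subtype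
  choose U Jf hU hA hF using fun b : t => (hr b b.2).1.2
  have hr0 : ∀ b : t, 0 < r b := fun b => (hr b b.2).2.1
  set B : t → Set E := fun b => ball (b : E) (r b) with hBdef
  have hBG : ∀ b, B b ⊆ G := fun b => ball_subset_closedBall.trans (hr b b.2).1.1
  have hB : Pairwise fun a b => Disjoint (B a) (B b) := fun a b hab =>
    (hdis a.2 b.2 (fun e => hab (Subtype.ext e))).mono ball_subset_closedBall ball_subset_closedBall
  have hBm : ∀ b, MeasurableSet (B b) := fun b => measurableSet_ball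
  have hUG : (⋃ b, B b) ⊆ G := iUnion_subset hBG
  set u' : ι → E → ℝ := fun i => rsGlue B (fun b => U b i) (u i) with hu'
  set j' : ι → E → E := fun i => rsGlue B (fun b => Jf b i) (j i) with hj'
  have hloc : ∀ b, ∀ x ∈ B b, ∀ i, ∀ᶠ y in 𝓝 x, u' i y = U b i y ∧ j' i y = Jf b i y := by
    intro b x hx i
    filter_upwards [isOpen_ball.mem_nhds hx] with y hy
    exact ⟨rs_glue_mem hB _ _ hy, rs_glue_mem hB _ _ hy⟩
  have hlip : ∀ i, LipschitzWith K (u' i) := fun i =>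
    lipschitzOnWith_univ.1 (hGL t univ B (u i) (u' i) (fun b => U b i) K convex_univ
      (fun b => isOpen_ball) hB (huj i).1.lipschitzOnWith (fun b => (hU b i).1.lipschitzOnWith)
      (fun b x hx => ((hU b i).2.2.2 x (fun h => by
        have := hx.2
        rw [isOpen_ball.frontier_eq] at this
        exact this.2 h)).1)
      (fun b x hx => rs_glue_mem hB _ _ hx.2) (fun x hx => rs_glue_not _ _ hx.2))
  have hmeas : ∀ i, Measurable (j' i) := fun i =>
    rs_glue_meas hB hBm (fun b => (hU b i).2.1) (huj i).2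
  set G' : Set E := ⋃ b : t, (B b \ closedBall (b : E) (r b / 2)) with hG'
  have hgood : ∀ x ∈ G', Good Λ u' j' x ∧ ∀ i, ‖∇ (u' i) x‖ < L := by
    intro x hx
    obtain ⟨b, hb, hb'⟩ := mem_iUnion.1 hx
    obtain ⟨g1, g2⟩ := hA b x hb hb'
    refine ⟨rs_good_congr g1 (hloc b x hb), fun i => ?_⟩
    rw [grad_congr ((hloc b x hb i).mono fun y hy => hy.1)]
    exact g2 i
  have hG'G : G' ⊆ G := iUnion_subset fun b => sdiff_subset.trans (hBG b)
  have hfinal : ∀ᵐ x, x ∈ G → x ∉ G' → Final M u' j' x := by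
    have a1 : ∀ᵐ x, x ∉ G \ ⋃ x ∈ t, closedBall x (r x) := measure_eq_zero_iff_ae_notMem.1 hcov
    have a2 : ∀ᵐ x, ∀ b : t, x ∉ sphere (b : E) (r b) :=
      ae_all_iff.2 fun b => measure_eq_zero_iff_ae_notMem.1 (Measure.addHaar_sphere volume _ _)
    have a3 : ∀ᵐ x, ∀ b : t, x ∉ sphere (b : E) (r b / 2) :=
      ae_all_iff.2 fun b => measure_eq_zero_iff_ae_notMem.1 (Measure.addHaar_sphere volume _ _)
    filter_upwards [a1, a2, a3, ae_all_iff.2 hF] with x h1 h2 h3 h4 hx hx'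
    have h5 : x ∈ ⋃ x ∈ t, closedBall x (r x) := by
      by_contra h; exact h1 ⟨hx, h⟩
    obtain ⟨b, hb, hxb⟩ := mem_iUnion₂.1 h5
    have h6 : x ∈ B ⟨b, hb⟩ := lt_of_le_of_ne hxb (h2 ⟨b, hb⟩)
    have h7 : x ∈ closedBall b (r b / 2) := by
      by_contra h; exact hx' (mem_iUnion.2 ⟨⟨b, hb⟩, h6, h⟩)
    exact rs_final_congr (h4 ⟨b, hb⟩ (lt_of_le_of_ne h7 (h3 ⟨b, hb⟩))) (hloc _ x h6)
  have hbd : ∀ (u : ι → E → ℝ) (j : ι → E → E) (x : E) (i : ι), Good Λ u j x →
      LipschitzWith K (u i) → ‖j i x‖ ≤ M * K := fun u j x i h hl => by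
    obtain ⟨h0, h1⟩ := hGB.2.2.2.2 ι Λ u j x h
    exact (h1 i).2.trans (mul_le_mul hΛ (norm_grad_le hl x) (norm_nonneg _) M.2)
  have hbound : ∀ i, ∀ᵐ x, x ∈ G → ‖j i x‖ ≤ M * K ∧ ‖j' i x‖ ≤ M * K := by
    intro i
    filter_upwards [hfinal] with x hx hxG
    refine ⟨hbd u j x i (hG x hxG).1 (huj i).1, ?_⟩
    by_cases h : x ∈ G'
    · exact hbd u' j' x i (hgood x h).1 (hlip i)
    · obtain ⟨γ, h1, h2, h3⟩ := hx hxG h
      have hγ : 0 ≤ γ := by
        by_contra hn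
        have : (M : ℝ) * γ ≤ 0 := mul_nonpos_of_nonneg_of_nonpos M.2 (not_le.1 hn).le
        linarith
      rw [h3 i, norm_smul, Real.norm_of_nonneg hγ]
      exact mul_le_mul h2 (norm_grad_le (hlip i) x) (norm_nonneg _) M.2
  refine ⟨u', j', G', ⟨isOpen_iUnion fun b => isOpen_ball.sdiff isClosed_closedBall,
    hGb.subset hG'G, fun i => ⟨hlip i, hmeas i⟩, hgood⟩, hG'G, ?_, fun i => ⟨?_, fun x hx => ?_,
    hbound i⟩, hfinal⟩
  · calc volume G' ≤ ∑' b : t, volume (B b \ closedBall (b : E) (r b / 2)) := measure_iUnion_le _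
      _ ≤ ∑' b : t, 7 / 8 * volume (B b) := ENNReal.tsum_le_tsum fun b => rs_annulus _ (hr0 b)
      _ = 7 / 8 * volume (⋃ b, B b) := by rw [ENNReal.tsum_mul_left, measure_iUnion hB hBm]
      _ ≤ 7 / 8 * volume G := by gcongr
  · refine rs_divFree (kb := fun b x => Jf b i x - j i x) (C := M * K + M * K) hB hBm
      ((measure_mono hUG).trans_lt hGb.measure_lt_top).ne ((hmeas i).sub (huj i).2) ?_
      (fun x hx => ?_) (fun b x hx => ?_) (fun b x hx => ?_) (fun b => (hU b i).2.2.1)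
    · filter_upwards [hbound i] with x hx hx'
      exact (norm_sub_le _ _).trans (add_le_add (hx (hUG hx')).2 (hx (hUG hx')).1)
    · exact sub_eq_zero.2 (rs_glue_not _ _ hx)
    · rw [(hloc b x hx i).self_of_nhds.2]
    · exact sub_eq_zero.2 ((hU b i).2.2.2 x hx).2
  · have : x ∉ ⋃ b, B b := fun h => hx (hUG h)
    exact ⟨rs_glue_not _ _ this, rs_glue_not _ _ this⟩

end Crest.Agent.R83
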