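import Crest.Agent.R83.Basic

/-! Row 83, task SI1: the confocal coordinate. -/

set_option autoImplicit false

noncomputable section

namespace Crest.Agent.R83

open MeasureTheory Set Filter Topology Metric
open scoped Gradient RealInnerProductSpace NNReal

def si1_Phi (d : Fin 3 → ℝ) (x : E) (s : ℝ) : ℝ := ∑ i, x i ^ 2 / (d i + s)

def si1_k (d : Fin 3 → ℝ) (l : Fin 3) (s : ℝ) : ℝ :=
  1 / ((d l + s) * √((d 0 + s) * (d 1 + s) * (d 2 + s)))

def si1_g (d : Fin 3 → ℝ) (ρe : ℝ) (l : Fin 3) (r : ℝ) : ℝ := ∫ s in r..ρe, si1_k d l s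

lemma si1_k_cont {d : Fin 3 → ℝ} (hd : ∀ i, 0 < d i) (l : Fin 3) {s : ℝ} (hs : 0 ≤ s) :
    ContinuousAt (si1_k d l) s := by
  unfold si1_k
  have := hd 0; have := hd 1; have := hd 2; have := hd l
  refine ContinuousAt.div continuousAt_const (by fun_prop) (by positivity)

lemma si1_k_int {d : Fin 3 → ℝ} (hd : ∀ i, 0 < d i) (l : Fin 3) {a b : ℝ} (ha : 0 ≤ a) (hb : 0 ≤ b) :
    IntervalIntegrable (si1_k d l) volume a b :=
  ContinuousOn.intervalIntegrable fun _ hs =>
    (si1_k_cont hd l (le_trans (le_min ha hb) hs.1)).continuousWithinAt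

lemma si1_k_bd {d : Fin 3 → ℝ} (hd : ∀ i, 0 < d i) (l : Fin 3) {s : ℝ} (hs : 0 ≤ s) :
    |si1_k d l s| ≤ si1_k d l 0 := by
  unfold si1_k
  have := hd 0; have := hd 1; have := hd 2; have := hd l
  rw [abs_of_nonneg (by positivity)]
  gcongr

lemma si1_g_deriv {d : Fin 3 → ℝ} (hd : ∀ i, 0 < d i) {ρe : ℝ} (hρ : 0 < ρe) (l : Fin 3) {r : ℝ}
    (hr : 0 ≤ r) : HasDerivAt (si1_g d ρe l) (-si1_k d l r) r := by
  refine intervalIntegral.integral_hasDerivAt_left (si1_k_int hd l hr hρ.le) ?_ (si1_k_cont hd l hr)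
  have : Measurable (si1_k d l) := by unfold si1_k; fun_prop
  exact this.stronglyMeasurable.stronglyMeasurableAtFilter

lemma si1_g_sum {d : Fin 3 → ℝ} (hd : ∀ i, 0 < d i) {ρe : ℝ} (hρ : 0 < ρe) {r : ℝ} (hr : 0 ≤ r) :
    si1_g d ρe 0 r + si1_g d ρe 1 r + si1_g d ρe 2 r = PP d r - PP d ρe := by
  unfold si1_g
  have i0 := si1_k_int hd 0 hr hρ.le
  have i1 := si1_k_int hd 1 hr hρ.le
  have i2 := si1_k_int hd 2 hr hρ.le
  rw [← intervalIntegral.integral_add i0 i1, ← intervalIntegral.integral_add (i0.add i1) i2,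
    intervalIntegral.integral_eq_sub_of_hasDerivAt (f := fun s => -PP d s) _ ((i0.add i1).add i2)]
  · ring
  intro s hs
  have hs0 : 0 ≤ s := le_trans (le_min hr hρ.le) hs.1
  have h0 : 0 < d 0 + s := by have := hd 0; linarith
  have h1 : 0 < d 1 + s := by have := hd 1; linarith
  have h2 : 0 < d 2 + s := by have := hd 2; linarith
  have hP : 0 < (d 0 + s) * (d 1 + s) * (d 2 + s) := by positivity
  have a := ((((hasDerivAt_id s).const_add (d 0)).mul ((hasDerivAt_id s).const_add (d 1))).mul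
    ((hasDerivAt_id s).const_add (d 2))).sqrt (by simpa using hP.ne')
  have hq : 0 < √((d 0 + s) * (d 1 + s) * (d 2 + s)) := Real.sqrt_pos.2 hP
  have b := ((hasDerivAt_const s (2 : ℝ)).div a (by simpa using hq.ne')).neg
  refine b.congr_deriv ?_
  unfold si1_k
  simp only [id, Pi.mul_apply]
  rw [Real.sq_sqrt hP.le]
  field_simp
  ring

lemma si1_exists {d : Fin 3 → ℝ} (hd : ∀ i, 0 < d i) {ρe : ℝ} (hρ : 0 < ρe) (x : E) :
    ∃ r : ℝ, 0 ≤ r ∧ r ≤ ρe ∧ (0 < r → 1 ≤ si1_Phi d x r) ∧ (r < ρe → si1_Phi d x r ≤ 1) := by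
  by_cases h0 : si1_Phi d x 0 ≤ 1
  · exact ⟨0, le_rfl, hρ.le, fun h => absurd h (lt_irrefl _), fun _ => h0⟩
  by_cases h1 : 1 ≤ si1_Phi d x ρe
  · exact ⟨ρe, hρ.le, le_rfl, fun _ => h1, fun h => absurd h (lt_irrefl _)⟩
  have hc : ContinuousOn (si1_Phi d x) (Icc 0 ρe) := by
    unfold si1_Phi
    refine continuousOn_finsetSum _ fun i _ => ContinuousOn.div continuousOn_const (by fun_prop) ?_
    intro s hs
    have := hd i; have := hs.1; positivity
  obtain ⟨r, hr, e⟩ := intermediate_value_Icc' hρ.le hc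
    (show (1 : ℝ) ∈ Icc (si1_Phi d x ρe) (si1_Phi d x 0) from ⟨(not_le.1 h1).le, (not_le.1 h0).le⟩)
  exact ⟨r, hr.1, hr.2, fun _ => e.ge, fun _ => e.le⟩

lemma si1_Phi_le {d : Fin 3 → ℝ} (hd : ∀ i, 0 < d i) (x : E) {r r' D : ℝ} (hr : 0 ≤ r) (hrr : r ≤ r')
    (hD : ∀ i, d i + r' ≤ D) : si1_Phi d x r' ≤ (1 - (r' - r) / D) * si1_Phi d x r := by
  unfold si1_Phi
  rw [Finset.mul_sum]
  refine Finset.sum_le_sum fun i _ => ?_
  have h0 := hd i
  have h1 : 0 < d i + r := by linarith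
  have h2 : 0 < d i + r' := by linarith
  have h3 := hD i
  have h4 : (r' - r) / D ≤ (r' - r) / (d i + r') := by gcongr
  calc x i ^ 2 / (d i + r') = (1 - (r' - r) / (d i + r')) * (x i ^ 2 / (d i + r)) := by
        field_simp; ring
    _ ≤ _ := by gcongr

lemma si1_two {d : Fin 3 → ℝ} (hd : ∀ i, 0 < d i) {ρe : ℝ} (hρ : 0 < ρe) :
    ∃ C : ℝ, 0 ≤ C ∧ ∀ (x x' : E) (r r' : ℝ), 0 ≤ r → r < r' → r' ≤ ρe → si1_Phi d x r ≤ 1 →
      1 ≤ si1_Phi d x' r' → r' - r ≤ C * ‖x' - x‖ := by
  have h0 := hd 0; have h1 := hd 1; have h2 := hd 2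
  set D := d 0 + d 1 + d 2 + ρe with hD
  set m := 1 / d 0 + 1 / d 1 + 1 / d 2 with hm
  have hD0 : 0 < D := by positivity
  have hm0 : 0 < m := by positivity
  refine ⟨D * (1 + 6 * m), by positivity, fun x x' r r' hr hrr hr' hx hx' => ?_⟩
  have a1 := si1_Phi_le hd x (D := D) hr hrr.le fun i => by
    fin_cases i <;> simp <;> linarith
  set τ := (r' - r) / D with hτ
  have hτ0 : 0 < τ := div_pos (by linarith) hD0
  have hτ1 : τ ≤ 1 := by rw [hτ, div_le_one hD0]; linarith
  have a2 : si1_Phi d x r' ≤ 1 - τ := by nlinarith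
  set h := ‖x' - x‖ with hh
  have hh0 : 0 ≤ h := norm_nonneg _
  have a3 : si1_Phi d x' r' ≤ (1 + τ / 2) * si1_Phi d x r' + (1 + 2 / τ) * (h ^ 2 * m) := by
    unfold si1_Phi
    have e : m = ∑ i, 1 / d i := by rw [Fin.sum_univ_three]
    rw [e, Finset.mul_sum, Finset.mul_sum, Finset.mul_sum, ← Finset.sum_add_distrib]
    refine Finset.sum_le_sum fun i _ => ?_
    have b0 := hd i
    have b1 : 0 < d i + r' := by linarith
    have b2 : (x' i - x i) ^ 2 ≤ h ^ 2 := by
      have := abs_coord_le (x' - x) i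
      rw [PiLp.sub_apply] at this
      exact sq_le_sq' (by linarith [neg_abs_le (x' i - x i)]) ((le_abs_self _).trans this)
    have b3 : x' i ^ 2 ≤ (1 + τ / 2) * x i ^ 2 + (1 + 2 / τ) * (x' i - x i) ^ 2 := by
      have : (1 + τ / 2) * x i ^ 2 + (1 + 2 / τ) * (x' i - x i) ^ 2 - x' i ^ 2 =
          (τ * x i - 2 * (x' i - x i)) ^ 2 / (2 * τ) := by field_simp; ring
      have : 0 ≤ (τ * x i - 2 * (x' i - x i)) ^ 2 / (2 * τ) := by positivity
      linarith
    have b4 : (x' i - x i) ^ 2 / (d i + r') ≤ h ^ 2 * (1 / d i) := by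
      rw [mul_one_div]; gcongr; linarith
    calc x' i ^ 2 / (d i + r') ≤
          ((1 + τ / 2) * x i ^ 2 + (1 + 2 / τ) * (x' i - x i) ^ 2) / (d i + r') := by gcongr
      _ = (1 + τ / 2) * (x i ^ 2 / (d i + r')) + (1 + 2 / τ) * ((x' i - x i) ^ 2 / (d i + r')) := by
          ring
      _ ≤ _ := by gcongr
  have a4 : τ / 2 ≤ (1 + 2 / τ) * (h ^ 2 * m) := by nlinarith
  have a5 : τ ^ 2 ≤ 6 * m * h ^ 2 := by
    have e : (1 + 2 / τ) * (h ^ 2 * m) = (τ + 2) * (h ^ 2 * m) / τ := by field_simp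
    rw [e, le_div_iff₀ hτ0] at a4
    have : 0 ≤ h ^ 2 * m := by positivity
    nlinarith
  have a6 : τ ≤ (1 + 6 * m) * h := by
    refine (pow_le_pow_iff_left₀ hτ0.le (by positivity) two_ne_zero).1 ?_
    have : 0 ≤ h ^ 2 := by positivity
    have : 6 * m ≤ (1 + 6 * m) ^ 2 := by nlinarith
    rw [mul_pow]
    nlinarith
  rw [hτ, div_le_iff₀ hD0] at a6
  linarith

lemma si1_cara (x : E) (a : E → ℝ) (ha : ContinuousAt a x) (i : Fin 3) :
    HasFDerivAt (fun y : E => a y * (y i - x i))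
      (a x • (EuclideanSpace.proj i : E →L[ℝ] ℝ)) x := by
  rw [hasFDerivAt_iff_isLittleO]
  have h1 : (fun y => a y - a x) =o[𝓝 x] (fun _ => (1 : ℝ)) := by
    rw [Asymptotics.isLittleO_one_iff]
    exact tendsto_sub_nhds_zero_iff.2 ha
  have h2 : (fun y : E => y i - x i) =O[𝓝 x] (fun y => ‖y - x‖) := by
    refine Asymptotics.IsBigO.of_bound 1 (Eventually.of_forall fun y => ?_)
    simpa using abs_coord_le (y - x) i
  have h3 := h1.mul_isBigO h2
  simp only [one_mul, Asymptotics.isLittleO_norm_right] at h3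
  refine h3.congr_left fun y => ?_
  simp
  ring

theorem SI1_proof : SI1Stmt := by
  intro d ρe hd hρ
  refine ⟨si1_g_sum hd hρ le_rfl, ?_⟩
  choose ρ hρ0 hρ1 hρ2 hρ3 using si1_exists hd hρ
  obtain ⟨C, hC0, hC⟩ := si1_two hd hρ
  have hlip : LipschitzWith ⟨C, hC0⟩ ρ := by
    refine LipschitzWith.of_le_add_mul _ fun x y => ?_
    change ρ x ≤ ρ y + C * dist x y
    rcases le_or_gt (ρ x) (ρ y) with h | h
    · have : 0 ≤ C * dist x y := by positivity
      linarith
    · have := hC y x _ _ (hρ0 y) h (hρ1 x) (hρ3 y (h.trans_le (hρ1 x)))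
        (hρ2 x ((hρ0 y).trans_lt h))
      rw [dist_eq_norm]; linarith
  have hmono : ∀ (x : E) (r r' : ℝ), 0 ≤ r → r ≤ r' → si1_Phi d x r' ≤ si1_Phi d x r := by
    intro x r r' hr hrr
    unfold si1_Phi
    refine Finset.sum_le_sum fun i _ => ?_
    have := hd i
    gcongr
  have hout : ∀ x, x ∉ ell d ρe → ρ x = ρe := by
    intro x hx
    by_contra hne
    have h1 : ρ x < ρe := lt_of_le_of_ne (hρ1 x) hne
    have h2 : 1 ≤ si1_Phi d x ρe := not_lt.1 hx
    have := hC x x _ _ (hρ0 x) h1 le_rfl (hρ3 x h1) h2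
    simp at this
    linarith
  have hin : ∀ x ∈ ell d 0, ρ x = 0 := by
    intro x hx
    by_contra hne
    have h1 : 0 < ρ x := lt_of_le_of_ne (hρ0 x) (Ne.symm hne)
    have h2 : si1_Phi d x 0 < 1 := hx
    have := hmono x 0 (ρ x) le_rfl h1.le
    linarith [hρ2 x h1]
  have hf0 : ∀ l x, x ∉ ell d ρe → x l * si1_g d ρe l (ρ x) = 0 := by
    intro l x hx
    rw [hout x hx]; simp [si1_g]
  refine ⟨fun l x => x l * si1_g d ρe l (ρ x), fun l => ?_, hf0, fun l x hx => ?_, ?_⟩
  · refine lip_of_locLip (locLip_mul (lipschitz_X l).locallyLipschitz ?_) ?_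
    · have hk0 : 0 ≤ si1_k d l 0 := (abs_nonneg _).trans (si1_k_bd hd l le_rfl)
      have hg : LipschitzOnWith ⟨si1_k d l 0, hk0⟩ (si1_g d ρe l) (Ici 0) := by
        refine (convex_Ici 0).lipschitzOnWith_of_nnnorm_hasDerivWithin_le
          (fun s hs => (si1_g_deriv hd hρ l hs).hasDerivWithinAt) fun s hs => ?_
        rw [← NNReal.coe_le_coe]
        change ‖-si1_k d l s‖ ≤ si1_k d l 0
        rw [norm_neg]
        exact si1_k_bd hd l hs
      have := hg.comp (hlip.lipschitzOnWith (s := univ)) (fun x _ => hρ0 x)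
      exact (lipschitzOnWith_univ.1 this).locallyLipschitz
    · refine HasCompactSupport.intro (isCompact_closedBall (0 : E) (d 0 + d 1 + d 2 + ρe + 1))
        fun x hx => hf0 l x fun hx' => hx ?_
      rw [mem_closedBall, dist_zero_right]
      have h0 := hd 0; have h1 := hd 1; have h2 := hd 2
      have a1 : ‖x‖ ^ 2 / (d 0 + d 1 + d 2 + ρe) ≤ ∑ i, x i ^ 2 / (d i + ρe) := by
        rw [normsq3, Fin.sum_univ_three, add_div, add_div]
        gcongr <;> linarith
      have a2 : ∑ i, x i ^ 2 / (d i + ρe) < 1 := hx'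
      have a3 := a1.trans a2.le
      rw [div_le_one (by positivity)] at a3
      nlinarith [norm_nonneg x]
  · change x l * si1_g d ρe l (ρ x) = _
    rw [hin x hx, mul_comm]; rfl
  · intro x hx hx0 l
    have hr0 : 0 < ρ x := by
      by_contra h
      have e : ρ x = 0 := le_antisymm (not_lt.1 h) (hρ0 x)
      have := hρ3 x (by rw [e]; exact hρ)
      rw [e] at this
      exact absurd hx0 (not_lt.2 this)
    have hr1 : ρ x < ρe := by
      by_contra h
      have e : ρ x = ρe := le_antisymm (hρ1 x) (not_lt.1 h)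
      have := hρ2 x hr0
      rw [e] at this
      exact absurd hx (not_lt.2 this)
    have hc := hlip.continuous.continuousAt (x := x)
    have hd' : ∀ i y, 0 < d i + ρ y := fun i y => by have := hd i; have := hρ0 y; linarith
    have hone : si1_Phi d x (ρ x) = 1 := le_antisymm (hρ3 x hr1) (hρ2 x hr0)
    set Q : E → ℝ := fun y => ∑ i, x i ^ 2 / ((d i + ρ y) * (d i + ρ x)) with hQ
    have hQ0 : ∀ y, 0 < Q y := by
      intro y
      by_contra h
      have h1 : ∀ i ∈ Finset.univ, 0 ≤ x i ^ 2 / ((d i + ρ y) * (d i + ρ x)) := fun i _ => by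
        have := hd' i y; have := hd' i x; positivity
      have h2 : Q y = 0 := le_antisymm (not_lt.1 h) (Finset.sum_nonneg h1)
      have h3 := (Finset.sum_eq_zero_iff_of_nonneg h1).1 h2
      have h4 : si1_Phi d x (ρ x) = 0 := Finset.sum_eq_zero fun i hi => by
        have h5 := h3 i hi
        have := hd' i y; have := hd' i x
        rw [div_eq_zero_iff] at h5
        rcases h5 with h5 | h5
        · rw [h5, zero_div]
        · exact absurd h5 (by positivity)
      linarith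
    have hQc : ContinuousAt Q x := by
      refine tendsto_finsetSum _ fun i _ => ContinuousAt.div continuousAt_const
        ((continuousAt_const.add hc).mul continuousAt_const) ?_
      have := hd' i x; positivity
    set a : Fin 3 → E → ℝ := fun i y => (y i + x i) / (d i + ρ y) / Q y with ha
    have hac : ∀ i, ContinuousAt (a i) x := fun i =>
      (((lipschitz_X i).continuous.continuousAt.add continuousAt_const).div
        (continuousAt_const.add hc) (hd' i x).ne').div hQc (hQ0 x).ne'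
    have hev : ρ =ᶠ[𝓝 x] fun y => ρ x + ∑ i, a i y * (y i - x i) := by
      filter_upwards [hc.eventually (lt_mem_nhds hr0), hc.eventually (gt_mem_nhds hr1)]
        with y hy0 hy1
      have h1 : si1_Phi d y (ρ y) = 1 := le_antisymm (hρ3 y hy1) (hρ2 y hy0)
      have h2 : (ρ y - ρ x) * Q y = ∑ i, (y i + x i) / (d i + ρ y) * (y i - x i) := by
        have : ∑ i, (y i + x i) / (d i + ρ y) * (y i - x i) - (ρ y - ρ x) * Q y =
            si1_Phi d y (ρ y) - si1_Phi d x (ρ x) := by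
          unfold si1_Phi
          rw [hQ, Finset.mul_sum, ← Finset.sum_sub_distrib, ← Finset.sum_sub_distrib]
          refine Finset.sum_congr rfl fun i _ => ?_
          have := (hd' i y).ne'; have := (hd' i x).ne'
          field_simp
          ring
        linarith
      have h3 : ∑ i, a i y * (y i - x i) = (∑ i, (y i + x i) / (d i + ρ y) * (y i - x i)) / Q y := by
        rw [Finset.sum_div]
        refine Finset.sum_congr rfl fun i _ => ?_
        rw [ha]; ring
      rw [h3, ← h2]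
      have := (hQ0 y).ne'
      field_simp
      ring
    have hder : HasFDerivAt ρ (∑ i, a i x • (EuclideanSpace.proj i : E →L[ℝ] ℝ)) x :=
      ((HasFDerivAt.fun_sum fun i _ => si1_cara x (a i) (hac i) i).const_add (ρ x)
        ).congr_of_eventuallyEq hev
    have hgρ : ∀ i, ∇ ρ x i = a i x := by
      intro i
      rw [grad_eq_of_hasFDerivAt hder]
      simp [ee_apply]
    have hgf : ∀ l, ∇ (fun x : E => x l * si1_g d ρe l (ρ x)) x =
        x l • (-si1_k d l (ρ x)) • ∇ ρ x + si1_g d ρe l (ρ x) • ee l := by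
      intro l
      have h1 := si1_g_deriv hd hρ l (hρ0 x)
      have h2 := grad_mul (f := X l) (g := fun y => si1_g d ρe l (ρ y)) (x := x)
        (hasFDerivAt_X l x).differentiableAt
        (h1.differentiableAt.comp x hder.differentiableAt)
      rw [grad_comp h1 hder.differentiableAt, grad_X] at h2
      exact h2
    have hs := si1_g_sum hd hρ (hρ0 x)
    have hP : 0 < √((d 0 + ρ x) * (d 1 + ρ x) * (d 2 + ρ x)) :=
      Real.sqrt_pos.2 (by have := hd' 0 x; have := hd' 1 x; have := hd' 2 x; positivity)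
    -- reduce to scalars
    set y : Fin 3 → ℝ := fun i => x i / (d i + ρ x) with hy
    set w : ℝ := 1 / √((d 0 + ρ x) * (d 1 + ρ x) * (d 2 + ρ x)) with hw
    have e1 : ∀ i, ∇ ρ x i = 2 * y i * (Q x)⁻¹ := fun i => by rw [hgρ, ha, hy]; ring
    have e2 : ∀ i, x i * si1_k d i (ρ x) = y i * w := fun i => by
      rw [hy, hw, si1_k]; have := (hd' i x).ne'; field_simp
    have e3 : (y 0 ^ 2 + y 1 ^ 2 + y 2 ^ 2) * (Q x)⁻¹ = 1 := by
      have : Q x = y 0 ^ 2 + y 1 ^ 2 + y 2 ^ 2 := by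
        rw [hQ, hy]; simp only [Fin.sum_univ_three, sq]
        rw [div_mul_div_comm, div_mul_div_comm, div_mul_div_comm]
      rw [← this, mul_inv_cancel₀ (hQ0 x).ne']
    have e4 : PP d (ρ x) = 2 * w := by rw [hw, PP]; ring
    have hco : ∀ l i, ∇ (fun x : E => x l * si1_g d ρe l (ρ x)) x i =
        -(y l * w) * (2 * y i * (Q x)⁻¹) + si1_g d ρe l (ρ x) * ee l i := by
      intro l i
      rw [hgf, ← e2, ← e1]
      simp only [PiLp.add_apply, PiLp.smul_apply, smul_eq_mul]
      ring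
    rw [e4] at hs
    fin_cases l <;> apply ext3 <;>
      simp only [PiLp.add_apply, PiLp.smul_apply, cross_0, cross_1, cross_2, hco, smul_eq_mul,
        PiLp.zero_apply] <;>
      simp [ee_apply] <;>
      first
        | linear_combination hs - 2 * w * e3
        | ring

end Crest.Agent.R83
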