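import Crest.Agent.R83.H8Aux

/-! Row 83, task SI2: the coated ellipsoid. -/

set_option autoImplicit false

noncomputable section

namespace Crest.Agent.R83

open MeasureTheory Set Filter Topology Metric
open scoped Gradient RealInnerProductSpace NNReal

lemma si2_cross_ee (l : Fin 3) : cross (ee (l + 1)) (ee (l + 2)) = ee l := by
  fin_cases l <;> apply ext3 <;> simp [ee_apply]

lemma si2_norm_ee (l : Fin 3) : ‖ee l‖ = 1 := by simp [ee]

set_option maxHeartbeats 800000 in
theorem SI2_proof (hNL : NLStmt) (hZL : ZLStmt) (hSI1 : SI1Stmt) : SI2Stmt := by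
  classical
  intro d ρe βm M' hd hρ
  obtain ⟨hsum, f, hlip, hf0, hf1, hf2⟩ := hSI1 d ρe hd hρ
  choose K hK using hlip
  have hP0 : 0 < PP d 0 := by
    unfold PP; have := hd 0; have := hd 1; have := hd 2; positivity
  have hG0 : ∀ i, 0 ≤ GG d ρe i := fun i => by
    refine intervalIntegral.integral_nonneg hρ.le fun s hs => ?_
    have := hd i; have := hs.1; positivity
  set b : ℝ := |βm| / PP d 0 with hb
  have hb0 : 0 ≤ b := by positivity
  set S : ℝ := K 0 + K 1 + K 2 with hS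
  have hS0 : 0 ≤ S := by positivity
  have hKS : ∀ i, (K i : ℝ) ≤ S := fun i => by
    have h0 : (0 : ℝ) ≤ K 0 := (K 0).2
    have h1 : (0 : ℝ) ≤ K 1 := (K 1).2
    have h2 : (0 : ℝ) ≤ K 2 := (K 2).2
    fin_cases i <;> simp <;> linarith
  refine ⟨M' + ⟨6 * b * S * (1 + M'), by positivity⟩, fun γ β hγ1 hγ2 hβ hRA => ?_⟩
  set M : ℝ≥0 := M' + ⟨6 * b * S * (1 + M'), by positivity⟩ with hM
  have hMe : (M : ℝ) = M' + 6 * b * S * (1 + M') := rfl
  have hM'0 : (0 : ℝ) ≤ M' := M'.2
  have hMM : (M' : ℝ) ≤ M := by rw [hMe]; have : 0 ≤ 6 * b * S * (1 + M') := by positivity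
                                linarith
  obtain ⟨γc, hγc, hcore⟩ := hRA (ell d 0) (isOpen_ell d 0)
    (isBounded_ell fun i => by simpa using hd i)
  have hup : ∀ g : ℝ, 1 ≤ (M' : ℝ) * g → g ≤ M' → 1 ≤ (M : ℝ) * g ∧ g ≤ M := by
    intro g h1 h2
    have h3 : 0 ≤ g := by
      by_contra h
      have := mul_nonpos_of_nonneg_of_nonpos hM'0 (not_le.1 h).le
      linarith
    exact ⟨h1.trans (by gcongr), h2.trans hMM⟩
  have hγ0 : 0 ≤ γ := by
    by_contra h
    have := mul_nonpos_of_nonneg_of_nonpos hM'0 (not_le.1 h).le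
    linarith
  refine ⟨fun x => if x ∈ ell d 0 then γc x else γ, fun x => ?_, fun p => ?_⟩
  · dsimp only
    split_ifs
    · exact hup _ (hγc x).1 (hγc x).2
    · exact hup _ hγ1 hγ2
  have hden : ∀ i, 0 < PP d 0 + β i * GG d ρe i := fun i => by
    have := hG0 i; have := (hβ i).1; positivity
  set B : Fin 3 → ℝ := fun i => -β i / (PP d 0 + β i * GG d ρe i) with hB
  have hBb : ∀ i, |B i| ≤ b := fun i => by
    rw [hB, hb]
    simp only
    rw [abs_div, abs_neg, abs_of_nonneg (hβ i).1, abs_of_pos (hden i)]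
    have := mul_nonneg (hβ i).1 (hG0 i)
    have := (hβ i).2.trans (le_abs_self βm)
    gcongr
    linarith
  set p' : E := WithLp.toLp 2 fun i => p i * (1 + B i * GG d ρe i) with hp'
  have hp'i : ∀ i, p' i = p i * (1 + B i * GG d ρe i) := fun i => rfl
  have hBG : ∀ i, 1 + B i * GG d ρe i = PP d 0 / (PP d 0 + β i * GG d ρe i) := fun i => by
    rw [hB]; have := (hden i).ne'; field_simp; ring
  have hp'n : ‖p'‖ ≤ ‖p‖ := by
    refine (pow_le_pow_iff_left₀ (norm_nonneg _) (norm_nonneg _) two_ne_zero).1 ?_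
    have : ∀ i, p' i ^ 2 ≤ p i ^ 2 := fun i => by
      rw [hp'i, hBG, mul_pow]
      refine mul_le_of_le_one_right (sq_nonneg _) (pow_le_one₀ (div_nonneg hP0.le (hden i).le) ?_)
      rw [div_le_one (hden i)]
      have := mul_nonneg (hβ i).1 (hG0 i)
      linarith
    rw [normsq3, normsq3]
    linarith [this 0, this 1, this 2]
  obtain ⟨w₁, k₁, hP, hae⟩ := hcore p'
  set c : Fin 3 → ℝ := fun i => p i * B i with hc
  have hcb : ∀ i, |c i| ≤ ‖p‖ * b := fun i => by
    rw [hc]; simp only; rw [abs_mul]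
    exact mul_le_mul (abs_coord_le p i) (hBb i) (abs_nonneg _) (norm_nonneg _)
  set T : Fin 3 → E → E := fun i x =>
    cross (∇ (f (i + 1)) x) (ee (i + 2)) + cross (ee (i + 1)) (∇ (f (i + 2)) x) with hT
  have hLX : ∀ i, Lip (X i) := fun i => ⟨1, lipschitz_X i⟩
  have hLf : ∀ i, Lip (f i) := fun i => ⟨_, hK i⟩
  have hTe : ∀ i, T i = fun x => cross (∇ (f (i + 1)) x) (∇ (X (i + 2)) x) +
      cross (∇ (X (i + 1)) x) (∇ (f (i + 2)) x) := fun i => by
    funext x; simp only [hT, grad_X]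
  have hTB : ∀ i, BM (T i) := fun i => by
    rw [hTe]; exact (BM.cross_grad (hLf _) (hLX _)).add (BM.cross_grad (hLX _) (hLf _))
  have hTD : ∀ i, DivFree (T i) := fun i => by
    rw [hTe]
    exact (divFree_cross hNL (hLf _) (hLX _)).add (divFree_cross hNL (hLX _) (hLf _))
      (BM.cross_grad (hLf _) (hLX _)) (BM.cross_grad (hLX _) (hLf _))
  have hTn : ∀ i x, ‖T i x‖ ≤ 2 * S := fun i x => by
    have h1 := (norm_cross_le (∇ (f (i + 1)) x) (ee (i + 2)))
    have h2 := (norm_cross_le (ee (i + 1)) (∇ (f (i + 2)) x))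
    rw [si2_norm_ee] at h1 h2
    have h3 := (norm_grad_le (hK (i + 1)) x).trans (hKS _)
    have h4 := (norm_grad_le (hK (i + 2)) x).trans (hKS _)
    refine (norm_add_le _ _).trans ?_
    linarith
  set k₀ : E → E := fun x => (-γ * c 0) • T 0 x + (-γ * c 1) • T 1 x + (-γ * c 2) • T 2 x with hk₀
  have hk₀B : BM k₀ := (((hTB 0).smul _).add ((hTB 1).smul _)).add ((hTB 2).smul _)
  have hk₀D : DivFree k₀ :=
    (((hTD 0).smul _).add ((hTD 1).smul _) ((hTB 0).smul _) ((hTB 1).smul _)).add ((hTD 2).smul _)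
      (((hTB 0).smul _).add ((hTB 1).smul _)) ((hTB 2).smul _)
  have hk₀n : ∀ x, ‖k₀ x‖ ≤ 6 * b * S * M' * ‖p‖ := fun x => by
    have h : ∀ i, ‖(-γ * c i) • T i x‖ ≤ M' * (‖p‖ * b) * (2 * S) := fun i => by
      rw [norm_smul, Real.norm_eq_abs, abs_mul, abs_neg, abs_of_nonneg hγ0]
      have := hcb i; have := hTn i x
      gcongr
    have h1 := norm_add₃_le (a := (-γ * c 0) • T 0 x) (b := (-γ * c 1) • T 1 x)
      (c := (-γ * c 2) • T 2 x)
    have := h 0; have := h 1; have := h 2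
    rw [hk₀]; simp only
    linarith
  have hzero : ∀ᵐ x, x ∉ ell d ρe → ∀ l, ∇ (f l) x = 0 := by
    have := ae_all_iff.2 fun l => hZL.2.1 (f l) (fun _ => 0) (hLf l).locLip (Lip.const 0).locLip
    filter_upwards [this] with x h hx l
    rw [h l (hf0 l x hx), grad_const]
  have hind : ∀ᵐ x, k₀ x = (ell d ρe).indicator k₀ x := by
    filter_upwards [hzero] with x h
    by_cases hx : x ∈ ell d ρe
    · rw [indicator_of_mem hx]
    · rw [indicator_of_notMem hx, hk₀, hT]; simp [h hx]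
  have hiB : BM ((ell d ρe).indicator k₀) :=
    ⟨hk₀B.1.indicator (isOpen_ell d ρe).measurableSet, _, Eventually.of_forall fun x =>
      (norm_indicator_le_norm_self _ _).trans (hk₀n x)⟩
  have hsub : ell d 0 ⊆ ell d ρe := fun x hx => by
    have hx' : ∑ i, x i ^ 2 / (d i + 0) < 1 := hx
    refine lt_of_le_of_lt (Finset.sum_le_sum fun i _ => ?_) hx'
    have := hd i
    gcongr
  have hbS : 0 ≤ b * S * ‖p‖ := by positivity
  have hw₁ : ((M' * ‖p'‖₊ : ℝ≥0) : ℝ) ≤ M' * ‖p‖ := by push_cast; gcongr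
  refine ⟨fun x => c 0 * f 0 x + c 1 * f 1 x + c 2 * f 2 x + w₁ x,
    fun x => (ell d ρe).indicator k₀ x + k₁ x, ⟨?_, fun x hx => ?_, hiB.1.add hP.meas, ?_,
      fun x hx => ?_, (hk₀D.congr hind).add hP.div hiB ⟨hP.meas, _, hP.bdd⟩⟩, ?_⟩
  · refine LipschitzWith.of_dist_le_mul fun x y => ?_
    have h : ∀ i, |c i * (f i x - f i y)| ≤ ‖p‖ * b * (S * dist x y) := fun i => by
      rw [abs_mul]
      have h1 := (hK i).dist_le_mul x y
      rw [Real.dist_eq] at h1
      have h2 : (K i : ℝ) * dist x y ≤ S * dist x y := by gcongr; exact hKS i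
      exact mul_le_mul (hcb i) (h1.trans h2) (abs_nonneg _) (by positivity)
    have h1 := hP.lip.dist_le_mul x y
    rw [Real.dist_eq] at h1 ⊢
    have h2 : ((M' * ‖p'‖₊ : ℝ≥0) : ℝ) * dist x y ≤ M' * ‖p‖ * dist x y := by gcongr
    have h3 : 0 ≤ b * S * ‖p‖ * dist x y := by positivity
    have h4 : 0 ≤ b * S * ‖p‖ * dist x y * M' := by positivity
    have e : ((M * ‖p‖₊ : ℝ≥0) : ℝ) = (M' + 6 * b * S * (1 + M')) * ‖p‖ := by
      rw [← hMe]; push_cast; rfl
    rw [e, abs_le]
    have a0 := abs_le.1 (h 0); have a1 := abs_le.1 (h 1); have a2 := abs_le.1 (h 2)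
    have a3 := abs_le.1 (h1.trans h2)
    constructor <;> linarith [a0.1, a0.2, a1.1, a1.2, a2.1, a2.2, a3.1, a3.2]
  · simp [hf0 _ x hx, hP.w0 x fun h => hx (hsub h)]
  · filter_upwards [hP.bdd] with x hx
    have e : ((M * ‖p‖₊ : ℝ≥0) : ℝ) = (M' + 6 * b * S * (1 + M')) * ‖p‖ := by
      rw [← hMe]; push_cast; rfl
    have h1 := (norm_indicator_le_norm_self (s := ell d ρe) k₀ x).trans (hk₀n x)
    refine (norm_add_le _ _).trans ?_
    rw [e]
    nlinarith
  · simp [indicator_of_notMem hx, hP.k0 x fun h => hx (hsub h)]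
  · filter_upwards [hae, ae_ell_ne hZL d 0, (hK 0).ae_differentiableAt, (hK 1).ae_differentiableAt,
      (hK 2).ae_differentiableAt, hP.lip.ae_differentiableAt] with x h1 h2 d0 d1 d2 d3 hx
    have hg : ∇ (fun x => c 0 * f 0 x + c 1 * f 1 x + c 2 * f 2 x + w₁ x) x =
        c 0 • ∇ (f 0) x + c 1 • ∇ (f 1) x + c 2 • ∇ (f 2) x + ∇ w₁ x := by
      rw [grad_add (((d0.const_mul _).fun_add (d1.const_mul _)).fun_add (d2.const_mul _)) d3,
        grad_add ((d0.const_mul _).fun_add (d1.const_mul _)) (d2.const_mul _),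
        grad_add (d0.const_mul _) (d1.const_mul _), grad_const_mul, grad_const_mul, grad_const_mul]
    have hlam : ∀ i, lamOf d ρe γ β i = γ * (1 - PP d ρe * B i) := fun i => by
      rw [lamOf, hB]; ring
    rw [hg, indicator_of_mem hx]
    by_cases hc0 : x ∈ ell d 0
    · rw [if_pos hc0]
      have hgf : ∀ l, ∇ (f l) x = GG d ρe l • ee l := fun l => by
        rw [grad_congr (g := fun y => GG d ρe l * X l y)
          (((isOpen_ell d 0).eventually_mem hc0).mono fun y hy => hf1 l y hy), grad_const_mul, grad_X]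
      have hTx : ∀ l, T l x = (GG d ρe (l + 1) + GG d ρe (l + 2)) • ee l := fun l => by
        rw [hT]; simp only
        rw [hgf, hgf, cross_smul_left, cross_smul_right, si2_cross_ee, add_smul]
      have e1 : p + (c 0 • ∇ (f 0) x + c 1 • ∇ (f 1) x + c 2 • ∇ (f 2) x + ∇ w₁ x) =
          p' + ∇ w₁ x := by
        rw [hgf, hgf, hgf]
        apply ext3 <;> simp [hp'i, hc, ee_apply] <;> ring
      have key : ∀ i, γ * (1 + β i) * (1 + B i * GG d ρe i) =
          γ * (1 - B i * PP d 0 + B i * GG d ρe i) := fun i => by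
        rw [hB]; have := (hden i).ne'; field_simp; ring
      have e2 : diag (lamOf d ρe γ β) p + k₀ x = diag (fun i => γ * (1 + β i)) p' := by
        rw [hk₀]; simp only
        rw [hTx, hTx, hTx]
        apply ext3 <;> simp [hp'i, hc, ee_apply, hlam]
        · linear_combination -p 0 * key 0 - γ * p 0 * B 0 * hsum
        · linear_combination -p 1 * key 1 - γ * p 1 * B 1 * hsum
        · linear_combination -p 2 * key 2 - γ * p 2 * B 2 * hsum
      rw [e1, ← h1 hc0, ← e2]
      exact (add_assoc _ _ _).symm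
    · rw [if_neg hc0]
      have h3 : 1 < ∑ i, x i ^ 2 / (d i + 0) := lt_of_le_of_ne (not_lt.1 hc0) h2.symm
      have hw : ∇ w₁ x = 0 := by
        have ho : IsOpen {y : E | 1 < ∑ i, y i ^ 2 / (d i + 0)} := isOpen_lt continuous_const
          (continuous_finsetSum _ fun i _ => ((lipschitz_X i).continuous.pow 2).div_const _)
        rw [grad_congr (g := fun _ => 0) ((ho.eventually_mem h3).mono fun y hy =>
          hP.w0 y fun h => lt_asymm (a := (1 : ℝ)) hy h), grad_const]
      have hTx : ∀ l, T l x = -(∇ (f l) x + PP d ρe • ee l) := fun l => by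
        have := hf2 x hx h3 l
        rw [hT]; simp only
        rw [eq_neg_iff_add_eq_zero, ← this]
        abel
      rw [hw, hP.k0 x hc0, hk₀]; simp only
      rw [hTx, hTx, hTx]
      apply ext3 <;> simp [hc, ee_apply, hlam] <;> ring

end Crest.Agent.R83
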