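import Crest.Agent.R83.Basic

set_option autoImplicit false

noncomputable section

namespace Crest.Agent.R83

open MeasureTheory Set Filter Topology Metric

lemma sp_P0 {δ : ℝ} (h : 0 < δ) : PP ![δ ^ 2, 1, 1] 0 = 2 / δ := by
  simp [PP, Real.sqrt_sq h.le]

lemma sp_Pe {δ : ℝ} (h : 0 < δ) : PP ![δ ^ 2, 1, 1] (3 * δ ^ 2) = 1 / (δ * (1 + 3 * δ ^ 2)) := by
  have : (δ ^ 2 + 3 * δ ^ 2) * (1 + 3 * δ ^ 2) * (1 + 3 * δ ^ 2) = (2 * (δ * (1 + 3 * δ ^ 2))) ^ 2 := by ring
  simp only [PP, Matrix.cons_val_zero, Matrix.cons_val_one, Matrix.cons_val]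
  rw [this, Real.sqrt_sq (by positivity)]; field_simp

lemma sp_G12 (δ : ℝ) : GG ![δ ^ 2, 1, 1] (3 * δ ^ 2) 2 = GG ![δ ^ 2, 1, 1] (3 * δ ^ 2) 1 := by
  simp [GG]

lemma sp_G1 {δ : ℝ} (h : 0 < δ) :
    0 ≤ GG ![δ ^ 2, 1, 1] (3 * δ ^ 2) 1 ∧ GG ![δ ^ 2, 1, 1] (3 * δ ^ 2) 1 ≤ 3 * δ := by
  constructor
  · refine intervalIntegral.integral_nonneg (by positivity) fun s hs => ?_
    have := hs.1
    simp only [Matrix.cons_val_zero, Matrix.cons_val_one, Matrix.cons_val]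
    positivity
  · have := intervalIntegral.norm_integral_le_of_norm_le_const (a := 0) (b := 3 * δ ^ 2) (C := 1 / δ)
      (f := fun s => 1 / ((1 + s) * √((δ ^ 2 + s) * (1 + s) * (1 + s)))) (fun s hs => by
        rw [uIoc_of_le (by positivity)] at hs
        have h0 := hs.1
        have h1 : δ ≤ √((δ ^ 2 + s) * (1 + s) * (1 + s)) := by
          apply Real.le_sqrt_of_sq_le
          have : 1 ≤ (1 + s) * (1 + s) := by nlinarith
          nlinarith [mul_le_mul_of_nonneg_left this (show 0 ≤ δ ^ 2 + s by positivity)]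
        rw [Real.norm_of_nonneg (by positivity)]
        apply one_div_le_one_div_of_le h
        nlinarith)
    rw [sub_zero, abs_of_nonneg (by positivity)] at this
    have e : 1 / δ * (3 * δ ^ 2) = 3 * δ := by field_simp
    rw [e] at this
    exact (le_abs_self _).trans (by simpa [GG] using this)

theorem SP_proof (hSI : SI1Stmt) : SPStmt := by
  intro K hK
  set δ : ℝ := √(1 / (19 * K)) with hδ
  have hδ0 : 0 < δ := Real.sqrt_pos.2 (by positivity)
  have hδ2 : δ ^ 2 = 1 / (19 * K) := Real.sq_sqrt (by positivity)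
  have hδK : 19 * K * δ ^ 2 = 1 := by rw [hδ2]; field_simp
  have hδ3 : δ ^ 2 ≤ 1 / 19 := by nlinarith [sq_nonneg δ]
  refine ⟨δ, 1 / δ ^ 2, hδ0, by positivity, fun l h0 h01 h12 h20 => ?_⟩
  have hsum := (hSI ![δ ^ 2, 1, 1] (3 * δ ^ 2) (fun i => by fin_cases i <;> simp [hδ0.ne'] <;> positivity)
    (by positivity)).1
  obtain ⟨g1, g2⟩ := sp_G1 hδ0
  have e0 := sp_P0 hδ0
  have ee := sp_Pe hδ0
  have e12 := sp_G12 δ
  set P0 := PP ![δ ^ 2, 1, 1] 0
  set Pe := PP ![δ ^ 2, 1, 1] (3 * δ ^ 2)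
  set G0 := GG ![δ ^ 2, 1, 1] (3 * δ ^ 2) 0 with hG0
  set G1 := GG ![δ ^ 2, 1, 1] (3 * δ ^ 2) 1 with hG1
  have P0pos : 0 < P0 := by rw [e0]; positivity
  have Pepos : 0 < Pe := by rw [ee]; positivity
  have dP0 : δ * P0 = 2 := by rw [e0]; field_simp
  have dPe : δ * Pe * (1 + 3 * δ ^ 2) = 1 := by rw [ee]; field_simp
  have dPe1 : δ * Pe ≤ 1 := by nlinarith [mul_pos hδ0 Pepos, sq_nonneg δ]
  have dPe2 : 4 / 5 ≤ δ * Pe := by nlinarith [mul_pos hδ0 Pepos, sq_nonneg δ]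
  have dG0 : 1 / 2 ≤ δ * G0 := by
    have : G0 = P0 - Pe - 2 * G1 := by rw [e12] at hsum; linarith
    rw [this]; nlinarith
  have G0pos : 0 < G0 := (mul_pos_iff_of_pos_left hδ0).1 (by linarith)
  have PeG : Pe ≤ 2 * G0 := le_of_mul_le_mul_left (by linarith) hδ0
  have PeP : Pe ≤ P0 := le_of_mul_le_mul_left (by linarith) hδ0
  let h : ℝ → ℝ → ℝ := fun G β => 1 + Pe * β / (P0 + β * G)
  have hc : ∀ G b, 0 ≤ G → ContinuousOn (h G) (Icc 0 b) := fun G b hG =>
    continuousOn_const.add ((continuousOn_const.mul continuousOn_id).div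
      (continuousOn_const.add (continuousOn_id.mul continuousOn_const))
      fun β hβ => by have := hβ.1; positivity)
  have h1 : ∀ G β, 0 ≤ G → 0 ≤ β → 1 ≤ h G β := fun G β hG hβ => le_add_of_nonneg_right (by positivity)
  have l2pos : 0 < l 2 := by linarith
  have hb : 0 < 1 / δ ^ 2 := by positivity
  -- first IVT
  have ivt1 : ∃ β ∈ Icc 0 (1 / δ ^ 2), l 0 * h G1 β - l 2 * h G0 β = 0 := by
    apply intermediate_value_Icc hb.le ((continuousOn_const.mul (hc G1 _ g1)).sub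
      (continuousOn_const.mul (hc G0 _ G0pos.le)))
    constructor
    · simp only [h, Pi.sub_apply, Pi.mul_apply]; simp; linarith
    · have a1 : h G0 (1 / δ ^ 2) ≤ 3 := by
        have : Pe * (1 / δ ^ 2) / (P0 + 1 / δ ^ 2 * G0) ≤ 2 := by
          rw [div_le_iff₀ (by positivity)]; nlinarith
        simp only [h]; linarith
      have a2 : 3 * K ≤ h G1 (1 / δ ^ 2) := by
        have : 3 * K ≤ Pe * (1 / δ ^ 2) / (P0 + 1 / δ ^ 2 * G1) := by
          rw [le_div_iff₀ (by positivity)]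
          have e1 : 1 / δ ^ 2 = 19 * K := by rw [hδ2]; field_simp
          rw [e1]
          apply le_of_mul_le_mul_left _ hδ0
          have b1 : δ * G1 ≤ 3 * δ ^ 2 := by nlinarith
          have b2 : 19 * K * (δ * G1) ≤ 3 := by nlinarith
          nlinarith
        simp only [h]; linarith
      simp only [Pi.sub_apply, Pi.mul_apply]
      nlinarith
  obtain ⟨β, ⟨β0, β1⟩, hβ⟩ := ivt1
  have p1 := h1 G1 β g1 β0
  have p0 := h1 G0 β G0pos.le β0
  set γ := l 2 / h G1 β with hγ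
  have γpos : 0 < γ := by positivity
  have γ2 : γ * h G1 β = l 2 := by rw [hγ]; field_simp
  have γ0 : γ * h G0 β = l 0 := by rw [hγ]; field_simp; linarith
  have γle : γ ≤ l 0 := by nlinarith
  have ivt2 : ∃ β' ∈ Icc 0 β, γ * h G1 β' = l 1 ∧ (l 1 = l 2 → β' = β) := by
    by_cases e : l 1 = l 2
    · exact ⟨β, ⟨β0, le_rfl⟩, by rw [γ2, e], fun _ => rfl⟩
    · obtain ⟨β', hβ', h'⟩ := intermediate_value_Icc β0 (continuousOn_const.mul (hc G1 β g1))
        (show l 1 ∈ Icc ((fun _ => γ) 0 * h G1 0) ((fun _ => γ) β * h G1 β) from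
          ⟨by simp only [h]; simp; linarith, by rw [γ2]; exact h12⟩)
      exact ⟨β', hβ', h', fun h => absurd h e⟩
  obtain ⟨β', ⟨b0, b1⟩, hβ', himp⟩ := ivt2
  refine ⟨γ, β, β', b0, b1, β1, γle, ?_, himp, ?_⟩
  · have : Pe * β / (P0 + β * G0) ≤ 1 / δ ^ 2 := by
      rw [div_le_iff₀ (by positivity)]
      have a := mul_le_mul PeP β1 β0 P0pos.le
      have : 0 ≤ 1 / δ ^ 2 * (β * G0) := by positivity
      linarith
    rw [← γ0]; simp only [h]; nlinarith
  · funext i; fin_cases i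
    · exact γ0
    · exact hβ'
    · simp only [lamOf]; simp only [h] at γ2
      simpa [e12] using γ2

end Crest.Agent.R83
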