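import Crest.Agent.R83.Basic

/-! Row 83, task ST: similarities. -/

set_option autoImplicit false

noncomputable section

namespace Crest.Agent.R83

open MeasureTheory Set Filter Topology Metric
open scoped Gradient RealInnerProductSpace NNReal

theorem ST_proof : STStmt := by
  intro R s b T hs hT
  obtain rfl : T = fun x => s⁻¹ • R (x - b) := funext hT
  have hR := R.measurePreserving
  have hRe : MeasurableEmbedding R := R.toHomeomorph.measurableEmbedding
  let L : E ≃L[ℝ] E := R.toContinuousLinearEquiv.trans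
    (ContinuousLinearEquiv.smulLeft (Units.mk0 s⁻¹ (inv_ne_zero hs.ne')))
  have hL : ∀ x, L x = s⁻¹ • R x := fun _ => rfl
  have h1 : ∀ f : E → ℝ, ∫ x, f (s⁻¹ • R (x - b)) = s ^ 3 * ∫ y, f y := fun f => by
    rw [integral_sub_right_eq_self (fun x => f (s⁻¹ • R x)) b,
      hR.integral_comp hRe (fun y => f (s⁻¹ • y)), Measure.integral_comp_inv_smul,
      finrank_euclideanSpace_fin, abs_of_pos (by positivity), smul_eq_mul]
  have h3 : ∀ (f : E → ℝ) (x : E), ∇ (fun x => f (s⁻¹ • R (x - b))) x =
      s⁻¹ • R.symm (∇ f (s⁻¹ • R (x - b))) := fun f x => by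
    refine ext_inner_right ℝ fun v => ?_
    rw [inner_grad, fderiv_comp_sub (f := fun y => f (s⁻¹ • R y)),
      show (fun y => f (s⁻¹ • R y)) = f ∘ L from rfl, L.comp_right_fderiv, inner_smul_left,
      R.symm.inner_map_eq_flip, inner_grad]
    simp [hL]
  have h6 : ∀ (f : E → ℝ) (K : ℝ≥0), LipschitzWith K f →
      LipschitzWith K (fun x => s * f (s⁻¹ • R (x - b))) := fun f K hf =>
    LipschitzWith.of_dist_le_mul fun x y => by
      have := hf.dist_le_mul (s⁻¹ • R (x - b)) (s⁻¹ • R (y - b))
      rw [dist_smul₀, R.dist_map, dist_sub_right, Real.norm_of_nonneg (by positivity)] at this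
      rw [← smul_eq_mul, ← smul_eq_mul, dist_smul₀, Real.norm_of_nonneg hs.le]
      refine (mul_le_mul_of_nonneg_left this hs.le).trans (le_of_eq ?_)
      field_simp
  refine ⟨h1, fun f hf => ?_, h3, fun p hp => ?_, fun k hk φ hφ hc => ?_, h6⟩
  · exact ((hR.integrable_comp_emb hRe).2 (hf.comp_smul (inv_ne_zero hs.ne'))).comp_sub_right b
  · exact (measurePreserving_sub_right volume b).quasiMeasurePreserving.ae
      (hR.quasiMeasurePreserving.ae
        ((Measure.quasiMeasurePreserving_smul volume (inv_ne_zero hs.ne')).ae hp))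
  · let H : E ≃ₜ E := L.symm.toHomeomorph.trans (Homeomorph.addRight b)
    have hH : ∀ x, H (s⁻¹ • R (x - b)) = x := fun x => by
      change L.symm (L (x - b)) + b = x
      rw [L.symm_apply_apply, sub_add_cancel]
    have hl : Lip (fun y => φ (H y)) :=
      hφ.comp (((L.symm : E →L[ℝ] E).lipschitz).add (LipschitzWith.const b))
    have h0 := hk _ hl (hc.comp_homeomorph H)
    have e : ∀ x, ∇ φ x = s⁻¹ • R.symm (∇ (fun y => φ (H y)) (s⁻¹ • R (x - b))) := fun x => by
      rw [← h3]
      simp only [hH]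
    simp only [e, inner_smul_right, LinearIsometryEquiv.inner_map_map]
    rw [integral_const_mul, h1 (fun y => ⟪k y, ∇ (fun y => φ (H y)) y⟫), h0, mul_zero, mul_zero]

end Crest.Agent.R83
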