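import Crest.Agent.R83.Basic

/-! Row 83, task T1. -/

set_option autoImplicit false

noncomputable section

namespace Crest.Agent.R83

open MeasureTheory Set Filter Topology Metric
open scoped Gradient RealInnerProductSpace NNReal

lemma t1_flux0 (y : E) : flux (![X 0, 0, 0] : Fin 3 → E → ℝ) ![X 1, 0, 0] y = ee 2 := by
  apply ext3 <;> simp [flux, Fin.sum_univ_three, ee_apply]

lemma t1_flux1 (F₁ F₂ g : E → ℝ) (y : E) :
    flux (![F₁, F₂, g] : Fin 3 → E → ℝ) ![X 1, X 0, X 2] y 0 = -∇ F₁ y 2 + ∇ g y 1 ∧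
    flux (![F₁, F₂, g] : Fin 3 → E → ℝ) ![X 1, X 0, X 2] y 1 = ∇ F₂ y 2 - ∇ g y 0 ∧
    flux (![F₁, F₂, g] : Fin 3 → E → ℝ) ![X 1, X 0, X 2] y 2 = ∇ F₁ y 0 - ∇ F₂ y 1 := by
  refine ⟨?_, ?_, ?_⟩ <;> simp [flux, Fin.sum_univ_three, ee_apply] <;> ring

lemma t1_C1 {F₁ F₂ g : E → ℝ} {q : E} (h1 : ContDiffAt ℝ 1 F₁ q) (h2 : ContDiffAt ℝ 1 F₂ q)
    (h3 : ContDiffAt ℝ 1 g q) (i : Fin 2) (k : Fin 3) :
    ContDiffAt ℝ 1 (pmF F₁ F₂ g i k) q ∧ ContDiffAt ℝ 1 (pmG i k) q := by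
  have hX : ∀ j : Fin 3, ContDiffAt ℝ 1 (X j) q := fun j => (contDiff_X j).contDiffAt
  have h0 : ContDiffAt ℝ 1 (0 : E → ℝ) q := contDiffAt_const
  fin_cases i <;> fin_cases k
  · exact ⟨hX 0, hX 1⟩
  · exact ⟨h0, h0⟩
  · exact ⟨h0, h0⟩
  · exact ⟨h1, hX 1⟩
  · exact ⟨h2, hX 0⟩
  · exact ⟨h3, hX 2⟩

lemma t1_alg (vx vy ka kb dx dy : ℝ) (ha : 1 / 32 ≤ ka) (ha' : ka ≤ 1) (hb : 1 / 32 ≤ kb)
    (hb' : kb ≤ 1) (hd : |dx| + |dy| ≤ (|vx| + |vy|) / 128) (hy : vy ≠ 0) :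
    vx ^ 2 + vy ^ 2 + (ka * vx + dx) ^ 2 + (kb * vy + dy) ^ 2 <
      300 * (vx * (ka * vx + dx) + vy * (kb * vy + dy)) := by
  set D := (|vx| + |vy|) / 128 with hD
  have hX := abs_nonneg vx
  have hY : 0 < |vy| := abs_pos.2 hy
  have hdx : |dx| ≤ D := by linarith [abs_nonneg dy]
  have hdy : |dy| ≤ D := by linarith [abs_nonneg dx]
  have e1 : vx ^ 2 = |vx| ^ 2 := (sq_abs vx).symm
  have e2 : vy ^ 2 = |vy| ^ 2 := (sq_abs vy).symm
  have p1 : -(|vx| * D) ≤ vx * dx := by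
    have := neg_abs_le (vx * dx)
    rw [abs_mul] at this
    nlinarith
  have p2 : -(|vy| * D) ≤ vy * dy := by
    have := neg_abs_le (vy * dy)
    rw [abs_mul] at this
    nlinarith
  have q1 : (ka * vx + dx) ^ 2 ≤ (|vx| + D) ^ 2 := by
    rw [← sq_abs (ka * vx + dx)]
    have : |ka * vx + dx| ≤ |vx| + D := by
      have h := abs_add_le (ka * vx) dx
      rw [abs_mul, abs_of_pos (by linarith : 0 < ka)] at h
      nlinarith
    gcongr
  have q2 : (kb * vy + dy) ^ 2 ≤ (|vy| + D) ^ 2 := by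
    rw [← sq_abs (kb * vy + dy)]
    have : |kb * vy + dy| ≤ |vy| + D := by
      have h := abs_add_le (kb * vy) dy
      rw [abs_mul, abs_of_pos (by linarith : 0 < kb)] at h
      nlinarith
    gcongr
  have r1 : |vx| ^ 2 / 32 ≤ ka * vx ^ 2 := by rw [e1]; nlinarith [sq_nonneg |vx|]
  have r2 : |vy| ^ 2 / 32 ≤ kb * vy ^ 2 := by rw [e2]; nlinarith [sq_nonneg |vy|]
  have key : |vx| ^ 2 + |vy| ^ 2 + (|vx| + D) ^ 2 + (|vy| + D) ^ 2 <
      300 * (|vx| ^ 2 / 32 - |vx| * D + |vy| ^ 2 / 32 - |vy| * D) := by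
    rw [hD]
    nlinarith [sq_nonneg (|vx| - |vy|), mul_pos hY hY, mul_nonneg hX hX]
  nlinarith

theorem T1_proof (hLP : LPStmt) : T1Stmt := by
  refine ⟨fun Λ v F₁ F₂ g q hΛ h => ?_, fun Λ v F₁ F₂ g q hΛ h => ?_, t1_alg⟩
  · obtain ⟨h1, h2, h3, h4, h5, h6⟩ := h
    refine ⟨?_, t1_C1 (h2.of_le (by norm_num)) (h3.of_le (by norm_num)) (h4.of_le (by norm_num))⟩
    have hX : ∀ j : Fin 3, ContDiffAt ℝ 2 (X j) q := fun j => (contDiff_X j).contDiffAt
    have h0 : ContDiffAt ℝ 2 (0 : E → ℝ) q := contDiffAt_const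
    have := hLP 3 Λ (X 2) v ![X 0, 0, 0] ![X 1, 0, 0] ![F₁, F₂, g] ![X 1, X 0, X 2] q (hX 2) h1
      (fun k => by
        fin_cases k
        · exact ⟨hX 0, hX 1, h2, hX 1⟩
        · exact ⟨h0, h0, h3, hX 0⟩
        · exact ⟨h0, h0, h4, hX 2⟩)
      (by
        filter_upwards [h5] with y hy
        rw [t1_flux0, inner_ee, grad_X, real_inner_comm, inner_ee, (t1_flux1 F₁ F₂ g y).2.2, hy])
      (by
        refine ⟨by linarith, fun a b hab => ?_⟩
        obtain ⟨f0, f1, f2⟩ := t1_flux1 F₁ F₂ g q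
        rw [h5.self_of_nhds] at f2
        rw [← f0, ← f1] at h6
        rw [t1_flux0, grad_X, normsq3, normsq3, inner3]
        simp only [PiLp.add_apply, PiLp.smul_apply, smul_eq_mul, ee_apply, f2]
        generalize flux (![F₁, F₂, g] : Fin 3 → E → ℝ) ![X 1, X 0, X 2] q 0 = j0 at h6 ⊢
        generalize flux (![F₁, F₂, g] : Fin 3 → E → ℝ) ![X 1, X 0, X 2] q 1 = j1 at h6 ⊢
        simp only [Fin.isValue, Fin.reduceEq, if_false, if_true, mul_zero, zero_add, mul_one]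
        by_cases hb : b = 0
        · subst hb
          have ha : a ≠ 0 := by simpa using hab
          have := sq_pos_of_ne_zero ha
          nlinarith
        · have h7 := mul_lt_mul_of_pos_left h6 (sq_pos_of_ne_zero hb)
          nlinarith [sq_nonneg (a + b * ∇ v q 2)])
    have e : (fun (i : Fin 2) (y : E) => (1 : ℝ) • flux (pmF F₁ F₂ g i) (pmG i) y) =
        ![flux ![X 0, 0, 0] ![X 1, 0, 0], flux ![F₁, F₂, g] ![X 1, X 0, X 2]] := by
      funext i y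
      rw [one_smul]
      fin_cases i <;> rfl
    rw [e]; exact this
  · have e1 : F₁ =ᶠ[𝓝 q] fun _ => 0 := h.mono fun y hy => hy.2.1
    have e2 : F₂ =ᶠ[𝓝 q] fun _ => 0 := h.mono fun y hy => hy.2.2.1
    have e3 : g =ᶠ[𝓝 q] fun _ => 0 := h.mono fun y hy => hy.2.2.2
    refine ⟨?_, t1_C1 (contDiffAt_const.congr_of_eventuallyEq e1)
      (contDiffAt_const.congr_of_eventuallyEq e2) (contDiffAt_const.congr_of_eventuallyEq e3)⟩
    have hX : ∀ j : Fin 3, ContDiffAt ℝ 1 (X j) q := fun j => (contDiff_X j).contDiffAt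
    have j1 : ∀ y, J1 (X 2) (X 0) (X 1) 0 y = ee 2 := fun y => by
      apply ext3 <;> simp [J1, ee_apply]
    have j2 : ∀ y, J2 (X 2) (X 0) 0 (X 1) y = ee 0 := fun y => by
      apply ext3 <;> simp [J2, ee_apply]
    refine ⟨X 2, X 0, X 1, 0, X 1, hX 2, hX 0, hX 1, contDiffAt_const, hX 1,
      ⟨by linarith, fun a b hab => ?_⟩, fun i => ?_⟩
    · rw [j1, j2, grad_X, grad_X, normsq3, inner3]
      simp only [PiLp.add_apply, PiLp.smul_apply, smul_eq_mul, ee_apply]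
      simp only [Fin.isValue, Fin.reduceEq, if_false, if_true, mul_zero, zero_add, mul_one, add_zero]
      have : 0 < a ^ 2 + b ^ 2 := by
        rcases hab with h | h
        · have := sq_pos_of_ne_zero h; positivity
        · have := sq_pos_of_ne_zero h; positivity
      nlinarith
    · fin_cases i
      · refine ⟨0, 1, 0, Eventually.of_forall fun y => ⟨by simp [pmU], ?_⟩⟩
        rw [j1, j2]
        change (1 : ℝ) • flux (![X 0, 0, 0] : Fin 3 → E → ℝ) ![X 1, 0, 0] y = _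
        rw [t1_flux0]; simp
      · refine ⟨0, 0, 0, ?_⟩
        filter_upwards [h, grad_congr_ev e1, grad_congr_ev e2, grad_congr_ev e3] with y hy g1 g2 g3
        refine ⟨by simp [pmU, hy.1], ?_⟩
        change (1 : ℝ) • flux (![F₁, F₂, g] : Fin 3 → E → ℝ) ![X 1, X 0, X 2] y = _
        obtain ⟨f0, f1, f2⟩ := t1_flux1 F₁ F₂ g y
        rw [g1, g2, g3] at *
        apply ext3 <;> simp_all

end Crest.Agent.R83
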