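import Crest.Agent.R83.Basic

set_option autoImplicit false

noncomputable section

namespace Crest.Agent.R83

open MeasureTheory Set Filter Topology Metric
open scoped Gradient RealInnerProductSpace NNReal

def thL : E →L[ℝ] ℂ :=
  Complex.ofRealCLM.comp (EuclideanSpace.proj 0) +
    Complex.I • Complex.ofRealCLM.comp (EuclideanSpace.proj 2)

lemma th_zc (c : ℝ) (q : E) : zc c q = thL q - c := by
  simp [zc, thL]; ring

lemma th_hasF (c : ℝ) (q : E) : HasFDerivAt (zc c) thL q := by
  have : zc c = fun q => thL q - c := funext (th_zc c)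
  rw [this]; exact thL.hasFDerivAt.sub_const _

lemma th_contDiff (c : ℝ) {n : WithTop ℕ∞} : ContDiff ℝ n (zc c) := by
  have : zc c = fun q => thL q - c := funext (th_zc c)
  rw [this]; exact thL.contDiff.sub contDiff_const

lemma th_normsq (c : ℝ) (q : E) : ‖zc c q‖ ^ 2 = (q 0 - c) ^ 2 + q 2 ^ 2 := by
  rw [Complex.sq_norm, Complex.normSq_apply]; simp [zc]; ring

theorem TH_proof : THStmt := by
  intro c q h2 hz
  have hr : 0 < ‖zc c q‖ := norm_pos_iff.2 hz
  have him : (zc c q).im = q 2 := by simp [zc]
  have hre : (zc c q).re = q 0 - c := by simp [zc]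
  have a0 : 0 ≤ Complex.arg (zc c q) := Complex.arg_nonneg_iff.2 (by rwa [him])
  have a1 := Complex.arg_le_pi (zc c q)
  have hpi := Real.pi_pos
  have e : th c q = Complex.arg (zc c q) := by
    have h1 : -Complex.I * zc c q = (‖zc c q‖ : ℂ) *
        (Complex.cos ((Complex.arg (zc c q) - Real.pi / 2 : ℝ) : ℂ) +
          Complex.sin ((Complex.arg (zc c q) - Real.pi / 2 : ℝ) : ℂ) * Complex.I) := by
      rw [← Complex.exp_mul_I]
      conv_lhs => rw [← Complex.norm_mul_exp_arg_mul_I (zc c q)]
      push_cast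
      rw [sub_mul, Complex.exp_sub, Complex.exp_pi_div_two_mul_I]
      field_simp
      simp
    rw [th, h1, Complex.arg_mul_cos_add_sin_mul_I hr ⟨by linarith, by linarith⟩]; ring
  have hc : q 0 - c = ‖zc c q‖ * Real.cos (th c q) := by
    rw [e, Complex.cos_arg hz, hre]; field_simp
  have hs : q 2 = ‖zc c q‖ * Real.sin (th c q) := by
    rw [e, Complex.sin_arg, him]; field_simp
  have hslit : -Complex.I * zc c q ∈ Complex.slitPlane := by
    rcases h2.lt_or_eq with h | h
    · left; simpa [him] using h
    · right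
      simp only [neg_mul, Complex.neg_im, Complex.mul_im, Complex.I_re, Complex.I_im, zero_mul, one_mul,
        zero_add, ne_eq, neg_eq_zero]
      intro h0; exact hz (Complex.ext h0 (by rw [him, ← h]; rfl))
  have hth : th c = fun y => Real.pi / 2 + (Complex.log (-Complex.I * zc c y)).im := by
    funext y; rw [th, Complex.log_im]
  have hlog : HasFDerivAt (fun y => Complex.log (-Complex.I * zc c y))
      ((-Complex.I * zc c q)⁻¹ • ((-Complex.I) • thL)) q := by
    have := HasDerivAt.comp_hasFDerivAt_of_eq (𝕜 := ℝ) q (Complex.hasDerivAt_log hslit)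
      ((th_hasF c q).const_mul (-Complex.I)) rfl
    exact this
  have hthF : HasFDerivAt (th c) (Complex.imCLM.comp ((-Complex.I * zc c q)⁻¹ • ((-Complex.I) • thL))) q := by
    rw [hth]; exact (Complex.imCLM.hasFDerivAt.comp q hlog).const_add _
  have hval : ∀ v : E, ((-Complex.I * zc c q)⁻¹ • ((-Complex.I) • thL)) v = thL v / zc c q := fun v => by
    simp only [smul_apply, smul_eq_mul]; field_simp
  have hn : ContDiffAt ℝ 3 (fun y => ‖zc c y‖) q := (th_contDiff c).contDiffAt.norm ℝ hz
  have hsq := th_normsq c q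
  refine ⟨e, e ▸ a0, e ▸ a1, hc, hs, fun h => ?_, ?_, hn, ?_, ?_⟩
  · rw [h] at hs
    have : Real.sin (th c q) = 0 := (mul_eq_zero.1 hs.symm).resolve_left hr.ne'
    by_contra hn
    push Not at hn
    exact (Real.sin_pos_of_pos_of_lt_pi (lt_of_le_of_ne (e ▸ a0) hn.1.symm)
      (lt_of_le_of_ne (e ▸ a1) hn.2)).ne' this
  · rw [hth]
    have h1 : ContDiffAt ℝ 3 (fun y => Complex.log (-Complex.I * zc c y)) q :=
      ContDiffAt.comp (g := Complex.log) q ((Complex.contDiffAt_log hslit).restrict_scalars ℝ)
        (contDiffAt_const.mul (th_contDiff c).contDiffAt)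
    have h2 := Complex.imCLM.contDiff.contDiffAt.comp q h1
    exact contDiffAt_const.add h2
  · apply ext3 <;> rw [grad_eq_of_hasFDerivAt hthF, ContinuousLinearMap.comp_apply, hval] <;>
      simp [thL, ee_apply, Complex.div_im, Complex.normSq_eq_norm_sq, him, hre, neg_div]
  · have hd := hn.differentiableAt (by norm_num)
    have key : ∀ i, 2 * ‖zc c q‖ * ∇ (fun y => ‖zc c y‖) q i =
        2 * (q 0 - c) * ee 0 i + 2 * q 2 * ee 2 i := fun i => by
      have h1 : (fun y => ‖zc c y‖ * ‖zc c y‖) = fun y : E => (X 0 y - c) * (X 0 y - c) + X 2 y * X 2 y := by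
        funext y; rw [← sq, th_normsq]; simp; ring
      have h3 := grad_mul hd hd
      have dX : ∀ i, DifferentiableAt ℝ (X i) q := fun i => (hasFDerivAt_X i q).differentiableAt
      have d0 : DifferentiableAt ℝ (fun y => X 0 y - c) q := (dX 0).sub_const c
      rw [h1, grad_add (d0.fun_mul d0) ((dX 2).fun_mul (dX 2)), grad_mul d0 d0, grad_mul (dX 2) (dX 2),
        grad_sub (dX 0) (differentiableAt_const c)] at h3
      have h4 := congrArg (fun p : E => p i) h3
      simp at h4
      linarith
    apply ext3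
    · have := key 0; simp [ee_apply] at this ⊢; field_simp; linarith
    · have := key 1; simp [ee_apply, hr.ne'] at this ⊢; exact this
    · have := key 2; simp [ee_apply] at this ⊢; field_simp; linarith

end Crest.Agent.R83
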