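import Crest.Agent.R83.HG

/-! Row 83, task TM: two modes. -/

set_option autoImplicit false

noncomputable section

namespace Crest.Agent.R83

open MeasureTheory Set Filter Topology Metric
open scoped Gradient RealInnerProductSpace NNReal

/-- `sw` as a continuous linear map -/
def tmSwL : E →L[ℝ] E := LinearMap.toContinuousLinearMap
  { toFun := sw
    map_add' := fun p q => by apply ext3 <;> simp
    map_smul' := fun c p => by apply ext3 <;> simp }

lemma tm_sw_sw (p : E) : sw (sw p) = p := by apply ext3 <;> simp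

def tmSwE : E ≃L[ℝ] E := ContinuousLinearEquiv.equivOfInverse tmSwL tmSwL tm_sw_sw tm_sw_sw

lemma tm_sw_cd : ContDiff ℝ 2 sw := tmSwL.contDiff

lemma tm_grad_sw (f : E → ℝ) (x : E) (i : Fin 3) :
    ∇ (fun y => f (sw y)) x i = fderiv ℝ f (sw x) (sw (ee i)) := by
  rw [grad_apply]
  have := tmSwE.comp_right_fderiv (f := f) (x := x)
  change fderiv ℝ (f ∘ tmSwE) x (ee i) = _
  rw [this]; rfl

lemma tm_grad_sw0 (f : E → ℝ) (x : E) : ∇ (fun y => f (sw y)) x 0 = ∇ f (sw x) 1 := by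
  rw [tm_grad_sw, grad_apply]; congr 1; apply ext3 <;> simp [ee_apply]
lemma tm_grad_sw1 (f : E → ℝ) (x : E) : ∇ (fun y => f (sw y)) x 1 = ∇ f (sw x) 0 := by
  rw [tm_grad_sw, grad_apply]; congr 1; apply ext3 <;> simp [ee_apply]
lemma tm_grad_sw2 (f : E → ℝ) (x : E) : ∇ (fun y => f (sw y)) x 2 = ∇ f (sw x) 2 := by
  rw [tm_grad_sw, grad_apply]; congr 1; apply ext3 <;> simp [ee_apply]

lemma tm_grad_neg_sw (f : E → ℝ) (x : E) :
    ∇ (fun y => -f (sw y)) x = -∇ (fun y => f (sw y)) x := grad_neg (fun y => f (sw y)) x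

lemma tm_b (Λ : ℝ) (v F₁ F₂ g : E → ℝ) (q : E) (h : T1ok Λ v F₁ F₂ g (sw q)) :
    T1ok Λ (fun y => v (sw y)) (fun y => -F₂ (sw y)) (fun y => -F₁ (sw y))
      (fun y => -g (sw y)) q := by
  obtain ⟨h1, h2, h3, h4, h5, h6⟩ := h
  have hs := tm_sw_cd
  refine ⟨h1.comp q hs.contDiffAt, (h3.comp q hs.contDiffAt).neg, (h2.comp q hs.contDiffAt).neg,
    (h4.comp q hs.contDiffAt).neg, ?_, ?_⟩
  · filter_upwards [hs.continuous.continuousAt.eventually h5] with y hy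
    simp only [tm_grad_neg_sw, PiLp.neg_apply, tm_grad_sw0, tm_grad_sw1, tm_grad_sw2]
    linarith
  · simp only [tm_grad_neg_sw, PiLp.neg_apply, tm_grad_sw0, tm_grad_sw1, tm_grad_sw2]
    nlinarith [h6]

lemma tm_c (Λ : ℝ) (v F₁ F₂ g v' F₁' F₂' g' : E → ℝ) (q : E) (h : T1ok Λ v F₁ F₂ g q)
    (e : ∀ᶠ y in 𝓝 q, v' y = v y ∧ F₁' y = F₁ y ∧ F₂' y = F₂ y ∧ g' y = g y) :
    T1ok Λ v' F₁' F₂' g' q := by
  obtain ⟨h1, h2, h3, h4, h5, h6⟩ := h
  have e1 : v' =ᶠ[𝓝 q] v := e.mono fun y hy => hy.1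
  have e2 : F₁' =ᶠ[𝓝 q] F₁ := e.mono fun y hy => hy.2.1
  have e3 : F₂' =ᶠ[𝓝 q] F₂ := e.mono fun y hy => hy.2.2.1
  have e4 : g' =ᶠ[𝓝 q] g := e.mono fun y hy => hy.2.2.2
  refine ⟨h1.congr_of_eventuallyEq e1, h2.congr_of_eventuallyEq e2, h3.congr_of_eventuallyEq e3,
    h4.congr_of_eventuallyEq e4, ?_, ?_⟩
  · filter_upwards [h5, grad_congr_ev e1, grad_congr_ev e2, grad_congr_ev e3] with y hy g1 g2 g3
    rw [g1, g2, g3, hy]
  · rw [grad_congr e1, grad_congr e2, grad_congr e3, grad_congr e4]; exact h6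

lemma tm_grad_tr (ε : ℝ) (b : E) (f : E → ℝ) (x : E) (i : Fin 3) :
    ∇ (fun y => ε * f (y - b)) x i = ε * ∇ f (x - b) i := by
  rw [grad_const_mul ε (fun y => f (y - b)), PiLp.smul_apply, grad_apply, grad_apply,
    fderiv_comp_sub]
  rfl

lemma tm_d (Λ ε : ℝ) (b : E) (v F₁ F₂ g : E → ℝ) (q : E) (hε : ε ≠ 0)
    (h : T1ok Λ v F₁ F₂ g (q - b)) :
    T1ok Λ (fun y => ε * v (y - b)) (fun y => ε * F₁ (y - b)) (fun y => ε * F₂ (y - b))
      (fun y => ε * g (y - b)) q := by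
  obtain ⟨h1, h2, h3, h4, h5, h6⟩ := h
  have hs : ContDiff ℝ 2 fun y : E => y - b := contDiff_id.sub contDiff_const
  refine ⟨contDiffAt_const.mul (h1.comp q hs.contDiffAt),
    contDiffAt_const.mul (h2.comp q hs.contDiffAt), contDiffAt_const.mul (h3.comp q hs.contDiffAt),
    contDiffAt_const.mul (h4.comp q hs.contDiffAt), ?_, ?_⟩
  · filter_upwards [hs.continuous.continuousAt.eventually h5] with y hy
    simp only [tm_grad_tr]
    rw [← hy]; ring
  · simp only [tm_grad_tr]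
    have h7 := mul_lt_mul_of_pos_left h6 (sq_pos_of_ne_zero hε)
    nlinarith [h7]

lemma tm_sin (c : ℝ) (i : Fin 3) (q : E) :
    HG (fun y : E => Real.sin (c * y i)) q ((Real.cos (c * q i) * c) • ee i) :=
  HG.coord (h := fun s => Real.sin (c * s)) i
    (((hasDerivAt_id (q i)).const_mul c).sin.congr_deriv (by simp))

lemma tm_cos (c : ℝ) (i : Fin 3) (q : E) :
    HG (fun y : E => Real.cos (c * y i)) q ((-Real.sin (c * q i) * c) • ee i) :=
  HG.coord (h := fun s => Real.cos (c * s)) i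
    (((hasDerivAt_id (q i)).const_mul c).cos.congr_deriv (by simp))

lemma tm_cd_sin (c : ℝ) (i : Fin 3) (q : E) : ContDiffAt ℝ 2 (fun y : E => Real.sin (c * y i)) q :=
  cd_coord (h := fun s => Real.sin (c * s)) i (by fun_prop)

lemma tm_cd_cos (c : ℝ) (i : Fin 3) (q : E) : ContDiffAt ℝ 2 (fun y : E => Real.cos (c * y i)) q :=
  cd_coord (h := fun s => Real.cos (c * s)) i (by fun_prop)

lemma tm_est {n A B ra rb s1 c1 s2 c2 : ℝ} (hn : 0 < n) (hs1 : |s1| ≤ 1) (hc1 : |c1| ≤ 1)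
    (hs2 : |s2| ≤ 1) (hc2 : |c2| ≤ 1) (hb : 256 * |rb| ≤ n ^ 2 * A) (ha : 160 * |ra| ≤ n ^ 2 * B) :
    |-(2 * ra / n * s1 * s2 ^ 2) - rb / n * c2 * s1 * c1| +
      |-(rb / n * s2 * s1 ^ 2) - ra / n * c1 * s2 * c2 / 2| ≤
      (|-(n * A * s1)| + |-(2 * n * B * s2)|) / 128 := by
  have hA : 0 ≤ A := by
    have : 0 ≤ n ^ 2 * A := le_trans (by positivity) hb
    by_contra h'
    nlinarith [sq_pos_of_pos hn, not_le.1 h']
  have hB : 0 ≤ B := by
    have : 0 ≤ n ^ 2 * B := le_trans (by positivity) ha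
    by_contra h'
    nlinarith [sq_pos_of_pos hn, not_le.1 h']
  have t1 : |-(2 * ra / n * s1 * s2 ^ 2)| ≤ 2 * (|ra| / n) * |s2| := by
    rw [abs_neg, abs_mul, abs_mul, abs_div, abs_mul, abs_two, abs_of_pos hn, abs_pow]
    calc 2 * |ra| / n * |s1| * |s2| ^ 2 = 2 * (|ra| / n) * |s2| * (|s1| * |s2|) := by ring
      _ ≤ 2 * (|ra| / n) * |s2| * (1 * 1) := by gcongr
      _ = _ := by ring
  have t2 : |rb / n * c2 * s1 * c1| ≤ |rb| / n * |s1| := by
    rw [abs_mul, abs_mul, abs_mul, abs_div, abs_of_pos hn]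
    calc |rb| / n * |c2| * |s1| * |c1| = |rb| / n * |s1| * (|c2| * |c1|) := by ring
      _ ≤ |rb| / n * |s1| * (1 * 1) := by gcongr
      _ = _ := by ring
  have t3 : |-(rb / n * s2 * s1 ^ 2)| ≤ |rb| / n * |s1| := by
    rw [abs_neg, abs_mul, abs_mul, abs_div, abs_of_pos hn, abs_pow]
    calc |rb| / n * |s2| * |s1| ^ 2 = |rb| / n * |s1| * (|s2| * |s1|) := by ring
      _ ≤ |rb| / n * |s1| * (1 * 1) := by gcongr
      _ = _ := by ring
  have t4 : |ra / n * c1 * s2 * c2 / 2| ≤ |ra| / n * |s2| / 2 := by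
    rw [abs_div, abs_two, abs_mul, abs_mul, abs_mul, abs_div, abs_of_pos hn]
    calc |ra| / n * |c1| * |s2| * |c2| / 2 = |ra| / n * |s2| / 2 * (|c1| * |c2|) := by ring
      _ ≤ |ra| / n * |s2| / 2 * (1 * 1) := by gcongr
      _ = _ := by ring
  have u1 : |-(n * A * s1)| = n * A * |s1| := by
    rw [abs_neg, abs_mul, abs_of_nonneg (by positivity : 0 ≤ n * A)]
  have u2 : |-(2 * n * B * s2)| = 2 * n * B * |s2| := by
    rw [abs_neg, abs_mul, abs_of_nonneg (by positivity : 0 ≤ 2 * n * B)]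
  have w1 : 256 * (|rb| / n) ≤ n * A := by
    rw [← mul_div_assoc, div_le_iff₀ hn]; nlinarith
  have w2 : 160 * (|ra| / n) ≤ n * B := by
    rw [← mul_div_assoc, div_le_iff₀ hn]; nlinarith
  have z1 := mul_le_mul_of_nonneg_right w1 (abs_nonneg s1)
  have z2 := mul_le_mul_of_nonneg_right w2 (abs_nonneg s2)
  have y1 := abs_sub (-(2 * ra / n * s1 * s2 ^ 2)) (rb / n * c2 * s1 * c1)
  have y2 := abs_sub (-(rb / n * s2 * s1 ^ 2)) (ra / n * c1 * s2 * c2 / 2)
  rw [u1, u2]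
  nlinarith

theorem TM_proof (hT1 : T1Stmt) : TMStmt := by
  refine ⟨?_, tm_b, tm_c, tm_d⟩
  intro a a₁ ra b b₁ rb n ka kb q hn ca ca₁ cra cb cb₁ crb da db da₁ db₁ k1 k2 k3 k4 hrb hra hb hs
  have hv : ∀ y : E, HG (fun y => a (y 2) * Real.cos (n * y 0) + b (y 2) * Real.cos (2 * n * y 1)) y _ :=
    fun y => ((HG.coord 2 (da (y 2))).mul (tm_cos n 0 y)).add
      ((HG.coord 2 (db (y 2))).mul (tm_cos (2 * n) 1 y))
  have hF₁ : ∀ (y : E) (d : ℝ), HasDerivAt a₁ d (y 2) →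
      HG (fun y => a₁ (y 2) * Real.sin (n * y 0) / n) y _ :=
    fun y d hd => ((HG.coord 2 hd).mul (tm_sin n 0 y)).div_const n
  have hF₂ : ∀ (y : E) (d : ℝ), HasDerivAt b₁ d (y 2) →
      HG (fun y => -(b₁ (y 2) * Real.sin (2 * n * y 1) / (2 * n))) y _ :=
    fun y d hd => (((HG.coord 2 hd).mul (tm_sin (2 * n) 1 y)).div_const (2 * n)).neg
  have dra := (cra.differentiableAt (by norm_num)).hasDerivAt
  have drb := (crb.differentiableAt (by norm_num)).hasDerivAt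
  have hg : HG (fun y => (ra (y 2) * Real.sin (n * y 0) * Real.sin (4 * n * y 1)
        - rb (y 2) * Real.sin (2 * n * y 1) * Real.sin (2 * n * y 0)) / (4 * n ^ 2)) q _ :=
    ((((HG.coord 2 dra).mul (tm_sin n 0 q)).mul (tm_sin (4 * n) 1 q)).sub
      (((HG.coord 2 drb).mul (tm_sin (2 * n) 1 q)).mul (tm_sin (2 * n) 0 q))).div_const (4 * n ^ 2)
  refine ⟨((cd_coord 2 ca).mul (tm_cd_cos n 0 q)).add ((cd_coord 2 cb).mul (tm_cd_cos _ 1 q)),
    ((cd_coord 2 ca₁).mul (tm_cd_sin n 0 q)).div_const n,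
    (((cd_coord 2 cb₁).mul (tm_cd_sin _ 1 q)).div_const _).neg,
    ((((cd_coord 2 cra).mul (tm_cd_sin n 0 q)).mul (tm_cd_sin _ 1 q)).sub
      (((cd_coord 2 crb).mul (tm_cd_sin _ 1 q)).mul (tm_cd_sin _ 0 q))).div_const _, ?_, ?_⟩
  · have c2 : ContinuousAt (fun y : E => y 2) q := (continuous_coord 2).continuousAt
    filter_upwards [c2.eventually (ca₁.eventually (by simp)), c2.eventually (cb₁.eventually (by simp))]
      with y h1 h2
    rw [(hv y).2, (hF₁ y _ (h1.differentiableAt (by norm_num)).hasDerivAt).2,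
      (hF₂ y _ (h2.differentiableAt (by norm_num)).hasDerivAt).2]
    simp [ee_apply]
    field_simp
  · have e4 : 4 * n * q 1 = 2 * (2 * n * q 1) := by ring
    have e2 : 2 * n * q 0 = 2 * (n * q 0) := by ring
    have := hT1.2.2 (-(n * a (q 2) * Real.sin (n * q 0))) (-(2 * n * b (q 2) * Real.sin (2 * n * q 1)))
      ka kb _ _ k1 k2 k3 k4
      (tm_est hn (Real.abs_sin_le_one (n * q 0)) (Real.abs_cos_le_one (n * q 0))
        (Real.abs_sin_le_one (2 * n * q 1)) (Real.abs_cos_le_one (2 * n * q 1)) hrb hra)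
      (neg_ne_zero.2 (mul_ne_zero (by positivity) hs))
    have g0 : ∇ (fun y : E => a (y 2) * Real.cos (n * y 0) + b (y 2) * Real.cos (2 * n * y 1)) q 0 =
        -(n * a (q 2) * Real.sin (n * q 0)) := by
      rw [(hv q).2]; simp [ee_apply]; ring
    have g1 : ∇ (fun y : E => a (y 2) * Real.cos (n * y 0) + b (y 2) * Real.cos (2 * n * y 1)) q 1 =
        -(2 * n * b (q 2) * Real.sin (2 * n * q 1)) := by
      rw [(hv q).2]; simp [ee_apply]; ring
    have c4 : Real.cos (4 * n * q 1) = 1 - 2 * Real.sin (2 * n * q 1) ^ 2 := by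
      rw [e4, Real.cos_two_mul, Real.cos_sq']; ring
    have s4 : Real.sin (4 * n * q 1) = 2 * Real.sin (2 * n * q 1) * Real.cos (2 * n * q 1) := by
      rw [e4, Real.sin_two_mul]
    have c2 : Real.cos (2 * n * q 0) = 1 - 2 * Real.sin (n * q 0) ^ 2 := by
      rw [e2, Real.cos_two_mul, Real.cos_sq']; ring
    have s2 : Real.sin (2 * n * q 0) = 2 * Real.sin (n * q 0) * Real.cos (n * q 0) := by
      rw [e2, Real.sin_two_mul]
    have j0 : -∇ (fun y : E => a₁ (y 2) * Real.sin (n * y 0) / n) q 2 +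
        ∇ (fun y : E => (ra (y 2) * Real.sin (n * y 0) * Real.sin (4 * n * y 1)
        - rb (y 2) * Real.sin (2 * n * y 1) * Real.sin (2 * n * y 0)) / (4 * n ^ 2)) q 1 =
        ka * -(n * a (q 2) * Real.sin (n * q 0)) +
        (-(2 * ra (q 2) / n * Real.sin (n * q 0) * Real.sin (2 * n * q 1) ^ 2) -
          rb (q 2) / n * Real.cos (2 * n * q 1) * Real.sin (n * q 0) * Real.cos (n * q 0)) := by
      rw [(hF₁ q _ da₁).2, hg.2]
      simp [ee_apply]
      rw [c4, s2]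
      field_simp
      ring
    have j1 : ∇ (fun y : E => -(b₁ (y 2) * Real.sin (2 * n * y 1) / (2 * n))) q 2 -
        ∇ (fun y : E => (ra (y 2) * Real.sin (n * y 0) * Real.sin (4 * n * y 1)
        - rb (y 2) * Real.sin (2 * n * y 1) * Real.sin (2 * n * y 0)) / (4 * n ^ 2)) q 0 =
        kb * -(2 * n * b (q 2) * Real.sin (2 * n * q 1)) +
        (-(rb (q 2) / n * Real.sin (2 * n * q 1) * Real.sin (n * q 0) ^ 2) -
          ra (q 2) / n * Real.cos (n * q 0) * Real.sin (2 * n * q 1) * Real.cos (2 * n * q 1) / 2) := by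
      rw [(hF₂ q _ db₁).2, hg.2]
      simp [ee_apply]
      rw [c2, s4]
      field_simp
      ring
    rw [g0, g1, j0, j1]
    exact this

end Crest.Agent.R83
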