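import Crest.Agent.R83.GA

/-! Row 83, task TR: the self-similar tree of fields. -/

set_option autoImplicit false

noncomputable section

namespace Crest.Agent.R83

open MeasureTheory Set Filter Topology Metric
open scoped Gradient RealInnerProductSpace NNReal

/-- the similarity onto the cell with address `P` (inverse) -/
def trT (P : List Bool) (x : E) : E := P.foldr Sinv x

lemma trT_nil (x : E) : trT [] x = x := rfl

lemma trT_cons (i : Bool) (P : List Bool) (x : E) : trT (i :: P) x = Sinv i (trT P x) := rfl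

lemma tr_sim (hGE : GEStmt) (P : List Bool) : ∃ (R : E ≃ₗᵢ[ℝ] E) (b : E),
    ∀ x, trT P x = (rho ^ P.length)⁻¹ • R (x - b) := by
  obtain ⟨-, -, -, -, -, R₀, -, -, h, -⟩ := hGE
  induction P with
  | nil => exact ⟨LinearIsometryEquiv.refl ℝ E, 0, fun x => by simp [trT_nil]⟩
  | cons i P ih =>
    obtain ⟨R, b, hR⟩ := ih
    refine ⟨R.trans R₀, b + rho ^ P.length • R.symm !₂[cen i, rho * cc, 0], fun x => ?_⟩
    have h1 : rho ^ P.length ≠ 0 := pow_ne_zero _ ga_rho.ne'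
    rw [trT_cons, h, hR, LinearIsometryEquiv.trans_apply, ← sub_sub, map_sub R (x - b), map_smul,
      LinearIsometryEquiv.apply_symm_apply, List.length_cons, pow_succ', mul_inv, mul_smul,
      ← map_smul R₀ (rho ^ P.length)⁻¹, smul_sub, inv_smul_smul₀ h1]

lemma tr_mono (hGE : GEStmt) {P : List Bool} {i : Bool} {x : E} (h : trT (i :: P) x ∈ UU) :
    trT P x ∈ UU := ga_ch_sub hGE i h

lemma tr_root (hGE : GEStmt) {P : List Bool} {x : E} (h : trT P x ∈ UU) : x ∈ UU := by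
  induction P with
  | nil => exact h
  | cons i P ih => exact ih (tr_mono hGE h)

lemma tr_level (hGE : GEStmt) {x : E} : ∀ P Q : List Bool, P.length = Q.length →
    trT P x ∈ UU → trT Q x ∈ UU → P = Q := by
  intro P
  induction P with
  | nil => intro Q h _ _; exact (List.length_eq_zero_iff.1 h.symm).symm
  | cons i P ih =>
    intro Q h h1 h2
    cases Q with
    | nil => simp at h
    | cons j Q =>
      obtain rfl := ih Q (by simpa using h) (tr_mono hGE h1) (tr_mono hGE h2)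
      cases i <;> cases j
      · rfl
      · exact (ga_ch_disj hGE h1 h2).elim
      · exact (ga_ch_disj hGE h2 h1).elim
      · rfl

lemma tr_up (hGE : GEStmt) {x : E} : ∀ Q : List Bool, trT Q x ∈ UU → ∀ n ≤ Q.length,
    ∃ Q' : List Bool, Q'.length = n ∧ trT Q' x ∈ UU := by
  intro Q
  induction Q with
  | nil => intro h n hn; exact ⟨[], by simpa using (Nat.le_zero.1 hn).symm, h⟩
  | cons i Q ih =>
    intro h n hn
    rcases hn.eq_or_lt with rfl | hn
    · exact ⟨i :: Q, rfl, h⟩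
    · exact ih (tr_mono hGE h) n (by simpa [Nat.lt_succ_iff] using hn)

/-- the cell without its children -/
def trV : Set E := UU \ (Ch false ∪ Ch true)

lemma tr_le (hGE : GEStmt) {x : E} {P Q : List Bool} (hP : trT P x ∈ trV) (hQ : trT Q x ∈ UU) :
    Q.length ≤ P.length := by
  by_contra h
  obtain ⟨Q', h1, h2⟩ := tr_up hGE Q hQ (P.length + 1) (by omega)
  cases Q' with
  | nil => simp at h1
  | cons k Q' =>
    obtain rfl := tr_level hGE Q' P (by simpa using h1) (tr_mono hGE h2) hP.1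
    refine hP.2 ?_
    cases k
    exacts [Or.inl h2, Or.inr h2]

lemma tr_uniq (hGE : GEStmt) {x : E} {P Q : List Bool} (hP : trT P x ∈ trV)
    (hQ : trT Q x ∈ trV) : P = Q :=
  tr_level hGE P Q (le_antisymm (tr_le hGE hQ hP.1) (tr_le hGE hP hQ.1)) hP.1 hQ.1

lemma tr_gamma (hGE : GEStmt) {γ₀ : E → ℝ} (hm : Measurable γ₀) : ∃ γ : E → ℝ, Measurable γ ∧
    (∀ P x, trT P x ∈ trV → γ x = γ₀ (trT P x)) ∧ ∀ x, (∀ P, trT P x ∉ trV) → γ x = 1 := by
  classical
  have hT : ∀ P, Measurable (trT P) := fun P => by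
    obtain ⟨R, b, h⟩ := tr_sim hGE P
    rw [show trT P = _ from funext h]
    exact Continuous.measurable (by fun_prop)
  have hV : MeasurableSet trV := (ga_open hGE).measurableSet.diff
    (((ga_open hGE).preimage (ga_cont hGE false)).measurableSet.union
      ((ga_open hGE).preimage (ga_cont hGE true)).measurableSet)
  set γ : E → ℝ := fun x => if h : ∃ P, trT P x ∈ trV then γ₀ (trT h.choose x) else 1 with hγ
  have h1 : ∀ P x, trT P x ∈ trV → γ x = γ₀ (trT P x) := fun P x hx => by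
    have h : ∃ P, trT P x ∈ trV := ⟨P, hx⟩
    simp only [hγ, dif_pos h]
    rw [tr_uniq hGE h.choose_spec hx]
  have h2 : ∀ x, (∀ P, trT P x ∉ trV) → γ x = 1 := fun x hx => dif_neg fun ⟨P, h⟩ => hx P h
  refine ⟨γ, fun s hs => ?_, h1, h2⟩
  have e : γ ⁻¹' s = (⋃ P, trT P ⁻¹' (trV ∩ γ₀ ⁻¹' s)) ∪
      ((⋃ P, trT P ⁻¹' trV)ᶜ ∩ (fun _ => (1 : ℝ)) ⁻¹' s) := by
    ext x
    simp only [mem_preimage, mem_union, mem_iUnion, mem_inter_iff, mem_compl_iff, not_exists]
    by_cases h : ∃ P, trT P x ∈ trV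
    · obtain ⟨P, hP⟩ := h
      refine ⟨fun h => Or.inl ⟨P, hP, h1 P x hP ▸ h⟩, ?_⟩
      rintro (⟨Q, hQ, h⟩ | ⟨h, -⟩)
      · rwa [h1 Q x hQ]
      · exact absurd hP (h P)
    · have h' : ∀ P, trT P x ∉ trV := fun P hP => h ⟨P, hP⟩
      rw [h2 x h']
      refine ⟨fun h => Or.inr ⟨h', h⟩, ?_⟩
      rintro (⟨Q, hQ, -⟩ | ⟨-, h⟩)
      · exact absurd hQ (h' Q)
      · exact h
  rw [e]
  exact (MeasurableSet.iUnion fun P => hT P (hV.inter (hm hs))).union
    ((MeasurableSet.iUnion fun P => hT P hV).compl.inter (measurable_const hs))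

theorem TR_proof (hGA : GAStmt) (hGE : GEStmt) (hST : STStmt) (hZL : ZLStmt) : TRStmt := by
  obtain ⟨B, M, γ₀, a, σ, hBU, hBC, hγm, hγb, hγS, hσm, hσb, hσ0, hσp, ha⟩ := hGA
  obtain ⟨γ, g1, g2, g3⟩ := tr_gamma hGE hγm
  set μ₀ := ∫ x, σ x with hμ₀
  have hρ := ga_rho
  have hs : ∀ P : List Bool, 0 < rho ^ P.length := fun P => pow_pos hρ _
  choose R b hR using tr_sim hGE
  have hS := fun P => hST (R P) _ (b P) (trT P) (hs P) (hR P)
  have hM : 0 < M := by
    have := hγb 0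
    nlinarith
  -- bounds for the fields
  have hA : ∀ i, ∃ A : ℝ, 0 ≤ A ∧ ∀ x, |a i x| ≤ A := fun i => by
    obtain ⟨A, h0, h⟩ := h28_bdd (ha i).1.continuous (27 / 10)
    refine ⟨A, h0, fun x => ?_⟩
    by_cases hx : x ∈ UU
    · exact h x (ga_ball hGE hx)
    · rw [(ha i).2.1 x hx, abs_zero]
      exact h0
  choose A hA0 hA using hA
  have hE0 : ∀ i, 0 ≤ ∫ y, γ₀ y * ‖∇ (a i) y‖ ^ 2 := fun i =>
    integral_nonneg fun y => mul_nonneg (hγb y).2.1.le (sq_nonneg _)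
  set C : ℝ := M + 6 + μ₀⁻¹ * (A false + A true) + μ₀⁻¹ ^ 2 *
    ((∫ y, γ₀ y * ‖∇ (a false) y‖ ^ 2) + ∫ y, γ₀ y * ‖∇ (a true) y‖ ^ 2) with hC
  have hμi : 0 < μ₀⁻¹ := inv_pos.2 hσp
  have c1 : 0 ≤ μ₀⁻¹ * (A false + A true) := mul_nonneg hμi.le (add_nonneg (hA0 _) (hA0 _))
  have c2 : 0 ≤ μ₀⁻¹ ^ 2 *
      ((∫ y, γ₀ y * ‖∇ (a false) y‖ ^ 2) + ∫ y, γ₀ y * ‖∇ (a true) y‖ ^ 2) :=
    mul_nonneg (sq_nonneg _) (add_nonneg (hE0 _) (hE0 _))
  -- `γ` agrees with the transported conductivity where the field lives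
  have hkey : ∀ P i, ∀ᵐ x, ∇ (a i) (trT P x) = 0 ∨ γ x = γ₀ (trT P x) := fun P i => by
    have h0 : ∀ᵐ y, (a i y = 0 → ∇ (a i) y = 0) ∧ ∀ k, y ∈ Ch k → Sinv k y ∉ B → ∇ (a i) y = 0 := by
      have := hZL.2.1 (a i) (fun _ => 0) (ha i).1.locLip (Lip.const 0).locLip
      filter_upwards [this, (ha i).2.2.1 false, (ha i).2.2.1 true] with y h1 h2 h3
      refine ⟨by simpa using h1, fun k => ?_⟩
      cases k
      exacts [h2, h3]
    filter_upwards [(hS P).2.2.2.1 _ h0] with x ⟨h1, h2⟩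
    by_cases hU : trT P x ∈ UU
    · by_cases hC' : ∃ k, trT P x ∈ Ch k
      · obtain ⟨k, hk⟩ := hC'
        by_cases hB : Sinv k (trT P x) ∈ B
        · refine Or.inr ((g2 (k :: P) x ⟨hBU hB, ?_⟩).trans (hγS k _ hB).symm)
          rintro (h | h)
          exacts [disjoint_left.1 (hBC false) hB h, disjoint_left.1 (hBC true) hB h]
        · exact Or.inl (h2 k hk hB)
      · refine Or.inr (g2 P x ⟨hU, ?_⟩)
        rintro (h | h)
        exacts [hC' ⟨_, h⟩, hC' ⟨_, h⟩]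
    · exact Or.inl (h1 ((ha i).2.1 _ hU))
  have hgrad : ∀ P i x, ∇ (fun x => μ₀⁻¹ * (rho ^ P.length)⁻¹ * a i (trT P x)) x =
      (μ₀⁻¹ * (rho ^ P.length)⁻¹ ^ 2) • (R P).symm (∇ (a i) (trT P x)) := fun P i x => by
    rw [grad_const_mul, (hS P).2.2.1, smul_smul]
    congr 1
    ring
  refine ⟨γ, C, fun P => trT P ⁻¹' UU, fun P i x => μ₀⁻¹ * (rho ^ P.length)⁻¹ * a i (trT P x),
    fun P x => μ₀⁻¹ * (rho ^ P.length)⁻¹ ^ 3 * σ (trT P x), g1, fun x => ?_, fun x hx => ?_,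
    fun P x hx => mem_ball_zero_iff.2 (ga_ball hGE (tr_root hGE hx)),
    fun P i x hx => tr_mono hGE hx,
    fun P => disjoint_left.2 fun x h0 h1 => ga_ch_disj hGE h0 h1, fun P x hx y hy => ?_,
    fun P i => ⟨?_, fun x hx => ?_, fun x => ?_, ?_⟩, fun P => ⟨?_, ?_, fun x hx => ?_, ?_⟩,
    fun P i ψ hψ => ?_, ?_⟩
  · by_cases h : ∃ P, trT P x ∈ trV
    · obtain ⟨P, hP⟩ := h
      obtain ⟨h1, h2, h3⟩ := hγb (trT P x)
      rw [g2 P x hP]
      refine ⟨h1.trans (mul_le_mul_of_nonneg_right (by linarith) h2.le), h2, by linarith⟩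
    · rw [g3 x fun P hP => h ⟨P, hP⟩]
      exact ⟨by linarith, one_pos, by linarith⟩
  · exact g3 x fun P hP => ga_out hGE hx (tr_root hGE hP.1)
  · have h1 : dist (trT P x) (trT P y) = (rho ^ P.length)⁻¹ * dist x y := by
      rw [dist_eq_norm, dist_eq_norm, hR, hR, ← smul_sub, ← map_sub, norm_smul,
        LinearIsometryEquiv.norm_map, Real.norm_of_nonneg (inv_pos.2 (hs P)).le, sub_sub_sub_cancel_right]
    have h2 : dist (trT P x) (trT P y) ≤ C := by
      have := dist_le_norm_add_norm (trT P x) (trT P y)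
      linarith [ga_ball hGE hx, ga_ball hGE hy]
    rwa [h1, inv_mul_le_iff₀ (hs P), mul_comm] at h2
  · obtain ⟨K, hK⟩ := (ha i).1
    have := Lip.const_mul (μ₀⁻¹ * (rho ^ P.length)⁻¹ * (rho ^ P.length)⁻¹)
      ⟨K, (hS P).2.2.2.2.2 _ K hK⟩
    simpa only [mul_assoc, inv_mul_cancel_left₀ (hs P).ne'] using this
  · simp only
    rw [(ha i).2.1 _ hx, mul_zero]
  · have h1 := inv_pos.2 (hs P)
    rw [abs_mul, abs_of_pos (mul_pos hμi h1), div_eq_mul_inv, mul_right_comm]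
    refine mul_le_mul_of_nonneg_right ?_ h1.le
    have h2 : A i ≤ A false + A true := by
      cases i
      exacts [le_add_of_nonneg_right (hA0 _), le_add_of_nonneg_left (hA0 _)]
    have := mul_le_mul_of_nonneg_left ((hA i (trT P x)).trans h2) hμi.le
    linarith
  · have h1 : ∫ x, γ x * ‖∇ (fun x => μ₀⁻¹ * (rho ^ P.length)⁻¹ * a i (trT P x)) x‖ ^ 2 =
        ∫ x, (μ₀⁻¹ * (rho ^ P.length)⁻¹ ^ 2) ^ 2 *
          (γ₀ (trT P x) * ‖∇ (a i) (trT P x)‖ ^ 2) := by
      refine integral_congr_ae ((hkey P i).mono fun x hx => ?_)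
      simp only
      rw [hgrad, norm_smul, LinearIsometryEquiv.norm_map, mul_pow, Real.norm_eq_abs, sq_abs]
      rcases hx with h | h <;> rw [h]
      · simp
      · ring
    rw [h1, integral_const_mul, (hS P).1 (fun y => γ₀ y * ‖∇ (a i) y‖ ^ 2), le_div_iff₀ (hs P)]
    have h2 : ∫ y, γ₀ y * ‖∇ (a i) y‖ ^ 2 ≤
        (∫ y, γ₀ y * ‖∇ (a false) y‖ ^ 2) + ∫ y, γ₀ y * ‖∇ (a true) y‖ ^ 2 := by
      cases i
      exacts [le_add_of_nonneg_right (hE0 _), le_add_of_nonneg_left (hE0 _)]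
    have h3 := mul_le_mul_of_nonneg_left h2 (sq_nonneg μ₀⁻¹)
    have h4 := (hs P).ne'
    calc _ = μ₀⁻¹ ^ 2 * ∫ y, γ₀ y * ‖∇ (a i) y‖ ^ 2 := by field_simp
      _ ≤ C := by linarith
  · have hT : Measurable (trT P) := by
      rw [show trT P = _ from funext (hR P)]
      exact Continuous.measurable (by fun_prop)
    exact (hσm.comp hT).const_mul _
  · have h1 : 0 ≤ μ₀⁻¹ * (rho ^ P.length)⁻¹ ^ 3 := by have := hs P; positivity
    exact ⟨_, fun x => ⟨mul_nonneg h1 (hσb _).1, mul_le_mul_of_nonneg_left (hσb _).2 h1⟩⟩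
  · simp only
    rw [hσ0 _ hx, mul_zero]
  · rw [integral_const_mul, (hS P).1 σ]
    have h4 := (hs P).ne'
    have h5 := hσp.ne'
    rw [← hμ₀]
    field_simp
  · set ψ' : E → ℝ := fun y => ψ (b P + rho ^ P.length • (R P).symm y) with hψ'
    have e : ∀ x, ψ' (trT P x) = ψ x := fun x => by
      simp only [hψ', hR, map_smul, LinearIsometryEquiv.symm_apply_apply,
        smul_inv_smul₀ (hs P).ne', add_sub_cancel]
    have hψ'l : LocallyLipschitz ψ' := hψ.comp (ContDiff.locallyLipschitz (𝕂 := ℝ)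
      (contDiff_const.add ((R P).symm.contDiff.const_smul _)))
    have hg : ∀ x, ∇ ψ x = (rho ^ P.length)⁻¹ • (R P).symm (∇ ψ' (trT P x)) := fun x => by
      rw [← (hS P).2.2.1]
      simp only [e]
    have h1 : ∫ x, γ x * ⟪∇ (fun x => μ₀⁻¹ * (rho ^ P.length)⁻¹ * a i (trT P x)) x, ∇ ψ x⟫ =
        ∫ x, (μ₀⁻¹ * (rho ^ P.length)⁻¹ ^ 3) *
          (γ₀ (trT P x) * ⟪∇ (a i) (trT P x), ∇ ψ' (trT P x)⟫) := by
      refine integral_congr_ae ((hkey P i).mono fun x hx => ?_)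
      simp only
      rw [hgrad, hg, real_inner_smul_left, real_inner_smul_right,
        LinearIsometryEquiv.inner_map_map]
      rcases hx with h | h <;> rw [h]
      · simp
      · ring
    have h2 : ∫ x, ψ x * (μ₀⁻¹ * (rho ^ (i :: P).length)⁻¹ ^ 3 * σ (trT (i :: P) x)) =
        ∫ x, (μ₀⁻¹ * (rho ^ P.length)⁻¹ ^ 3) *
          (ψ' (trT P x) * (rho⁻¹ ^ 3 * σ (Sinv i (trT P x)))) := by
      refine integral_congr_ae (ae_of_all _ fun x => ?_)
      simp only [e, trT_cons, List.length_cons, pow_succ rho, mul_inv]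
      ring
    have h3 : ∫ x, ψ x * (μ₀⁻¹ * (rho ^ P.length)⁻¹ ^ 3 * σ (trT P x)) =
        ∫ x, (μ₀⁻¹ * (rho ^ P.length)⁻¹ ^ 3) * (ψ' (trT P x) * σ (trT P x)) := by
      refine integral_congr_ae (ae_of_all _ fun x => ?_)
      simp only [e]
      ring
    rw [h1, h2, h3, integral_const_mul, integral_const_mul, integral_const_mul,
      (hS P).1 (fun y => γ₀ y * ⟪∇ (a i) y, ∇ ψ' y⟫),
      (hS P).1 (fun y => ψ' y * (rho⁻¹ ^ 3 * σ (Sinv i y))), (hS P).1 (fun y => ψ' y * σ y),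
      (ha i).2.2.2 ψ' hψ'l]
    ring
  · refine ⟨fun x => max 0 (min 1 (1 / 2 + -(50 / 3) * x 0)), h28_lip_max (Lip.const 0)
      (h28_lip_min (Lip.const 1) ((Lip.const _).add ((h28_lip_X 0).const_mul _))),
      fun x hx => ?_, fun x hx => ?_⟩
    · have a0 := abs_le.1 (hGE.2.2.2.1 false x (le_of_lt hx)).2
      simp only [cen, cc, rho, cond_false] at a0
      simp only
      rw [min_eq_left (by linarith [a0.2]), max_eq_right zero_le_one]
    · have a0 := abs_le.1 (hGE.2.2.2.1 true x (le_of_lt hx)).2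
      simp only [cen, cc, rho, cond_true] at a0
      exact max_eq_left (min_le_of_right_le (by linarith [a0.1]))

end Crest.Agent.R83
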