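import Crest.Agent.R83.H28Aux

/-! Row 83, task VI: the variational inequality for near-minimisers. -/

set_option autoImplicit false

noncomputable section

namespace Crest.Agent.R83

open MeasureTheory Set Filter Topology Metric
open scoped Gradient RealInnerProductSpace NNReal

lemma vi_int {γ u v : E → ℝ} {C : ℝ} (hγ : Measurable γ) (hC : ∀ x, 0 ≤ γ x ∧ γ x ≤ C)
    (hu : LocallyLipschitz u) (hv : LocallyLipschitz v) :
    IntegrableOn (fun x => γ x * ⟪∇ u x, ∇ v x⟫) (ball (0 : E) 3) := by
  obtain ⟨A, hA0, hA⟩ := h28_grad_bdd hu 3
  obtain ⟨B, hB0, hB⟩ := h28_grad_bdd hv 3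
  refine h28_integrableOn (C := C * (A * B))
    (hγ.mul ((measurable_grad u).inner (measurable_grad v))) (ae_of_all _ fun x hx => ?_)
  rw [Pi.mul_apply, abs_mul, abs_of_nonneg (hC x).1]
  exact mul_le_mul (hC x).2 ((abs_real_inner_le_norm _ _).trans
    (mul_le_mul (hA x hx) (hB x hx) (norm_nonneg _) hA0)) (abs_nonneg _) ((hC x).1.trans (hC x).2)

open Crest.AnalysisR.PDE.Calderon in
theorem VI_proof (hDL : DLStmt) : VIStmt := by
  intro γ u h g C η r hγ hC hu hmin hh hh0 hg hr hg0
  have hu' : LocallyLipschitz u := hu.locallyLipschitz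
  have hv' : LocallyLipschitz (fun y => h y + g y) := hh.locallyLipschitz.add hg.locLip
  have key : ∀ t : ℝ, 0 ≤ ballEnergy γ (fun y => h y + g y) * (t * t) +
      2 * (∫ x in ball (0 : E) 3, γ x * ⟪∇ (fun y => h y + g y) x, ∇ u x⟫) * t + η := by
    intro t
    have h1 : ballEnergy γ u ≤ ballEnergy γ (fun x => (u x + t * h x) + t * g x) + η := by
      refine le_of_forall_pos_le_add fun ε hε => ?_
      obtain ⟨w, hw, hw0, hw1⟩ := hDL γ (fun x => u x + t * h x) (fun x => t * g x) C r hγ
        (fun x => by rw [abs_of_nonneg (hC x).1]; exact (hC x).2)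
        (hu.add (contDiff_const.mul hh)) (hg.const_mul t) hr
        (fun x hx => by rw [hg0 x hx, mul_zero]) ε hε
      have := hmin w hw fun x hx => by rw [hw0 x hx, hh0 x hx, mul_zero, add_zero]
      linarith
    have h2 : ballEnergy γ (fun x => (u x + t * h x) + t * g x) = ballEnergy γ u +
        (ballEnergy γ (fun y => h y + g y) * (t * t) +
          2 * (∫ x in ball (0 : E) 3, γ x * ⟪∇ (fun y => h y + g y) x, ∇ u x⟫) * t) := by
      unfold ballEnergy
      simp only [← real_inner_self_eq_norm_sq]
      rw [← integral_mul_const, ← integral_const_mul, ← integral_mul_const, ← integral_add,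
        ← integral_add]
      · refine integral_congr_ae (ae_restrict_of_ae ((h28_ae_diff hg).mono fun x hx => ?_))
        have d1 : DifferentiableAt ℝ u x := hu.differentiable one_ne_zero x
        have d2 : DifferentiableAt ℝ (fun y => h y + g y) x :=
          (hh.differentiable one_ne_zero x).add hx
        have e : (fun x => (u x + t * h x) + t * g x) = fun x => u x + t * (h x + g x) := by
          funext y; ring
        simp only
        rw [e, grad_add d1 (d2.const_mul t), grad_const_mul]
        simp only [inner_add_left, inner_add_right, inner_smul_left, inner_smul_right,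
          real_inner_comm (∇ (fun y => h y + g y) x) (∇ u x), conj_trivial]
        ring
      · exact vi_int hγ hC hu' hu'
      · exact ((vi_int hγ hC hv' hv').mul_const _).add
          (((vi_int hγ hC hv' hu').const_mul _).mul_const _)
      · exact (vi_int hγ hC hv' hv').mul_const _
      · exact ((vi_int hγ hC hv' hu').const_mul _).mul_const _
    linarith
  have := discrim_le_zero key
  unfold discrim at this
  nlinarith

end Crest.Agent.R83
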