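import Crest.Agent.R83.NL

/-! Row 83, task WL: wall lemma. -/

set_option autoImplicit false

noncomputable section

namespace Crest.Agent.R83

open MeasureTheory Set Filter Topology Metric
open scoped Gradient RealInnerProductSpace NNReal

/-- test functions -/
def wl_T (φ : E → ℝ) : Prop := LocallyLipschitz φ ∧ HasCompactSupport φ

theorem wl_T.lip {φ : E → ℝ} (h : wl_T φ) : Lip φ := lip_of_locLip h.1 h.2

theorem wl_T.of {φ ψ : E → ℝ} (h : wl_T φ) (hψ : LocallyLipschitz ψ) (h0 : ∀ x, φ x = 0 → ψ x = 0) :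
    wl_T ψ := ⟨hψ, h.2.mono fun x hx h' => hx (h0 x h')⟩

/-- the integral over the upper half space -/
def wl_I (F G φ : E → ℝ) : ℝ := ∫ x in {x : E | 0 < x 2}, nl_D F G φ x

theorem wl_meas : MeasurableSet {x : E | 0 < x 2} :=
  (isOpen_lt continuous_const (lipschitz_X 2).continuous).measurableSet

theorem wl_c1 (hNL : NLStmt) {F G μ : E → ℝ} (hF : LocallyLipschitz F) (hG : LocallyLipschitz G)
    (hμ : wl_T μ) (h0 : ∀ x : E, x 2 = 0 → μ x = 0) : wl_I F G μ = 0 := by
  let P : E → E := fun x => x + (max (-x 2) 0) • ee 2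
  have hP : LocallyLipschitz P := by
    have h1 : LocallyLipschitz fun x : E => max (-x 2) 0 :=
      ((lipschitz_X 2).neg.locallyLipschitz).max_const 0
    exact LocallyLipschitz.id.add
      ((ContinuousLinearMap.toSpanSingleton ℝ (ee 2)).lipschitz.locallyLipschitz.comp h1)
  have h1 : ∀ x : E, 0 < x 2 → P x = x := fun x hx => by
    simp only [P]
    rw [max_eq_right (by linarith), zero_smul, add_zero]
  have h2 : ∀ x : E, x 2 ≤ 0 → μ (P x) = 0 := fun x hx => h0 _ (by
    simp only [P]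
    rw [max_eq_left (by linarith)]
    simp [ee_apply])
  have hT : wl_T fun x => μ (P x) := hμ.of (hμ.1.comp hP) fun x hx => by
    rcases lt_or_ge 0 (x 2) with h | h
    · rw [h1 x h, hx]
    · exact h2 x h
  rw [wl_I, ← integral_indicator wl_meas]
  refine (integral_congr_ae ?_).trans (hNL F G _ hF hG hT.lip hT.2)
  filter_upwards [ae_coord_ne 2 0] with x hx
  rcases lt_or_gt_of_ne hx with h | h
  · rw [indicator_of_notMem (by simpa using h.le), grad_congr (f := fun x => μ (P x)) (g := 0),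
      grad_zero, inner_zero_right]
    filter_upwards [(isOpen_lt (lipschitz_X 2).continuous continuous_const).mem_nhds h] with y hy
    exact h2 y (le_of_lt hy)
  · rw [indicator_of_mem (by simpa using h), grad_congr (f := fun x => μ (P x)) (g := μ)]
    · rfl
    filter_upwards [(isOpen_lt continuous_const (lipschitz_X 2).continuous).mem_nhds h] with y hy
    rw [h1 y hy]

theorem wl_core (hNL : NLStmt) (hZL : ZLStmt) {F G φ : E → ℝ} (hF : LocallyLipschitz F)
    (hG : LocallyLipschitz G) (hφ : wl_T φ) (F0 : ∀ x, 0 ≤ F x) (G0 : ∀ x, 0 ≤ G x)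
    (φ0 : ∀ x, 0 ≤ φ x) (h0 : ∀ x : E, x 2 = 0 → F x = 0 ∨ G x = 0 ∨ φ x = 0) :
    wl_I F G φ = 0 := by
  have hl : LocallyLipschitz fun x => min (F x) (min (G x) (φ x)) := hF.min (hG.min hφ.1)
  have hz : ∀ x, F x = 0 ∨ G x = 0 ∨ φ x = 0 → min (F x) (min (G x) (φ x)) = 0 := fun x hx => by
    have := F0 x
    have := G0 x
    have := φ0 x
    rcases hx with h | h | h <;> simp [*]
  refine (integral_congr_ae (ae_restrict_of_ae ?_)).trans (wl_c1 hNL (F := fun x => F x - φ x)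
    (G := fun x => G x - φ x) (hF.sub hφ.1) (hG.sub hφ.1)
    (hφ.of hl fun x hx => hz x (Or.inr (Or.inr hx))) fun x hx => hz x (h0 x hx))
  filter_upwards [hZL.2.2 F hF, hZL.2.2 G hG, hZL.2.2 φ hφ.1, hZL.2.1 _ _ hl hF, hZL.2.1 _ _ hl hG,
    hZL.2.1 _ _ hl hφ.1] with x d1 d2 d3 e1 e2 e3
  simp only [nl_D, grad_sub d1 d3, grad_sub d2 d3]
  rcases min_choice (F x) (min (G x) (φ x)) with h | h
  · rw [e1 h]
    simp only [inner3, cross_0, cross_1, cross_2, PiLp.sub_apply]
    ring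
  rcases min_choice (G x) (φ x) with h' | h'
  · rw [e2 (h.trans h')]
    simp only [inner3, cross_0, cross_1, cross_2, PiLp.sub_apply]
    ring
  · rw [e3 (h.trans h')]
    simp only [inner3, cross_0, cross_1, cross_2, PiLp.sub_apply]
    ring

theorem wl_subφ {F G φ ψ χ : E → ℝ} (hF : LocallyLipschitz F) (hG : LocallyLipschitz G)
    (hφ : wl_T φ) (hψ : wl_T ψ) (e : ∀ x, χ x = φ x - ψ x) (h1 : wl_I F G φ = 0)
    (h2 : wl_I F G ψ = 0) : wl_I F G χ = 0 := by
  obtain rfl : χ = fun x => φ x - ψ x := funext e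
  refine Eq.trans ?_ (show wl_I F G φ - wl_I F G ψ = 0 by rw [h1, h2, sub_zero])
  rw [wl_I, wl_I, wl_I, ← integral_sub
    (nl_int hF hG hφ.lip hφ.2).integrableOn (nl_int hF hG hψ.lip hψ.2).integrableOn]
  refine integral_congr_ae (ae_restrict_of_ae ?_)
  filter_upwards [zl_c φ hφ.1, zl_c ψ hψ.1] with x d1 d2
  simp only [nl_D, grad_sub d1 d2, inner_sub_right]

theorem wl_subF {F F' H G φ : E → ℝ} (hF : LocallyLipschitz F) (hF' : LocallyLipschitz F')
    (hG : LocallyLipschitz G) (hφ : wl_T φ) (e : ∀ x, H x = F x - F' x) (h1 : wl_I F G φ = 0)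
    (h2 : wl_I F' G φ = 0) : wl_I H G φ = 0 := by
  obtain rfl : H = fun x => F x - F' x := funext e
  refine Eq.trans ?_ (show wl_I F G φ - wl_I F' G φ = 0 by rw [h1, h2, sub_zero])
  rw [wl_I, wl_I, wl_I, ← integral_sub
    (nl_int hF hG hφ.lip hφ.2).integrableOn (nl_int hF' hG hφ.lip hφ.2).integrableOn]
  refine integral_congr_ae (ae_restrict_of_ae ?_)
  filter_upwards [zl_c F hF, zl_c F' hF'] with x d1 d2
  simp only [nl_D, grad_sub d1 d2, cross_sub_left, inner_sub_left]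

theorem wl_swap {F G φ : E → ℝ} (h : wl_I F G φ = 0) : wl_I G F φ = 0 := by
  rw [← neg_eq_zero, wl_I, ← integral_neg]
  refine (integral_congr_ae (Eventually.of_forall fun x => ?_)).trans h
  simp only [nl_D]
  rw [cross_anticomm (∇ F x), inner_neg_left]

theorem wl_signF (hNL : NLStmt) (hZL : ZLStmt) {F G φ : E → ℝ} (hF : LocallyLipschitz F)
    (hG : LocallyLipschitz G) (hφ : wl_T φ) (G0 : ∀ x, 0 ≤ G x)
    (φ0 : ∀ x, 0 ≤ φ x) (h0 : ∀ x : E, x 2 = 0 → F x = 0 ∨ G x = 0 ∨ φ x = 0) :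
    wl_I F G φ = 0 :=
  wl_subF (hF.max_const 0) (hF.neg.max_const 0) hG hφ (fun x => (max_zero_sub_max_neg_zero_eq_self _).symm)
    (wl_core hNL hZL (hF.max_const 0) hG hφ (fun _ => le_max_right _ _) G0 φ0 fun x hx =>
      (h0 x hx).imp_left fun h => by simp [h])
    (wl_core hNL hZL (hF.neg.max_const 0) hG hφ (fun _ => le_max_right _ _) G0 φ0 fun x hx =>
      (h0 x hx).imp_left fun h => by simp [h])

theorem wl_signG (hNL : NLStmt) (hZL : ZLStmt) {F G φ : E → ℝ} (hF : LocallyLipschitz F)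
    (hG : LocallyLipschitz G) (hφ : wl_T φ)
    (φ0 : ∀ x, 0 ≤ φ x) (h0 : ∀ x : E, x 2 = 0 → F x = 0 ∨ G x = 0 ∨ φ x = 0) :
    wl_I F G φ = 0 :=
  wl_swap <| wl_subF (hG.max_const 0) (hG.neg.max_const 0) hF hφ
    (fun x => (max_zero_sub_max_neg_zero_eq_self _).symm)
    (wl_swap <| wl_signF hNL hZL hF (hG.max_const 0) hφ (fun _ => le_max_right _ _) φ0 fun x hx =>
      (h0 x hx).imp_right fun h => h.imp_left fun h => by simp [h])
    (wl_swap <| wl_signF hNL hZL hF (hG.neg.max_const 0) hφ (fun _ => le_max_right _ _) φ0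
      fun x hx => (h0 x hx).imp_right fun h => h.imp_left fun h => by simp [h])

theorem wl_sign (hNL : NLStmt) (hZL : ZLStmt) {F G φ : E → ℝ} (hF : LocallyLipschitz F)
    (hG : LocallyLipschitz G) (hφ : wl_T φ) (a b : ℝ)
    (h0 : ∀ x : E, x 2 = 0 → φ x ≠ 0 → F x = a ∨ G x = b) : wl_I F G φ = 0 := by
  have e : wl_I F G φ = wl_I (fun x => F x + -a) (fun x => G x + -b) φ := by
    simp only [wl_I, nl_D, grad_add_const]
  have hF' : LocallyLipschitz fun x => F x + -a := hF.add (LocallyLipschitz.const _)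
  have hG' : LocallyLipschitz fun x => G x + -b := hG.add (LocallyLipschitz.const _)
  have h1 : wl_T fun x => max (φ x) 0 := hφ.of (hφ.1.max_const 0) fun x hx => by simp [hx]
  have h2 : wl_T fun x => max (-φ x) 0 := hφ.of (hφ.1.neg.max_const 0) fun x hx => by simp [hx]
  rw [e]
  refine wl_subφ hF' hG' h1 h2 (fun x => (max_zero_sub_max_neg_zero_eq_self _).symm)
    (wl_signG hNL hZL hF' hG' h1 (fun _ => le_max_right _ _) fun x hx => ?_)
    (wl_signG hNL hZL hF' hG' h2 (fun _ => le_max_right _ _) fun x hx => ?_)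
  all_goals
    by_cases h : φ x = 0
    · simp [h]
    · rcases h0 x hx h with h | h <;> simp [h]

theorem wl_part {F G φ H : E → ℝ} (hF : LocallyLipschitz F) (hG : LocallyLipschitz G)
    (hφ : wl_T φ) (hH : LocallyLipschitz H)
    (h : ∀ c : ℝ, c = 0 ∨ c = Real.pi → ∀ ψ, wl_T ψ → (∀ x, ψ x ≠ 0 → φ x ≠ 0 ∧ H x ≠ Real.pi - c) →
      wl_I F G ψ = 0) : wl_I F G φ = 0 := by
  have hT : ∀ c : ℝ, wl_T fun x => (H x + -c) * Real.pi⁻¹ * φ x := fun c =>
    hφ.of (locLip_mul (locLip_mul (hH.add (LocallyLipschitz.const _)) (LocallyLipschitz.const _))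
      hφ.1) fun x hx => by simp [hx]
  refine wl_subφ hF hG (hT 0) (hT Real.pi) (fun x => ?_)
    (h _ (Or.inr rfl) _ (hT 0) fun x hx => ⟨fun e => hx (by simp [e]), fun e => hx (by simp [e])⟩)
    (h _ (Or.inl rfl) _ (hT _) fun x hx => ⟨fun e => hx (by simp [e]), fun e => hx (by simp [e])⟩)
  field_simp
  ring

theorem WL_proof (hNL : NLStmt) (hZL : ZLStmt) : WLStmt := by
  intro F G φ hF hG h hc h0
  have hφ : wl_T φ := ⟨h.locLip, hc⟩
  have h1 : wl_I F G φ = 0 := by
    refine wl_part hF hG hφ hF fun a ha ψ hψ e => wl_part hF hG hψ hG fun b hb χ hχ e' =>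
      wl_sign hNL hZL hF hG hχ a b fun x hx hne => ?_
    obtain ⟨n1, n2⟩ := e' x hne
    obtain ⟨n3, n4⟩ := e x n1
    have := h0 x hx n3
    rcases ha with rfl | rfl <;> rcases hb with rfl | rfl <;> simp only [sub_zero, sub_self] at * <;>
      tauto
  refine ⟨h1, ?_⟩
  have h2 := integral_add_compl wl_meas (nl_int hF hG h hc)
  have h3 : ∫ x, nl_D F G φ x = 0 := hNL F G φ hF hG h hc
  rw [h3, show ∫ x in {x : E | 0 < x 2}, nl_D F G φ x = 0 from h1, zero_add] at h2
  refine (setIntegral_congr_set ?_).trans h2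
  filter_upwards [ae_coord_ne 2 0] with x hx
  exact propext ⟨fun h h' => lt_asymm h h', fun h => lt_of_le_of_ne (not_lt.1 h) hx⟩

end Crest.Agent.R83
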