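import Crest.Agent.R83.Basic

/-! Row 83, task ZL: gradients on level sets. -/

set_option autoImplicit false

noncomputable section

namespace Crest.Agent.R83

open MeasureTheory Set Filter Topology Metric
open scoped Gradient RealInnerProductSpace NNReal

theorem zl_a (f : E → ℝ) (hf : Continuous f) : volume {x | f x = 0 ∧ fderiv ℝ f x ≠ 0} = 0 := by
  have hs : MeasurableSet {x | f x = 0 ∧ fderiv ℝ f x ≠ 0} :=
    (isClosed_eq hf continuous_const).measurableSet.inter
      (measurable_fderiv ℝ f (measurableSet_singleton 0)).compl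
  have h := ApproximatesLinearOn.norm_fderiv_sub_le (μ := volume) (f := fun x => f x • ee 0)
    (A := 0) (δ := 0) (s := {x | f x = 0 ∧ fderiv ℝ f x ≠ 0}) (fun x hx y hy => by
      simp [hx.1, hy.1]) hs (fun x => (fderiv ℝ f x).smulRight (ee 0)) (fun x hx =>
      ((of_not_not (mt fderiv_zero_of_not_differentiableAt hx.2) :
        DifferentiableAt ℝ f x).hasFDerivAt.smul_const _).hasFDerivWithinAt)
  rw [ae_restrict_iff' hs] at h
  rw [measure_eq_zero_iff_ae_notMem]
  filter_upwards [h] with x h' hx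
  refine hx.2 ?_
  have h1 := h' hx
  rw [sub_zero, nonpos_iff_eq_zero, nnnorm_eq_zero] at h1
  ext v
  have := congrArg (fun L : E →L[ℝ] E => L v 0) h1
  simpa [ee_apply] using this

theorem zl_c (f : E → ℝ) (hf : LocallyLipschitz f) : ∀ᵐ x, DifferentiableAt ℝ f x := by
  have h : ∀ n : ℕ, ∀ᵐ x, x ∈ ball (0 : E) n → DifferentiableWithinAt ℝ f (ball 0 n) x := by
    intro n
    obtain ⟨K, hK⟩ := (hf.locallyLipschitzOn (s := closedBall (0 : E) n)
      ).exists_lipschitzOnWith_of_compact (isCompact_closedBall _ _)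
    exact (hK.mono ball_subset_closedBall).ae_differentiableWithinAt_of_mem
  filter_upwards [ae_all_iff.2 h] with x hx
  obtain ⟨n, hn⟩ := exists_nat_gt ‖x‖
  have hm := mem_ball_zero_iff.2 hn
  exact (hx n hm).differentiableAt (isOpen_ball.mem_nhds hm)

theorem ZL_proof : ZLStmt := by
  refine ⟨zl_a, fun f g hf hg => ?_, zl_c⟩
  have h := measure_eq_zero_iff_ae_notMem.1 (zl_a (fun x => f x - g x)
    (hf.continuous.sub hg.continuous))
  filter_upwards [h, zl_c f hf, zl_c g hg] with x h1 h2 h3 h4
  have h5 : fderiv ℝ (fun x => f x - g x) x = 0 := by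
    by_contra h'
    exact h1 ⟨sub_eq_zero.2 h4, h'⟩
  rw [fderiv_fun_sub h2 h3, sub_eq_zero] at h5
  simp only [gradient, h5]

end Crest.Agent.R83
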