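import Crest.Agent.R83.ZPG

set_option autoImplicit false

noncomputable section

namespace Crest.Agent.R83

open MeasureTheory Set Filter Topology Metric
open scoped Gradient RealInnerProductSpace NNReal

lemma zp0_N (u z : ℝ) : zpN rho (1 / rho) (1 / rho) (1 / rho) u z = (|u| + z) / rho := by
  unfold zpN rho
  rcases le_total 0 u with h | h
  · rw [abs_of_nonneg h, max_eq_left (by linarith : -u / (13 / 25) + 1 / (13 / 25) * z ≤ u / (13 / 25) +
      1 / (13 / 25) * z), max_eq_right (by linarith)]; ring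
  · rw [abs_of_nonpos h, max_eq_right (by linarith : u / (13 / 25) + 1 / (13 / 25) * z ≤ -u / (13 / 25) +
      1 / (13 / 25) * z), max_eq_right (by linarith)]; ring

theorem ZP0_proof (hCN : CNStmt) (hTH : THStmt) : ZP0Stmt := by
  intro t₀ T hT
  have hr : 0 < rho := by norm_num [rho]
  obtain ⟨pp, K, d, hd, lip, qc, hf⟩ := zp_gen hCN hTH (l := rho) (k₁ := 1 / rho) (k₂ := 1 / rho)
    (k₃ := 1 / rho) (c := -cc) (r₀ := cc) (s := 1) (e₀ := cc - rho) hr (by positivity) (by positivity)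
    (by positivity) (Or.inl rfl) hT md_cc_pos (by norm_num [cc, rho]) (fun θ hθ => by
      have hs := Real.sin_nonneg_of_mem_Icc hθ
      have h1 : 1 ≤ |Real.cos θ| + Real.sin θ := by
        nlinarith [Real.sin_sq_add_cos_sq θ, sq_abs (Real.cos θ), abs_nonneg (Real.cos θ),
          Real.abs_cos_le_one θ, Real.sin_le_one θ]
      rw [zp0_N, one_div_div, one_mul]
      have : rho / (|Real.cos θ| + Real.sin θ) ≤ rho := div_le_self hr.le h1
      linarith)
  have key : ∀ q ∈ Z0, zc (-cc) q ≠ 0 ∧ 0 ≤ 1 * (cc - ‖zc (-cc) q‖) ∧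
      0 ≤ 1 * (zpN rho (1 / rho) (1 / rho) (1 / rho) (q 0 - -cc) (q 2) - 1) := fun q hq => by
    refine ⟨fun h => ?_, by linarith [hq.2.2], ?_⟩
    · have h1 := md_norm_zc_sq (-cc) q
      rw [h, norm_zero] at h1
      have a : q 0 - -cc = 0 := by nlinarith [sq_nonneg (q 0 - -cc), sq_nonneg (q 2)]
      have b : q 2 = 0 := by nlinarith [sq_nonneg (q 0 - -cc), sq_nonneg (q 2)]
      have := hq.2.1
      rw [sub_neg_eq_add] at a
      rw [a, b] at this; simp at this; linarith
    · rw [zp0_N, one_mul, sub_nonneg, le_div_iff₀ hr, one_mul, sub_neg_eq_add]; exact hq.2.1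
  refine ⟨pp, K, d, hd, lip, qc.mono fun q h hq => h ⟨hq.1, key q hq⟩, fun q hq => ?_⟩
  obtain ⟨a, b, c, e, f⟩ := hf q hq.1 (key q hq).1 (key q hq).2.1 (key q hq).2.2
  refine ⟨a, b, c, e, fun h => ?_⟩
  have := f (by rw [zp0_N, sub_neg_eq_add, h, div_self hr.ne'])
  rwa [sub_neg_eq_add] at this

end Crest.Agent.R83
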