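import Crest.Agent.R83.MD1

set_option autoImplicit false

noncomputable section

namespace Crest.Agent.R83

open MeasureTheory Set Filter Topology Metric
open scoped Gradient RealInnerProductSpace NNReal

/-- polygonal gauge -/
def zpN (l k₁ k₂ k₃ u z : ℝ) : ℝ := max (k₃ * z) (max (u / l + k₁ * z) (-u / l + k₂ * z))

lemma zp_hom (l k₁ k₂ k₃ u z r : ℝ) (hr : 0 ≤ r) :
    zpN l k₁ k₂ k₃ (r * u) (r * z) = r * zpN l k₁ k₂ k₃ u z := by
  unfold zpN
  rw [mul_max_of_nonneg _ _ hr, mul_max_of_nonneg _ _ hr]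
  congr 1
  · ring
  · congr 1 <;> ring

lemma zp_tie {A B θ : ℝ} (hA : A ≠ 0) (hθ : θ ∈ Ioo 0 Real.pi) (h : A * Real.cos θ + B * Real.sin θ = 0) :
    θ = Real.pi / 2 - Real.arctan (-B / A) := by
  have hs := Real.sin_pos_of_pos_of_lt_pi hθ.1 hθ.2
  have : Real.tan (Real.pi / 2 - θ) = -B / A := by
    rw [Real.tan_eq_sin_div_cos, Real.sin_pi_div_two_sub, Real.cos_pi_div_two_sub]
    field_simp; linarith
  rw [← this, Real.arctan_tan (by linarith [hθ.2]) (by linarith [hθ.1])]; ring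

lemma zp_deriv (A k θ : ℝ) (h : A * Real.cos θ + k * Real.sin θ ≠ 0) :
    HasDerivAt (fun t => Real.cos t / (A * Real.cos t + k * Real.sin t))
      (-k / (A * Real.cos θ + k * Real.sin θ) ^ 2) θ := by
  have := (Real.hasDerivAt_cos θ).div (((Real.hasDerivAt_cos θ).const_mul A).add
    ((Real.hasDerivAt_sin θ).const_mul k)) h
  refine this.congr_deriv ?_
  simp only [Pi.add_apply]
  congr 1
  linear_combination (-k) * Real.sin_sq_add_cos_sq θ

lemma zp_lipOn {C D : ℝ → ℝ} {H : ℝ × ℝ → ℝ} (hC : LocallyLipschitz C) (hD : LocallyLipschitz D)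
    (hH : ∀ θ ∈ Icc 0 Real.pi, ContDiffAt ℝ 1 H (C θ, D θ)) :
    ∃ K, LipschitzOnWith K (fun θ => H (C θ, D θ)) (Icc 0 Real.pi) := by
  apply LocallyLipschitzOn.exists_lipschitzOnWith_of_compact isCompact_Icc
  intro θ hθ
  obtain ⟨K, t, ht, hK⟩ := (hH θ hθ).exists_lipschitzOnWith
  obtain ⟨K', t', ht', hK'⟩ := (hC.prodMk hD) θ
  have hc : ContinuousAt (fun θ => (C θ, D θ)) θ := (hC.prodMk hD).continuous.continuousAt
  refine ⟨K * K', t' ∩ (fun θ => (C θ, D θ)) ⁻¹' t,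
    mem_nhdsWithin_of_mem_nhds (inter_mem ht' (hc ht)), ?_⟩
  exact hK.comp (hK'.mono inter_subset_left) fun x hx => hx.2

lemma zp_gen (hCN : CNStmt) (hTH : THStmt) {l k₁ k₂ k₃ c r₀ s t₀ T e₀ : ℝ} (hl : 0 < l) (h₁ : 0 < k₁)
    (h₂ : 0 < k₂) (h₃ : 0 < k₃) (hs : s = 1 ∨ s = -1) (hT : t₀ < T) (hr₀ : 0 < r₀) (he₀ : 0 < e₀)
    (hsep : ∀ θ ∈ Icc 0 Real.pi, e₀ ≤ s * (r₀ - 1 / zpN l k₁ k₂ k₃ (Real.cos θ) (Real.sin θ))) :
    ∃ (pp : E → E) (K : ℝ≥0) (d : ℝ), 0 < d ∧ LipschitzWith K pp ∧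
      QC s d K pp {q | q ∈ SS ∧ zc c q ≠ 0 ∧ 0 ≤ s * (r₀ - ‖zc c q‖) ∧
        0 ≤ s * (zpN l k₁ k₂ k₃ (q 0 - c) (q 2) - 1)} ∧
      ∀ q ∈ SS, zc c q ≠ 0 → 0 ≤ s * (r₀ - ‖zc c q‖) → 0 ≤ s * (zpN l k₁ k₂ k₃ (q 0 - c) (q 2) - 1) →
        pp q ∈ Box t₀ T ∧ pp q 1 = q 1 ∧ (q 2 = 0 → pp q 0 = 0 ∨ pp q 0 = Real.pi) ∧
        (‖zc c q‖ = r₀ → pp q 0 = th c q ∧ pp q 2 = t₀) ∧
        (zpN l k₁ k₂ k₃ (q 0 - c) (q 2) = 1 → pp q 0 = Real.pi / 2 * (1 - (q 0 - c) / l) ∧ pp q 2 = T) := by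
  have hpi := Real.pi_pos
  set D : ℝ → ℝ := fun θ => zpN l k₁ k₂ k₃ (Real.cos θ) (Real.sin θ) with hD
  set M : ℝ := 1 / l + k₁ + k₂ + k₃ with hM
  have hM0 : 0 < M := by positivity
  have hil : 0 < 1 / l := by positivity
  have D1 : ∀ θ, Real.cos θ / l + k₁ * Real.sin θ ≤ D θ := fun θ =>
    (le_max_left _ _).trans (le_max_right _ _)
  have D2 : ∀ θ, -Real.cos θ / l + k₂ * Real.sin θ ≤ D θ := fun θ =>
    (le_max_right _ _).trans (le_max_right _ _)
  have Dabs : ∀ θ ∈ Icc 0 Real.pi, |Real.cos θ| ≤ l * D θ := fun θ hθ => by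
    have hs := Real.sin_nonneg_of_mem_Icc hθ
    have a := D1 θ; have b := D2 θ
    have a' : Real.cos θ / l ≤ D θ := by linarith [mul_nonneg h₁.le hs]
    have b' : -Real.cos θ / l ≤ D θ := by linarith [mul_nonneg h₂.le hs]
    rw [div_le_iff₀ hl] at a' b'
    exact abs_le.2 ⟨by linarith, by linarith⟩
  have Dpos : ∀ θ ∈ Icc 0 Real.pi, 0 < D θ := fun θ hθ => by
    have hs := Real.sin_nonneg_of_mem_Icc hθ
    rcases hs.lt_or_eq with h | h
    · exact (mul_pos h₃ h).trans_le (le_max_left _ _)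
    · have h1 := Real.sin_sq_add_cos_sq θ
      have : 0 < |Real.cos θ| := abs_pos.2 fun h0 => by rw [← h, h0] at h1; norm_num at h1
      exact (mul_pos_iff_of_pos_left hl).1 (this.trans_le (Dabs θ hθ))
  have DM : ∀ θ, D θ ≤ M := fun θ => by
    have a := Real.sin_le_one θ
    have b : Real.cos θ / l ≤ 1 / l := by gcongr; exact Real.cos_le_one θ
    have c : -Real.cos θ / l ≤ 1 / l := by gcongr; linarith [Real.neg_one_le_cos θ]
    have s1 := mul_le_of_le_one_right h₁.le a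
    have s2 := mul_le_of_le_one_right h₂.le a
    have s3 := mul_le_of_le_one_right h₃.le a
    refine max_le (by linarith) (max_le (by linarith) (by linarith))
  have Dlip : LocallyLipschitz D := by
    have f1 : LocallyLipschitz fun θ => k₃ * Real.sin θ :=
      (by fun_prop : ContDiff ℝ 1 fun θ => k₃ * Real.sin θ).locallyLipschitz
    have f2 : LocallyLipschitz fun θ => Real.cos θ / l + k₁ * Real.sin θ :=
      (by fun_prop : ContDiff ℝ 1 fun θ => Real.cos θ / l + k₁ * Real.sin θ).locallyLipschitz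
    have f3 : LocallyLipschitz fun θ => -Real.cos θ / l + k₂ * Real.sin θ :=
      (by fun_prop : ContDiff ℝ 1 fun θ => -Real.cos θ / l + k₂ * Real.sin θ).locallyLipschitz
    exact f1.max (f2.max f3)
  have Clip : LocallyLipschitz Real.cos := (Real.contDiff_cos (n := 1)).locallyLipschitz
  set ϱ : ℝ → ℝ := fun θ => 1 / D θ with hϱ
  set Ξ : ℝ → ℝ := fun θ => Real.pi / 2 * (1 - Real.cos θ / D θ / l) with hΞ
  obtain ⟨Ka, la⟩ := zp_lipOn (H := fun z => 1 / z.2) Clip Dlip fun θ hθ =>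
    contDiffAt_const.div contDiffAt_snd (Dpos θ hθ).ne'
  obtain ⟨Kb, lb⟩ := zp_lipOn (H := fun z => Real.pi / 2 * (1 - z.1 / z.2 / l)) Clip Dlip fun θ hθ =>
    contDiffAt_const.mul (contDiffAt_const.sub ((contDiffAt_fst.div contDiffAt_snd
      (Dpos θ hθ).ne').div_const l))
  set km := min k₁ (min k₂ k₃) with hkm
  have hkm0 : 0 < km := lt_min h₁ (lt_min h₂ h₃)
  set e := min (min e₀ r₀) (min (1 / M) (Real.pi / 2 * (km / M ^ 2 / l))) with he
  have piece : ∀ (A k : ℝ) (θ : ℝ), km ≤ k → θ ∈ Ioo 0 Real.pi →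
      (∀ᶠ t in 𝓝 θ, D t = A * Real.cos t + k * Real.sin t) →
      ContDiffAt ℝ 1 ϱ θ ∧ ContDiffAt ℝ 1 Ξ θ ∧ e ≤ deriv Ξ θ := fun A k θ hk hθ hev => by
    have hp := Dpos θ (Ioo_subset_Icc_self hθ)
    have h0 := hev.self_of_nhds
    have cD : ContDiffAt ℝ 1 D θ :=
      (by fun_prop : ContDiffAt ℝ 1 (fun t => A * Real.cos t + k * Real.sin t) θ).congr_of_eventuallyEq hev
    refine ⟨contDiffAt_const.div cD hp.ne', contDiffAt_const.mul (contDiffAt_const.sub
      ((Real.contDiff_cos.contDiffAt.div cD hp.ne').div_const l)), ?_⟩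
    have hd := ((((zp_deriv A k θ (h0 ▸ hp.ne')).div_const l).const_sub 1).const_mul (Real.pi / 2))
    have hd' : HasDerivAt Ξ _ θ := hd.congr_of_eventuallyEq (hev.mono fun t ht => by simp only [hΞ, ht])
    rw [hd'.deriv, ← h0]
    refine ((min_le_right _ _).trans (min_le_right _ _)).trans ?_
    rw [neg_div, neg_div, neg_neg]
    have := DM θ
    have := hkm0.le.trans hk
    gcongr
  obtain ⟨pp, K, d, hd, lip, qc, hf⟩ := hCN c r₀ s t₀ T e ϱ Ξ (max Ka Kb)
    {Real.pi / 2 - Real.arctan (-(k₁ - k₃) / (1 / l)), Real.pi / 2 - Real.arctan (-(k₂ - k₃) / (-1 / l)),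
      Real.pi / 2 - Real.arctan (-(k₁ - k₂) / (2 / l))} hs (by positivity) hT
    ((min_le_left _ _).trans (min_le_right _ _)) (la.weaken (le_max_left _ _)) (lb.weaken (le_max_right _ _))
    (fun θ hθ => ⟨((min_le_left _ _).trans (min_le_left _ _)).trans (hsep θ hθ),
      ((min_le_right _ _).trans (min_le_left _ _)).trans (one_div_le_one_div_of_le (Dpos θ hθ) (DM θ))⟩)
    (fun θ hθ hn => by
      simp only [Finset.mem_insert, Finset.mem_singleton, not_or] at hn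
      have n13 : Real.cos θ / l + k₁ * Real.sin θ ≠ k₃ * Real.sin θ := fun h =>
        hn.1 (zp_tie hil.ne' hθ (by linear_combination h))
      have n23 : -Real.cos θ / l + k₂ * Real.sin θ ≠ k₃ * Real.sin θ := fun h =>
        hn.2.1 (zp_tie (by rw [neg_div]; exact neg_ne_zero.2 hil.ne') hθ (by linear_combination h))
      have n12 : Real.cos θ / l + k₁ * Real.sin θ ≠ -Real.cos θ / l + k₂ * Real.sin θ := fun h =>
        hn.2.2 (zp_tie (by positivity) hθ (by linear_combination h))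
      have c1 : Continuous fun t => Real.cos t / l + k₁ * Real.sin t := by fun_prop
      have c2 : Continuous fun t => -Real.cos t / l + k₂ * Real.sin t := by fun_prop
      have c3 : Continuous fun t => k₃ * Real.sin t := by fun_prop
      have lt := fun {f g : ℝ → ℝ} (hf : Continuous f) (hg : Continuous g) (h : f θ < g θ) =>
        hf.continuousAt.eventually_lt hg.continuousAt h
      have p1 := piece (1 / l) k₁ θ (min_le_left _ _) hθ
      have p2 := piece (-1 / l) k₂ θ ((min_le_right _ _).trans (min_le_left _ _)) hθ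
      have p3 := piece 0 k₃ θ ((min_le_right _ _).trans (min_le_right _ _)) hθ
      rcases n12.lt_or_gt with a | a
      · rcases n23.lt_or_gt with b | b
        · refine p3 ?_
          filter_upwards [lt c1 c2 a, lt c2 c3 b] with t x y
          simp only [hD, zpN]; rw [max_eq_right x.le, max_eq_left y.le]; ring
        · refine p2 ?_
          filter_upwards [lt c1 c2 a, lt c3 c2 b] with t x y
          simp only [hD, zpN]; rw [max_eq_right x.le, max_eq_right y.le]; ring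
      · rcases n13.lt_or_gt with b | b
        · refine p3 ?_
          filter_upwards [lt c2 c1 a, lt c1 c3 b] with t x y
          simp only [hD, zpN]; rw [max_eq_left x.le, max_eq_left y.le]; ring
        · refine p1 ?_
          filter_upwards [lt c2 c1 a, lt c3 c1 b] with t x y
          simp only [hD, zpN]; rw [max_eq_left x.le, max_eq_right y.le]; ring)
  have hN : ∀ q ∈ SS, zc c q ≠ 0 → zpN l k₁ k₂ k₃ (q 0 - c) (q 2) = ‖zc c q‖ * D (th c q) :=
    fun q hq hz => by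
      obtain ⟨-, -, -, a, b, -⟩ := hTH c q hq.1 hz
      conv_lhs => rw [a, b]
      exact zp_hom _ _ _ _ _ _ _ (norm_nonneg _)
  have hZ : ∀ q ∈ SS, zc c q ≠ 0 → 0 ≤ s * (r₀ - ‖zc c q‖) →
      0 ≤ s * (zpN l k₁ k₂ k₃ (q 0 - c) (q 2) - 1) → q ∈ Zone c r₀ s ϱ := fun q hq hz a b => by
    refine ⟨hq, hz, a, ?_⟩
    obtain ⟨-, t1, t2, -⟩ := hTH c q hq.1 hz
    have hp := Dpos _ ⟨t1, t2⟩
    rw [hN q hq hz] at b
    have : s * (‖zc c q‖ - ϱ (th c q)) = s * (‖zc c q‖ * D (th c q) - 1) / D (th c q) := by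
      simp only [hϱ]; field_simp
    rw [this]; positivity
  refine ⟨pp, K, d, hd, lip, qc.mono fun q h hq => h (hZ q hq.1 hq.2.1 hq.2.2.1 hq.2.2.2),
    fun q hq hz a b => ?_⟩
  have hq' := hZ q hq hz a b
  obtain ⟨f0, f1, f2⟩ := hf q hq'
  obtain ⟨-, t1, t2, t3, t4, t5, -⟩ := hTH c q hq.1 hz
  have hp := Dpos _ ⟨t1, t2⟩
  have hsp : 0 < s * (r₀ - ϱ (th c q)) := he₀.trans_le (hsep _ ⟨t1, t2⟩)
  have hne : r₀ - ϱ (th c q) ≠ 0 := fun h => by rw [h, mul_zero] at hsp; exact lt_irrefl _ hsp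
  have hs0 : s ≠ 0 := by rcases hs with h | h <;> rw [h] <;> norm_num
  set m := (r₀ - ‖zc c q‖) / (r₀ - ϱ (th c q)) with hm
  have hm' : m = s * (r₀ - ‖zc c q‖) / (s * (r₀ - ϱ (th c q))) := by rw [hm]; field_simp
  have m0 : 0 ≤ m := by rw [hm']; positivity
  have m1 : m ≤ 1 := by
    rw [hm', div_le_one hsp]; linarith [hq'.2.2.2]
  have hX : |Real.cos (th c q) / D (th c q) / l| ≤ 1 := by
    rw [div_div, abs_div, abs_of_pos (mul_pos hp hl), div_le_one (mul_pos hp hl), mul_comm]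
    exact Dabs _ ⟨t1, t2⟩
  have x0 : 0 ≤ Ξ (th c q) := by
    have := (abs_le.1 hX).2
    exact mul_nonneg (by positivity) (by linarith)
  have x1 : Ξ (th c q) ≤ Real.pi := by
    have := mul_le_mul_of_nonneg_left (show 1 - Real.cos (th c q) / D (th c q) / l ≤ 2 by
      linarith [(abs_le.1 hX).1]) (show 0 ≤ Real.pi / 2 by positivity)
    simp only [hΞ]; linarith
  refine ⟨⟨?_, ?_, f1 ▸ hq.2.1, f1 ▸ hq.2.2, ?_, ?_⟩, f1, fun h => ?_, fun h => ?_, fun h => ?_⟩
  · rw [f0]; linarith [mul_nonneg m0 x0, mul_nonneg (sub_nonneg.2 m1) t1]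
  · rw [f0]; linarith [mul_nonneg m0 (sub_nonneg.2 x1), mul_nonneg (sub_nonneg.2 m1) (sub_nonneg.2 t2)]
  · rw [f2]; linarith [mul_nonneg (sub_nonneg.2 hT.le) m0]
  · rw [f2]; linarith [mul_nonneg (sub_nonneg.2 hT.le) (sub_nonneg.2 m1)]
  · rw [f0]
    rcases t5 h with h0 | h0
    · left
      have : D 0 = 1 / l := by
        simp only [hD, zpN, Real.cos_zero, Real.sin_zero, mul_zero, add_zero]
        rw [max_eq_left (by rw [neg_div]; linarith : -1 / l ≤ 1 / l), max_eq_right hil.le]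
      rw [h0]; simp only [hΞ, this, Real.cos_zero]; field_simp; ring
    · right
      have : D Real.pi = 1 / l := by
        simp only [hD, zpN, Real.cos_pi, Real.sin_pi, mul_zero, add_zero, neg_neg]
        rw [max_eq_right (by rw [neg_div]; linarith : -1 / l ≤ 1 / l), max_eq_right hil.le]
      rw [h0]; simp only [hΞ, this, Real.cos_pi]; field_simp; ring
  · have : m = 0 := by rw [hm, h, sub_self, zero_div]
    rw [f0, f2, this]; simp
  · rw [hN q hq hz] at h
    have hr : ‖zc c q‖ = ϱ (th c q) := by simp only [hϱ]; field_simp; linarith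
    have : m = 1 := by rw [hm, hr, div_self hne]
    rw [f0, f2, this, t3, hr]
    simp only [hΞ, hϱ]
    exact ⟨by ring, by ring⟩

end Crest.Agent.R83
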