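import Crest.Agent.R83.ZPG

set_option autoImplicit false

noncomputable section

namespace Crest.Agent.R83

open MeasureTheory Set Filter Topology Metric
open scoped Gradient RealInnerProductSpace NNReal

def zpiN (u z : ℝ) : ℝ := zpN LL (27 / 4000 / LL) (49 / 4000 / LL) (5 / 12) u z

lemma zpi_le (ξ z : ℝ) : zpiN (ξ - -cc) z ≤ 1 ↔ z ≤ top ξ := by
  unfold zpiN zpN top n1 N1 LL cc
  simp only [max_le_iff]
  constructor
  · rintro ⟨a, b, c⟩
    have : max (247 / 250 : ℝ) (max (ξ / (27 / 20)) (-ξ / (49 / 20))) ≤ 1 - z / 200 :=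
      max_le (by linarith) (max_le (by linarith) (by linarith))
    linarith
  · intro h
    have a := le_max_left (247 / 250 : ℝ) (max (ξ / (27 / 20)) (-ξ / (49 / 20)))
    have b := (le_max_left (ξ / (27 / 20)) (-ξ / (49 / 20))).trans
      (le_max_right (247 / 250 : ℝ) (max (ξ / (27 / 20)) (-ξ / (49 / 20))))
    have c := (le_max_right (ξ / (27 / 20)) (-ξ / (49 / 20))).trans
      (le_max_right (247 / 250 : ℝ) (max (ξ / (27 / 20)) (-ξ / (49 / 20))))
    exact ⟨by linarith, by linarith, by linarith⟩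

lemma zpi_lt (ξ z : ℝ) : zpiN (ξ - -cc) z < 1 → z < top ξ := by
  unfold zpiN zpN top n1 N1 LL cc
  simp only [max_lt_iff]
  rintro ⟨a, b, c⟩
  have : max (247 / 250 : ℝ) (max (ξ / (27 / 20)) (-ξ / (49 / 20))) < 1 - z / 200 :=
    max_lt (by linarith) (max_lt (by linarith) (by linarith))
  linarith

lemma zpi_bd {u z r : ℝ} (hu : |u| ≤ r) (hz : z ≤ r) : zpiN u z ≤ 5 / 9 * r := by
  have := abs_le.1 hu
  unfold zpiN zpN LL
  exact max_le (by linarith) (max_le (by linarith) (by linarith))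

lemma zpi_pos {θ : ℝ} (hθ : θ ∈ Icc 0 Real.pi) : 0 < zpiN (Real.cos θ) (Real.sin θ) := by
  have hs := Real.sin_nonneg_of_mem_Icc hθ
  have h1 : 1 ≤ |Real.cos θ| + Real.sin θ := by
    nlinarith [Real.sin_sq_add_cos_sq θ, sq_abs (Real.cos θ), abs_nonneg (Real.cos θ),
      Real.abs_cos_le_one θ, Real.sin_le_one θ]
  unfold zpiN zpN LL
  by_contra h
  simp only [not_lt, max_le_iff] at h
  obtain ⟨a, b, c⟩ := h
  have : |Real.cos θ| ≤ 0 := abs_le.2 ⟨by linarith, by linarith⟩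
  linarith

theorem ZPI_proof (hCN : CNStmt) (hTH : THStmt) : ZPIStmt := by
  intro t₀ T hT
  have hl : 0 < LL := by norm_num [LL]
  have hc := md_cc_pos
  obtain ⟨pp, K, d, hd, lip, qc, hf⟩ := zp_gen hCN hTH (l := LL) (k₁ := 27 / 4000 / LL)
    (k₂ := 49 / 4000 / LL) (k₃ := 5 / 12) (c := -cc) (r₀ := 3 * cc) (s := -1) (e₀ := 1 / 10) hl
    (by positivity) (by positivity) (by positivity) (Or.inr rfl) hT (by positivity) (by norm_num)
    (fun θ hθ => by
      have h1 := zpi_bd (Real.abs_cos_le_one θ) (Real.sin_le_one θ)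
      have h2 := one_div_le_one_div_of_le (zpi_pos hθ) h1
      unfold zpiN at h2
      unfold cc; linarith)
  have hz2 : ∀ q : E, q 2 ≤ ‖zc (-cc) q‖ := fun q => by
    have := md_norm_zc_sq (-cc) q
    exact le_of_sq_le_sq (by nlinarith [sq_nonneg (q 0 - -cc)]) (norm_nonneg _) |> fun h => h
  have key : ∀ q ∈ Zi, zc (-cc) q ≠ 0 ∧ 0 ≤ -1 * (3 * cc - ‖zc (-cc) q‖) ∧
      0 ≤ -1 * (zpN LL (27 / 4000 / LL) (49 / 4000 / LL) (5 / 12) (q 0 - -cc) (q 2) - 1) := fun q hq => by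
    refine ⟨norm_pos_iff.1 (by linarith [hq.2.1]), by linarith [hq.2.1], ?_⟩
    have := (zpi_le _ _).2 hq.2.2
    unfold zpiN at this; linarith
  have htop : ∀ q : E, q 2 = top (q 0) → zpiN (q 0 - -cc) (q 2) = 1 := fun q h =>
    le_antisymm ((zpi_le _ _).2 h.le) (not_lt.1 fun h' => (zpi_lt _ _ h').ne h)
  refine ⟨pp, K, d, hd, lip, qc.mono fun q h hq => h ⟨hq.1, key q hq⟩, fun q hq => ?_,
    fun q hq h => ⟨hq, h.ge, (zpi_le _ _).1 ?_⟩, fun q hq h => ?_⟩
  · obtain ⟨a, b, c, e, f⟩ := hf q hq.1 (key q hq).1 (key q hq).2.1 (key q hq).2.2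
    refine ⟨a, b, c, e, fun h => ?_⟩
    have := f (htop q h)
    rwa [sub_neg_eq_add] at this
  · have := zpi_bd (md_abs_le_norm (-cc) q) (hz2 q)
    rw [h] at this; unfold cc at *; linarith
  · have := zpi_bd (md_abs_le_norm (-cc) q) (hz2 q)
    rw [htop q h] at this; unfold cc at *; linarith

end Crest.Agent.R83
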